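import Mathlib

/-!
# P262, library NEST, part 1: fibre averages for the standard Gaussian measure

`fib W f x = ∫ f (P_W x + (z - P_W z)) dγ(z)` is the conditional expectation of `f` given the
label `P_W x`, as an honest function.
-/

set_option linter.all false

open MeasureTheory ProbabilityTheory Set
open scoped ENNReal RealInnerProductSpace

namespace Vale.Agent.P262.H395

variable {E : Type*} [NormedAddCommGroup E] [InnerProductSpace ℝ E] [FiniteDimensional ℝ E]
  [MeasurableSpace E] [BorelSpace E]

/-- replace the component of `x` orthogonal to `W` by the one of `z` -/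
noncomputable def mix (W : Submodule ℝ E) (x z : E) : E :=
  W.starProjection x + (z - W.starProjection z)

lemma proj_proj (W : Submodule ℝ E) (x : E) :
    W.starProjection (W.starProjection x) = W.starProjection x :=
  Submodule.starProjection_eq_self_iff.mpr (Submodule.starProjection_apply_mem W x)

lemma proj_eq_zero {W : Submodule ℝ E} {w : E} (hw : w ∈ Wᗮ) : W.starProjection w = 0 :=
  (Submodule.starProjection_apply_eq_zero_iff (K := W)).mpr hw

lemma continuous_mix (W : Submodule ℝ E) : Continuous fun p : E × E => mix W p.1 p.2 := by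
  unfold mix
  fun_prop

lemma measurable_mix (W : Submodule ℝ E) : Measurable fun p : E × E => mix W p.1 p.2 :=
  (continuous_mix W).measurable

lemma measurable_mix_right (W : Submodule ℝ E) (x : E) : Measurable (mix W x) :=
  (measurable_mix W).comp (measurable_const.prodMk measurable_id)

/-- the law of `mix W x z` is the standard Gaussian law -/
lemma map_mix (W : Submodule ℝ E) :
    ((stdGaussian E).prod (stdGaussian E)).map (fun p : E × E => mix W p.1 p.2)
      = stdGaussian E := by
  have hm := measurable_mix (E := E) W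
  haveI : IsProbabilityMeasure
      (((stdGaussian E).prod (stdGaussian E)).map (fun p : E × E => mix W p.1 p.2)) :=
    Measure.isProbabilityMeasure_map hm.aemeasurable
  apply Measure.ext_of_charFun
  funext t
  rw [charFun_apply, integral_map hm.aemeasurable (by fun_prop)]
  have e : ∀ p : E × E, Complex.exp (⟪mix W p.1 p.2, t⟫ * Complex.I)
      = Complex.exp (⟪p.1, W.starProjection t⟫ * Complex.I)
        * Complex.exp (⟪p.2, t - W.starProjection t⟫ * Complex.I) := by
    intro p
    rw [← Complex.exp_add]
    congr 1
    rw [← add_mul]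
    congr 1
    have h1 : ⟪mix W p.1 p.2, t⟫ = ⟪p.1, W.starProjection t⟫ + ⟪p.2, t - W.starProjection t⟫ := by
      unfold mix
      rw [inner_add_left, inner_sub_left, inner_sub_right,
        Submodule.inner_starProjection_left_eq_right, Submodule.inner_starProjection_left_eq_right]
    rw [h1]
    push_cast
    ring
  simp_rw [e]
  rw [integral_prod_mul (f := fun x : E => Complex.exp (⟪x, W.starProjection t⟫ * Complex.I))
    (g := fun x : E => Complex.exp (⟪x, t - W.starProjection t⟫ * Complex.I))]
  rw [← charFun_apply, ← charFun_apply, charFun_stdGaussian, charFun_stdGaussian,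
    charFun_stdGaussian, ← Complex.exp_add]
  congr 1
  have h2 : ‖t‖ ^ 2 = ‖W.starProjection t‖ ^ 2 + ‖t - W.starProjection t‖ ^ 2 := by
    have h3 : ⟪W.starProjection t, t - W.starProjection t⟫ = 0 := by
      rw [inner_sub_right, Submodule.inner_starProjection_left_eq_right,
        Submodule.inner_starProjection_left_eq_right]
      rw [proj_proj, sub_self]
    have h4 := norm_add_sq_real (W.starProjection t) (t - W.starProjection t)
    rw [h3] at h4
    rw [add_sub_cancel] at h4
    linarith
  have h5 : ((‖t‖ : ℂ)) ^ 2 = (‖W.starProjection t‖ : ℂ) ^ 2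
      + (‖t - W.starProjection t‖ : ℂ) ^ 2 := by exact_mod_cast h2
  rw [h5]
  ring

lemma mp_mix (W : Submodule ℝ E) :
    MeasurePreserving (fun p : E × E => mix W p.1 p.2)
      ((stdGaussian E).prod (stdGaussian E)) (stdGaussian E) :=
  ⟨measurable_mix W, map_mix W⟩

/-- the fibre average (conditional expectation given `P_W x`) -/
noncomputable def fib (W : Submodule ℝ E) (f : E → ℝ≥0∞) (x : E) : ℝ≥0∞ :=
  ∫⁻ z, f (mix W x z) ∂stdGaussian E

/-- `f` is a function of `P_W x` -/
def Inv (W : Submodule ℝ E) (f : E → ℝ≥0∞) : Prop := ∀ x, ∀ w ∈ Wᗮ, f (x + w) = f x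

lemma Inv.eq_of {W : Submodule ℝ E} {f : E → ℝ≥0∞} (hf : Inv W f) {x y : E}
    (h : W.starProjection x = W.starProjection y) : f x = f y := by
  have h1 : y - x ∈ Wᗮ := by
    rw [← Submodule.starProjection_apply_eq_zero_iff, map_sub, h, sub_self]
  have := hf x (y - x) h1
  rw [add_sub_cancel] at this
  exact this.symm

lemma starProjection_mix (W : Submodule ℝ E) (x z : E) :
    W.starProjection (mix W x z) = W.starProjection x := by
  unfold mix
  rw [map_add, map_sub, proj_proj, proj_proj, sub_self, add_zero]

lemma Inv.mix {W : Submodule ℝ E} {f : E → ℝ≥0∞} (hf : Inv W f) (x z : E) :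
    f (mix W x z) = f x := hf.eq_of (starProjection_mix W x z)

lemma Inv.mono {W W' : Submodule ℝ E} (h : W ≤ W') {f : E → ℝ≥0∞} (hf : Inv W f) : Inv W' f :=
  fun x w hw => hf x w (Submodule.orthogonal_le h hw)

lemma inv_const (W : Submodule ℝ E) (c : ℝ≥0∞) : Inv W fun _ : E => c := fun _ _ _ => rfl

lemma Inv.add {W : Submodule ℝ E} {f g : E → ℝ≥0∞} (hf : Inv W f) (hg : Inv W g) :
    Inv W fun x => f x + g x := fun x w hw => by simp only [hf x w hw, hg x w hw]

lemma Inv.mul {W : Submodule ℝ E} {f g : E → ℝ≥0∞} (hf : Inv W f) (hg : Inv W g) :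
    Inv W fun x => f x * g x := fun x w hw => by simp only [hf x w hw, hg x w hw]

lemma Inv.max {W : Submodule ℝ E} {f g : E → ℝ≥0∞} (hf : Inv W f) (hg : Inv W g) :
    Inv W fun x => max (f x) (g x) := fun x w hw => by simp only [hf x w hw, hg x w hw]

lemma Inv.ite {W : Submodule ℝ E} {f g : E → ℝ≥0∞} (hf : Inv W f) (hg : Inv W g) :
    Inv W fun x => if f x < g x then (1 : ℝ≥0∞) else 0 := fun x w hw => by
  simp only [hf x w hw, hg x w hw]

lemma inv_fib (W : Submodule ℝ E) (f : E → ℝ≥0∞) : Inv W (fib W f) := by
  intro x w hw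
  unfold fib
  congr 1
  funext z
  congr 1
  unfold Vale.Agent.P262.H395.mix
  rw [map_add, proj_eq_zero hw, add_zero]

lemma measurable_fib {W : Submodule ℝ E} {f : E → ℝ≥0∞} (hf : Measurable f) :
    Measurable (fib W f) := by
  unfold fib
  exact (hf.comp (measurable_mix W)).lintegral_prod_right'

lemma fib_mono {W : Submodule ℝ E} {f g : E → ℝ≥0∞} (h : ∀ x, f x ≤ g x) (x : E) :
    fib W f x ≤ fib W g x := lintegral_mono fun _ => h _

lemma fib_const (W : Submodule ℝ E) (c : ℝ≥0∞) (x : E) : fib W (fun _ => c) x = c := by
  simp [fib]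

lemma fib_le_one {W : Submodule ℝ E} {f : E → ℝ≥0∞} (h : ∀ x, f x ≤ 1) (x : E) :
    fib W f x ≤ 1 := (fib_mono h x).trans_eq (fib_const W 1 x)

lemma fib_add {W : Submodule ℝ E} {f g : E → ℝ≥0∞} (hf : Measurable f) (x : E) :
    fib W (fun y => f y + g y) x = fib W f x + fib W g x := by
  unfold fib
  exact lintegral_add_left (hf.comp (measurable_mix_right W x)) _

lemma fib_add_right {W : Submodule ℝ E} {f g : E → ℝ≥0∞} (hg : Measurable g) (x : E) :
    fib W (fun y => f y + g y) x = fib W f x + fib W g x := by
  unfold fib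
  exact lintegral_add_right _ (hg.comp (measurable_mix_right W x))

lemma fib_mul {W : Submodule ℝ E} {f g : E → ℝ≥0∞} (hg : Inv W g) (hf : Measurable f) (x : E) :
    fib W (fun y => g y * f y) x = g x * fib W f x := by
  unfold fib
  simp_rw [hg.mix]
  exact lintegral_const_mul _ (hf.comp (measurable_mix_right W x))

lemma fib_eq_self {W : Submodule ℝ E} {g : E → ℝ≥0∞} (hg : Inv W g) (x : E) :
    fib W g x = g x := by
  unfold fib
  simp_rw [hg.mix]
  simp

lemma lintegral_fib {W : Submodule ℝ E} {f : E → ℝ≥0∞} (hf : Measurable f) :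
    ∫⁻ x, fib W f x ∂stdGaussian E = ∫⁻ x, f x ∂stdGaussian E := by
  unfold fib
  rw [lintegral_lintegral (f := fun x z => f (mix W x z))
    (hf.comp (measurable_mix W)).aemeasurable]
  exact (mp_mix W).lintegral_comp hf

/-- duality -/
lemma lintegral_mul_fib {W : Submodule ℝ E} {f g : E → ℝ≥0∞} (hg : Inv W g)
    (hgm : Measurable g) (hf : Measurable f) :
    ∫⁻ x, g x * fib W f x ∂stdGaussian E = ∫⁻ x, g x * f x ∂stdGaussian E := by
  rw [← lintegral_fib (W := W) (f := fun y => g y * f y) (hgm.mul hf)]
  apply lintegral_congr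
  intro x
  exact (fib_mul hg hf x).symm

lemma mix_mix {W W' : Submodule ℝ E} (h : W ≤ W') (x z z' : E) :
    mix W' (mix W x z) z' = mix W x (mix W' z z') := by
  unfold mix
  have h1 : ∀ y, W'.starProjection (W.starProjection y) = W.starProjection y := fun y =>
    Submodule.starProjection_eq_self_iff.mpr (h (Submodule.starProjection_apply_mem W y))
  have h2 : ∀ y, W.starProjection (W'.starProjection y) = W.starProjection y := by
    intro y
    have h3 : y - W'.starProjection y ∈ Wᗮ :=
      Submodule.orthogonal_le h (Submodule.sub_starProjection_mem_orthogonal y)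
    have h4 := proj_eq_zero h3
    rw [map_sub, sub_eq_zero] at h4
    exact h4.symm
  have h3 : W.starProjection z' - W.starProjection (W'.starProjection z') = 0 := by
    rw [h2, sub_self]
  simp only [map_add, map_sub, h1, h2]
  abel_nf

/-- **tower property** -/
lemma fib_tower {W W' : Submodule ℝ E} (h : W ≤ W') {f : E → ℝ≥0∞} (hf : Measurable f) (x : E) :
    fib W (fib W' f) x = fib W f x := by
  unfold fib
  simp_rw [mix_mix h]
  rw [lintegral_lintegral (f := fun z z' => f (mix W x (mix W' z z')))
    ((hf.comp (measurable_mix_right W x)).comp (measurable_mix W')).aemeasurable]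
  exact (mp_mix W').lintegral_comp (hf.comp (measurable_mix_right W x))

lemma fib_bot (f : E → ℝ≥0∞) (x : E) :
    fib (⊥ : Submodule ℝ E) f x = ∫⁻ z, f z ∂stdGaussian E := by
  unfold fib mix
  simp [Submodule.starProjection_bot]

lemma fib_top (f : E → ℝ≥0∞) (x : E) : fib (⊤ : Submodule ℝ E) f x = f x := by
  unfold fib mix
  simp [Submodule.starProjection_top]

/-- labels `W ≤ W'` carry the same information on `U`-measurable functions when their
projections agree on `U` -/
lemma fib_eq_of_markov {W W' U : Submodule ℝ E} {f : E → ℝ≥0∞} (hf : Inv U f)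
    (hU : ∀ u ∈ U, W'.starProjection u = W.starProjection u) (x : E) :
    fib W' f x = fib W f x := by
  unfold fib
  apply lintegral_congr
  intro z
  apply hf.eq_of
  have key : ∀ y, U.starProjection (W'.starProjection y) = U.starProjection (W.starProjection y) := by
    intro y
    apply ext_inner_right ℝ
    intro t
    rw [Submodule.inner_starProjection_left_eq_right, Submodule.inner_starProjection_left_eq_right,
      Submodule.inner_starProjection_left_eq_right, Submodule.inner_starProjection_left_eq_right,
      hU _ (Submodule.starProjection_apply_mem U t)]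
  unfold mix
  simp only [map_add, map_sub, key]

/-- **Markov form of the tower property**: if `f` is a function of `P_U x` and the labels `W` add
nothing to `W'` on `U`, then averaging first over `W'` and then over `W` is averaging over `W`. -/
lemma fib_markov {W W' U : Submodule ℝ E} {f : E → ℝ≥0∞} (hf : Inv U f) (hfm : Measurable f)
    (hU : ∀ u ∈ U, (W ⊔ W').starProjection u = W'.starProjection u) (x : E) :
    fib W (fib W' f) x = fib W f x := by
  have h1 : fib W' f = fib (W ⊔ W') f := by
    funext y
    exact (fib_eq_of_markov hf hU y).symm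
  rw [h1, fib_tower le_sup_left hfm]

lemma fib_congr_ae {W : Submodule ℝ E} {f g : E → ℝ≥0∞} (hf : Measurable f) (hg : Measurable g)
    (h : f =ᵐ[stdGaussian E] g) : fib W f =ᵐ[stdGaussian E] fib W g := by
  have h1 : (fun p : E × E => f (mix W p.1 p.2)) =ᵐ[(stdGaussian E).prod (stdGaussian E)]
      fun p : E × E => g (mix W p.1 p.2) :=
    (mp_mix W).quasiMeasurePreserving.ae_eq_comp h
  have h2 := Measure.ae_ae_of_ae_prod h1
  filter_upwards [h2] with x hx
  exact lintegral_congr_ae hx

/-- relation with the fibre measures of `Vale.Agent.P262.H493.star_inner` -/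
lemma fib_indicator (W : Submodule ℝ E) {K : Set E} (hK : MeasurableSet K) (x : E) :
    fib W (K.indicator 1) x
      = stdGaussian E {z | W.starProjection x + (z - W.starProjection z) ∈ K} := by
  unfold fib
  have h1 : MeasurableSet {z | mix W x z ∈ K} := measurable_mix_right W x hK
  have h2 : ∀ z, K.indicator (1 : E → ℝ≥0∞) (mix W x z)
      = ({z | mix W x z ∈ K}).indicator (1 : E → ℝ≥0∞) z := by
    intro z
    by_cases h : mix W x z ∈ K
    · rw [indicator_of_mem h, indicator_of_mem (by exact h)]; rfl
    · rw [indicator_of_notMem h, indicator_of_notMem (by exact h)]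
  simp_rw [h2]
  rw [lintegral_indicator_one h1]
  rfl

/-- the complement -/
lemma fib_indicator_compl (W : Submodule ℝ E) {K : Set E} (hK : MeasurableSet K) (x : E) :
    fib W (K.indicator 1) x + fib W (Kᶜ.indicator 1) x = 1 := by
  rw [← fib_add (measurable_one.indicator hK)]
  have : (fun y => K.indicator (1 : E → ℝ≥0∞) y + Kᶜ.indicator 1 y) = fun _ => 1 := by
    funext y
    by_cases h : y ∈ K
    · simp [h]
    · simp [h]
  rw [this, fib_const]

end Vale.Agent.P262.H395
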