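import Vale.Agent.P262.H395.Fib

/-!
# P262, library NEST, part 5: label dependent flags (trees of labels)

A tree of labels: a leaf carries an index `i` (of a payoff), a node carries a subspace `W`, a cap
`a` (a function of the label `P_W x`), a class function `c` (a function of the label) and for every
class the rest of the tree. So the next subspace, its cap, its frame etc. may depend on the label.
-/

set_option linter.all false

open MeasureTheory ProbabilityTheory Set
open scoped ENNReal RealInnerProductSpace

namespace Vale.Agent.P262.H395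

/-- trees of labels -/
inductive Tree (E : Type*) [NormedAddCommGroup E] [InnerProductSpace ℝ E] (ι : Type*) where
  | leaf (i : ι) : Tree E ι
  | node (W : Submodule ℝ E) (a : E → ℝ≥0∞) (c : E → ℕ) (T : ℕ → Tree E ι) : Tree E ι

namespace Tree

variable {E : Type*} [NormedAddCommGroup E] [InnerProductSpace ℝ E] [FiniteDimensional ℝ E]
  [MeasurableSpace E] [BorelSpace E] {ι κ : Type*}

/-- `c` is a function of the label -/
def InvN (W : Submodule ℝ E) (c : E → ℕ) : Prop := ∀ x, ∀ w ∈ Wᗮ, c (x + w) = c x

omit [MeasurableSpace E] [BorelSpace E] in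
lemma InvN.eq_of {W : Submodule ℝ E} {c : E → ℕ} (hc : InvN W c) {x y : E}
    (h : W.starProjection x = W.starProjection y) : c x = c y := by
  have h1 : y - x ∈ Wᗮ := by
    rw [← Submodule.starProjection_apply_eq_zero_iff, map_sub, h, sub_self]
  have := hc x (y - x) h1
  rw [add_sub_cancel] at this
  exact this.symm

lemma InvN.mix {W : Submodule ℝ E} {c : E → ℕ} (hc : InvN W c) (x z : E) :
    c (mix W x z) = c x := hc.eq_of (starProjection_mix W x z)

omit [FiniteDimensional ℝ E] [MeasurableSpace E] [BorelSpace E] in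
lemma InvN.mono {W W' : Submodule ℝ E} (h : W ≤ W') {c : E → ℕ} (hc : InvN W c) : InvN W' c :=
  fun x w hw => hc x w (Submodule.orthogonal_le h hw)

/-- selecting among countably many measurable functions -/
lemma measurable_sel {F : ℕ → E → ℝ≥0∞} (hF : ∀ k, Measurable (F k)) {c : E → ℕ}
    (hc : Measurable c) : Measurable fun y => F (c y) y := by
  have h1 : Measurable fun p : ℕ × E => F p.1 p.2 :=
    measurable_from_prod_countable_right fun k => hF k
  exact h1.comp (hc.prodMk measurable_id)

lemma fib_sel {W : Submodule ℝ E} {c : E → ℕ} (hc : InvN W c) (F : ℕ → E → ℝ≥0∞) (x : E) :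
    fib W (fun y => F (c y) y) x = fib W (F (c x)) x := by
  unfold fib
  simp_rw [hc.mix]

/-- the nested value of a family of payoffs -/
noncomputable def nest : Tree E ι → (ι → E → ℝ≥0∞) → E → ℝ≥0∞
  | leaf i, f => f i
  | node W a c T, f => fun x => max (a x) (fib W (fun y => nest (T (c y)) f y) x)

@[simp] lemma nest_leaf (i : ι) (f : ι → E → ℝ≥0∞) : nest (leaf i) f = f i := rfl

@[simp] lemma nest_node (W : Submodule ℝ E) (a : E → ℝ≥0∞) (c : E → ℕ) (T : ℕ → Tree E ι)
    (f : ι → E → ℝ≥0∞) (x : E) :
    nest (node W a c T) f x = max (a x) (fib W (fun y => nest (T (c y)) f y) x) := rfl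

/-- the visible weight (1 if no level stops) -/
noncomputable def vis : Tree E ι → (ι → E → ℝ≥0∞) → E → ℝ≥0∞
  | leaf _, _ => fun _ => 1
  | node W a c T, f => fun x =>
      (if a x < fib W (fun y => nest (T (c y)) f y) x then 1 else 0) * vis (T (c x)) f x

@[simp] lemma vis_leaf (i : ι) (f : ι → E → ℝ≥0∞) (x : E) : vis (leaf i) f x = 1 := rfl

@[simp] lemma vis_node (W : Submodule ℝ E) (a : E → ℝ≥0∞) (c : E → ℕ) (T : ℕ → Tree E ι)
    (f : ι → E → ℝ≥0∞) (x : E) :
    vis (node W a c T) f x
      = (if a x < fib W (fun y => nest (T (c y)) f y) x then 1 else 0) * vis (T (c x)) f x := rfl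

/-- the payoff index reached by `x` -/
def leafOf : Tree E ι → E → ι
  | leaf i, _ => i
  | node _ _ c T, x => leafOf (T (c x)) x

@[simp] lemma leafOf_leaf (i : ι) (x : E) : leafOf (leaf i : Tree E ι) x = i := rfl

@[simp] lemma leafOf_node (W : Submodule ℝ E) (a : E → ℝ≥0∞) (c : E → ℕ) (T : ℕ → Tree E ι)
    (x : E) : leafOf (node W a c T) x = leafOf (T (c x)) x := rfl

/-- the payoff at `x` -/
def pay (T : Tree E ι) (f : ι → E → ℝ≥0∞) (x : E) : ℝ≥0∞ := f (leafOf T x) x

@[simp] lemma pay_leaf (i : ι) (f : ι → E → ℝ≥0∞) (x : E) : pay (leaf i) f x = f i x := rfl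

@[simp] lemma pay_node (W : Submodule ℝ E) (a : E → ℝ≥0∞) (c : E → ℕ) (T : ℕ → Tree E ι)
    (f : ι → E → ℝ≥0∞) (x : E) : pay (node W a c T) f x = pay (T (c x)) f x := rfl

/-- the value -/
noncomputable def val (T : Tree E ι) (f : ι → E → ℝ≥0∞) : ℝ≥0∞ := ∫⁻ x, nest T f x ∂stdGaussian E

/-- the root subspace contains `W` -/
def Above (W : Submodule ℝ E) : Tree E ι → Prop
  | leaf _ => True
  | node W' _ _ _ => W ≤ W'

/-- admissible trees -/
def Good : Tree E ι → Prop
  | leaf _ => True
  | node W a c T => Measurable a ∧ Inv W a ∧ Measurable c ∧ InvN W c ∧ (∀ k, Above W (T k)) ∧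
      ∀ k, Good (T k)

lemma Above.mono {W W' : Submodule ℝ E} (h : W ≤ W') {T : Tree E ι} (hT : Above W' T) :
    Above W T := by
  cases T with
  | leaf i => trivial
  | node V a c T => exact h.trans hT

lemma above_bot (T : Tree E ι) : Above ⊥ T := by
  cases T with
  | leaf i => trivial
  | node V a c T => exact bot_le

lemma measurable_nest {T : Tree E ι} (hT : Good T) {f : ι → E → ℝ≥0∞} (hf : ∀ i, Measurable (f i)) :
    Measurable (nest T f) := by
  induction T with
  | leaf i => exact hf i
  | node W a c T ih =>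
    obtain ⟨ha, haW, hc, hcW, hab, hg⟩ := hT
    exact ha.max (measurable_fib (measurable_sel (fun k => ih k (hg k)) hc))

lemma inv_nest {T : Tree E ι} (hT : Good T) {W : Submodule ℝ E} {f : ι → E → ℝ≥0∞}
    (h : match T with | leaf i => Inv W (f i) | node W' _ _ _ => W' ≤ W) :
    Inv W (nest T f) := by
  cases T with
  | leaf i => exact h
  | node W' a c T => exact ((hT.2.1).max (inv_fib _ _)).mono h

lemma measurable_vis {T : Tree E ι} (hT : Good T) {f : ι → E → ℝ≥0∞} (hf : ∀ i, Measurable (f i)) :
    Measurable (vis T f) := by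
  induction T with
  | leaf i => exact measurable_const
  | node W a c T ih =>
    obtain ⟨ha, haW, hc, hcW, hab, hg⟩ := hT
    refine Measurable.mul ?_ (measurable_sel (F := fun k => vis (T k) f)
      (fun k => ih k (hg k)) hc)
    exact Measurable.ite (measurableSet_lt ha (measurable_fib
      (measurable_sel (fun k => measurable_nest (hg k) hf) hc))) measurable_const measurable_const

lemma measurable_pay {T : Tree E ι} (hT : Good T) {f : ι → E → ℝ≥0∞} (hf : ∀ i, Measurable (f i)) :
    Measurable (pay T f) := by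
  induction T with
  | leaf i => exact hf i
  | node W a c T ih =>
    obtain ⟨ha, haW, hc, hcW, hab, hg⟩ := hT
    exact measurable_sel (F := fun k => pay (T k) f) (fun k => ih k (hg k)) hc

lemma vis_le_one (T : Tree E ι) (f : ι → E → ℝ≥0∞) (x : E) : vis T f x ≤ 1 := by
  induction T with
  | leaf i => exact le_refl _
  | node W a c T ih =>
    simp only [vis_node]
    split_ifs
    · simpa using ih (c x)
    · simp

lemma vis_zero_or_one (T : Tree E ι) (f : ι → E → ℝ≥0∞) (x : E) :
    vis T f x = 0 ∨ vis T f x = 1 := by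
  induction T with
  | leaf i => exact Or.inr rfl
  | node W a c T ih =>
    simp only [vis_node]
    split_ifs
    · simpa using ih (c x)
    · simp

lemma nest_mono (T : Tree E ι) {f g : ι → E → ℝ≥0∞} (h : ∀ i x, f i x ≤ g i x) (x : E) :
    nest T f x ≤ nest T g x := by
  induction T generalizing x with
  | leaf i => exact h i x
  | node W a c T ih => exact max_le_max le_rfl (fib_mono (fun y => ih (c y) y) x)

lemma val_mono (T : Tree E ι) {f g : ι → E → ℝ≥0∞} (h : ∀ i x, f i x ≤ g i x) :
    val T f ≤ val T g := lintegral_mono (nest_mono T h)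

/-- all caps bounded by `c` -/
def CapsLe (C : ℝ≥0∞) : Tree E ι → Prop
  | leaf _ => True
  | node _ a _ T => (∀ x, a x ≤ C) ∧ ∀ k, CapsLe C (T k)

lemma nest_le {T : Tree E ι} {f : ι → E → ℝ≥0∞} {C : ℝ≥0∞} (hT : CapsLe C T)
    (hf : ∀ i x, f i x ≤ C) (x : E) : nest T f x ≤ C := by
  induction T generalizing x with
  | leaf i => exact hf i x
  | node W a c T ih =>
    refine max_le (hT.1 x) ?_
    exact (fib_mono (fun y => ih (c y) (hT.2 (c y)) y) x).trans_eq (fib_const _ _ _)

/-- plain expectations are below the nested value -/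
lemma fib_le_nest {T : Tree E ι} (hT : Good T) {W : Submodule ℝ E} (hW : Above W T)
    {f : ι → E → ℝ≥0∞} (hf : ∀ i, Measurable (f i)) (x : E) :
    fib W (pay T f) x ≤ fib W (nest T f) x := by
  induction T generalizing W x with
  | leaf i => exact le_rfl
  | node W' a c T ih =>
    have hpm := measurable_pay hT hf
    obtain ⟨ha, haW, hc, hcW, hab, hg⟩ := hT
    rw [← fib_tower hW hpm]
    refine fib_mono (fun y => ?_) x
    refine le_trans ?_ (le_max_right _ _)
    rw [fib_sel hcW (fun k y => nest (T k) f y)]
    have e : fib W' (pay (node W' a c T) f) y = fib W' (pay (T (c y)) f) y := by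
      have := fib_sel hcW (fun k y => pay (T k) f y) y
      exact this
    rw [e]
    exact ih (c y) (hg (c y)) (hab (c y)) y

lemma lintegral_pay_le_val {T : Tree E ι} (hT : Good T) {f : ι → E → ℝ≥0∞}
    (hf : ∀ i, Measurable (f i)) : ∫⁻ x, pay T f x ∂stdGaussian E ≤ val T f := by
  have := fib_le_nest hT (above_bot T) hf 0
  rw [fib_bot, fib_bot] at this
  exact this

/-- the same payoff for all leaves -/
lemma lintegral_le_val {T : Tree E ι} (hT : Good T) {f : E → ℝ≥0∞} (hf : Measurable f) :
    ∫⁻ x, f x ∂stdGaussian E ≤ val T fun _ => f := lintegral_pay_le_val hT fun _ => hf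

/-! ### Grafting -/

/-- replace leaf `i` by the tree `S i` -/
def bind : Tree E ι → (ι → Tree E κ) → Tree E κ
  | leaf i, S => S i
  | node W a c T, S => node W a c fun k => bind (T k) S

@[simp] lemma bind_leaf (i : ι) (S : ι → Tree E κ) : bind (leaf i) S = S i := rfl

@[simp] lemma bind_node (W : Submodule ℝ E) (a : E → ℝ≥0∞) (c : E → ℕ) (T : ℕ → Tree E ι)
    (S : ι → Tree E κ) : bind (node W a c T) S = node W a c fun k => bind (T k) S := rfl

lemma nest_bind (T : Tree E ι) (S : ι → Tree E κ) (f : κ → E → ℝ≥0∞) :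
    nest (bind T S) f = nest T fun i => nest (S i) f := by
  induction T with
  | leaf i => rfl
  | node W a c T ih =>
    funext x
    simp only [bind_node, nest_node, ih]

lemma val_bind (T : Tree E ι) (S : ι → Tree E κ) (f : κ → E → ℝ≥0∞) :
    val (bind T S) f = val T fun i => nest (S i) f := by
  unfold val
  rw [nest_bind]

lemma leafOf_bind (T : Tree E ι) (S : ι → Tree E κ) (x : E) :
    leafOf (bind T S) x = leafOf (S (leafOf T x)) x := by
  induction T with
  | leaf i => rfl
  | node W a c T ih =>
    simp only [bind_node, leafOf_node, ih]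

lemma pay_bind (T : Tree E ι) (S : ι → Tree E κ) (f : κ → E → ℝ≥0∞) (x : E) :
    pay (bind T S) f x = pay T (fun i => pay (S i) f) x := by
  unfold pay
  rw [leafOf_bind]

lemma vis_bind (T : Tree E ι) (S : ι → Tree E κ) (f : κ → E → ℝ≥0∞) (x : E) :
    vis (bind T S) f x = vis T (fun i => nest (S i) f) x * vis (S (leafOf T x)) f x := by
  induction T with
  | leaf i => simp
  | node W a c T ih =>
    simp only [bind_node, vis_node, leafOf_node, nest_bind, ih, mul_assoc]

/-- a property of the subspace of the last node before each leaf (`W` for the empty path) -/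
def Last (P : Submodule ℝ E → ι → Prop) : Submodule ℝ E → Tree E ι → Prop
  | W, leaf i => P W i
  | _, node W _ _ T => ∀ k, Last P W (T k)

lemma above_bind {T : Tree E ι} {S : ι → Tree E κ} {W : Submodule ℝ E} (hT : Above W T)
    (hl : Last (fun V i => Above V (S i)) W T) : Above W (bind T S) := by
  cases T with
  | leaf i => exact hl
  | node W' a c T => exact hT

lemma good_bind {T : Tree E ι} {S : ι → Tree E κ} (hT : Good T) (hS : ∀ i, Good (S i))
    {W : Submodule ℝ E} (hl : Last (fun V i => Above V (S i)) W T) : Good (bind T S) := by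
  induction T generalizing W with
  | leaf i => exact hS i
  | node W' a c T ih =>
    obtain ⟨ha, haW, hc, hcW, hab, hg⟩ := hT
    exact ⟨ha, haW, hc, hcW, fun k => above_bind (hab k) (hl k), fun k => ih k (hg k) (hl k)⟩

/-! ### First variation -/

/-- **First variation, conditional form.** -/
theorem first_variation_aux {T : Tree E ι} (hT : Good T) {f f' : ι → E → ℝ≥0∞}
    (hf : ∀ i, Measurable (f i)) (hf' : ∀ i, Measurable (f' i)) :
    ∀ {W : Submodule ℝ E} (_ : Above W T) {g : E → ℝ≥0∞} (_ : Measurable g) (_ : Inv W g),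
    ∫⁻ x, g x * nest T f' x ∂stdGaussian E + ∫⁻ x, g x * (vis T f' x * pay T f x) ∂stdGaussian E
      ≤ ∫⁻ x, g x * nest T f x ∂stdGaussian E
        + ∫⁻ x, g x * (vis T f' x * pay T f' x) ∂stdGaussian E := by
  induction T with
  | leaf i =>
    intro W _ g hg _
    simp only [nest_leaf, vis_leaf, pay_leaf, one_mul]
    rw [add_comm]
  | node V a c T ih =>
    intro W hW g hg hgW
    obtain ⟨ha, haW, hc, hcW, hab, hgd⟩ := hT
    set h' : E → ℝ≥0∞ := fun y => nest (T (c y)) f' y with hh'
    set h : E → ℝ≥0∞ := fun y => nest (T (c y)) f y with hh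
    have hm' : Measurable h' := measurable_sel (fun k => measurable_nest (hgd k) hf') hc
    have hm : Measurable h := measurable_sel (fun k => measurable_nest (hgd k) hf) hc
    set s : E → ℝ≥0∞ := fun x => if a x < fib V h' x then 1 else 0 with hs
    have hsm : Measurable s := Measurable.ite (measurableSet_lt ha (measurable_fib hm'))
      measurable_const measurable_const
    have hsW : Inv V s := haW.ite (inv_fib _ _)
    set t : E → ℝ≥0∞ := fun x => if a x < fib V h' x then 0 else 1 with ht
    have htm : Measurable t := Measurable.ite (measurableSet_lt ha (measurable_fib hm'))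
      measurable_const measurable_const
    have hgp : Inv V g := hgW.mono hW
    -- class indicators
    set ek : ℕ → E → ℝ≥0∞ := fun k x => if c x = k then 1 else 0 with hek
    have hekm : ∀ k, Measurable (ek k) := fun k =>
      Measurable.ite (hc (measurableSet_singleton k)) measurable_const measurable_const
    have hekW : ∀ k, Inv V (ek k) := by
      intro k x w hw
      simp only [hek, hcW x w hw]
    have split : ∀ φ : ℕ → E → ℝ≥0∞, (∀ k, Measurable (φ k)) →
        ∫⁻ x, φ (c x) x ∂stdGaussian E = ∑' k, ∫⁻ x, ek k x * φ k x ∂stdGaussian E := by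
      intro φ hφ
      have hts := lintegral_tsum (μ := stdGaussian E) (f := fun k x => ek k x * φ k x)
        (fun k => ((hekm k).mul (hφ k)).aemeasurable)
      rw [← hts]
      apply lintegral_congr
      intro x
      rw [tsum_eq_single (c x)]
      · simp [hek]
      · intro k hk
        simp [hek, Ne.symm hk]
    -- the nested value of `f'`
    have e1 : ∫⁻ x, g x * nest (node V a c T) f' x ∂stdGaussian E
        = ∫⁻ x, g x * t x * a x ∂stdGaussian E + ∫⁻ x, g x * s x * h' x ∂stdGaussian E := by
      have : ∫⁻ x, g x * s x * h' x ∂stdGaussian E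
          = ∫⁻ x, g x * s x * fib V h' x ∂stdGaussian E :=
        (lintegral_mul_fib (hgp.mul hsW) (hg.mul hsm) hm').symm
      rw [this, ← lintegral_add_left (f := fun x => g x * t x * a x) ((hg.mul htm).mul ha)]
      apply lintegral_congr
      intro x
      simp only [nest_node, hs, ht]
      by_cases hx : a x < fib V h' x
      · rw [if_pos hx, if_pos hx, max_eq_right hx.le]; ring
      · rw [if_neg hx, if_neg hx, max_eq_left (not_lt.mp hx)]; ring
    -- lower bound for the nested value of `f`
    have e2 : ∫⁻ x, g x * t x * a x ∂stdGaussian E + ∫⁻ x, g x * s x * h x ∂stdGaussian E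
        ≤ ∫⁻ x, g x * nest (node V a c T) f x ∂stdGaussian E := by
      have : ∫⁻ x, g x * s x * h x ∂stdGaussian E
          = ∫⁻ x, g x * s x * fib V h x ∂stdGaussian E :=
        (lintegral_mul_fib (hgp.mul hsW) (hg.mul hsm) hm).symm
      rw [this, ← lintegral_add_left (f := fun x => g x * t x * a x) ((hg.mul htm).mul ha)]
      apply lintegral_mono
      intro x
      simp only [nest_node, hs, ht]
      by_cases hx : a x < fib V h' x
      · simp only [if_pos hx, mul_zero, zero_mul, zero_add, mul_one]
        gcongr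
        exact le_max_right _ _
      · simp only [if_neg hx, mul_zero, zero_mul, add_zero, mul_one]
        gcongr
        exact le_max_left _ _
    have e3 : ∀ φ : E → ℝ≥0∞, ∫⁻ x, g x * (vis (node V a c T) f' x * φ x) ∂stdGaussian E
        = ∫⁻ x, g x * s x * (vis (T (c x)) f' x * φ x) ∂stdGaussian E := by
      intro φ
      apply lintegral_congr
      intro x
      simp only [vis_node, hs, ← hh']
      ring
    rw [e1, e3, e3]
    have hvm : ∀ k, Measurable (vis (T k) f') := fun k => measurable_vis (hgd k) hf'
    have hpm : ∀ k, Measurable (pay (T k) f) := fun k => measurable_pay (hgd k) hf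
    have hpm' : ∀ k, Measurable (pay (T k) f') := fun k => measurable_pay (hgd k) hf'
    -- decomposition in classes
    have s1 : ∫⁻ x, g x * s x * h' x ∂stdGaussian E
        = ∑' k, ∫⁻ x, ek k x * (g x * s x * nest (T k) f' x) ∂stdGaussian E :=
      split (fun k x => g x * s x * nest (T k) f' x)
        fun k => (hg.mul hsm).mul (measurable_nest (hgd k) hf')
    have s2 : ∫⁻ x, g x * s x * h x ∂stdGaussian E
        = ∑' k, ∫⁻ x, ek k x * (g x * s x * nest (T k) f x) ∂stdGaussian E :=
      split (fun k x => g x * s x * nest (T k) f x)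
        fun k => (hg.mul hsm).mul (measurable_nest (hgd k) hf)
    have s3 : ∫⁻ x, g x * s x * (vis (T (c x)) f' x * pay (node V a c T) f x) ∂stdGaussian E
        = ∑' k, ∫⁻ x, ek k x * (g x * s x * (vis (T k) f' x * pay (T k) f x)) ∂stdGaussian E :=
      split (fun k x => g x * s x * (vis (T k) f' x * pay (T k) f x))
        fun k => (hg.mul hsm).mul ((hvm k).mul (hpm k))
    have s4 : ∫⁻ x, g x * s x * (vis (T (c x)) f' x * pay (node V a c T) f' x) ∂stdGaussian E
        = ∑' k, ∫⁻ x, ek k x * (g x * s x * (vis (T k) f' x * pay (T k) f' x)) ∂stdGaussian E :=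
      split (fun k x => g x * s x * (vis (T k) f' x * pay (T k) f' x))
        fun k => (hg.mul hsm).mul ((hvm k).mul (hpm' k))
    have e4 : ∫⁻ x, g x * s x * h' x ∂stdGaussian E
        + ∫⁻ x, g x * s x * (vis (T (c x)) f' x * pay (node V a c T) f x) ∂stdGaussian E
        ≤ ∫⁻ x, g x * s x * h x ∂stdGaussian E
        + ∫⁻ x, g x * s x * (vis (T (c x)) f' x * pay (node V a c T) f' x) ∂stdGaussian E := by
      rw [s1, s2, s3, s4, ← ENNReal.tsum_add, ← ENNReal.tsum_add]
      apply ENNReal.tsum_le_tsum
      intro k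
      have := ih k (hgd k) (W := V) (hab k) (g := fun x => ek k x * (g x * s x))
        ((hekm k).mul (hg.mul hsm)) ((hekW k).mul (hgp.mul hsW))
      simpa only [mul_assoc] using this
    calc ∫⁻ x, g x * t x * a x ∂stdGaussian E + ∫⁻ x, g x * s x * h' x ∂stdGaussian E
        + ∫⁻ x, g x * s x * (vis (T (c x)) f' x * pay (node V a c T) f x) ∂stdGaussian E
        = ∫⁻ x, g x * t x * a x ∂stdGaussian E + (∫⁻ x, g x * s x * h' x ∂stdGaussian E
        + ∫⁻ x, g x * s x * (vis (T (c x)) f' x * pay (node V a c T) f x) ∂stdGaussian E) := by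
          rw [add_assoc]
      _ ≤ ∫⁻ x, g x * t x * a x ∂stdGaussian E + (∫⁻ x, g x * s x * h x ∂stdGaussian E
        + ∫⁻ x, g x * s x * (vis (T (c x)) f' x * pay (node V a c T) f' x) ∂stdGaussian E) := by
          gcongr
      _ = (∫⁻ x, g x * t x * a x ∂stdGaussian E + ∫⁻ x, g x * s x * h x ∂stdGaussian E)
        + ∫⁻ x, g x * s x * (vis (T (c x)) f' x * pay (node V a c T) f' x) ∂stdGaussian E := by
          rw [add_assoc]
      _ ≤ _ := by gcongr

/-- **First variation** -/
theorem first_variation {T : Tree E ι} (hT : Good T) {f f' : ι → E → ℝ≥0∞}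
    (hf : ∀ i, Measurable (f i)) (hf' : ∀ i, Measurable (f' i)) :
    val T f' + ∫⁻ x, vis T f' x * pay T f x ∂stdGaussian E
      ≤ val T f + ∫⁻ x, vis T f' x * pay T f' x ∂stdGaussian E := by
  have := first_variation_aux hT hf hf' (W := ⊥) (above_bot T) (g := fun _ => 1)
    measurable_const (inv_const _ _)
  unfold val
  simpa only [one_mul] using this

/-- `L¹`-Lipschitz -/
theorem val_le_add {T : Tree E ι} (hT : Good T) {f f' : ι → E → ℝ≥0∞}
    (hf : ∀ i, Measurable (f i)) (hf' : ∀ i, Measurable (f' i))
    (hfin : ∫⁻ x, pay T f x ∂stdGaussian E ≠ ∞) :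
    val T f' ≤ val T f + ∫⁻ x, vis T f' x * (pay T f' x - pay T f x) ∂stdGaussian E := by
  have h1 := first_variation hT hf hf'
  have hvm := measurable_vis hT hf'
  have hpm := measurable_pay hT hf
  have h2 : ∫⁻ x, vis T f' x * pay T f' x ∂stdGaussian E
      ≤ ∫⁻ x, vis T f' x * (pay T f' x - pay T f x) ∂stdGaussian E
        + ∫⁻ x, vis T f' x * pay T f x ∂stdGaussian E := by
    rw [← lintegral_add_right (g := fun x => vis T f' x * pay T f x) _ (hvm.mul hpm)]
    apply lintegral_mono
    intro x
    simp only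
    rw [← mul_add]
    gcongr
    exact le_tsub_add
  have h3 : ∫⁻ x, vis T f' x * pay T f x ∂stdGaussian E ≠ ∞ := by
    apply ne_top_of_le_ne_top hfin
    apply lintegral_mono
    intro x
    exact (mul_le_mul' (vis_le_one T f' x) le_rfl).trans_eq (one_mul _)
  have h4 : val T f' + ∫⁻ x, vis T f' x * pay T f x ∂stdGaussian E
      ≤ val T f + ∫⁻ x, vis T f' x * (pay T f' x - pay T f x) ∂stdGaussian E
        + ∫⁻ x, vis T f' x * pay T f x ∂stdGaussian E := by
    calc _ ≤ val T f + ∫⁻ x, vis T f' x * pay T f' x ∂stdGaussian E := h1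
      _ ≤ val T f + (∫⁻ x, vis T f' x * (pay T f' x - pay T f x) ∂stdGaussian E
        + ∫⁻ x, vis T f' x * pay T f x ∂stdGaussian E) := by gcongr
      _ = _ := by rw [add_assoc]
  exact (ENNReal.add_le_add_iff_right h3).mp h4

end Tree

end Vale.Agent.P262.H395
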