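import Vale.Agent.P262.H395.Moves
import Vale.Agent.P262.H395.Tree
import Vale.Agent.P262.H493.Flag

/-!
# P262, library NEST: linear isometries

Fibre averages, nested values and Banaszczyk's operation under linear isometries.
-/

set_option linter.all false

open MeasureTheory ProbabilityTheory Set
open scoped ENNReal RealInnerProductSpace

namespace Vale.Agent.P262.H395

variable {E : Type*} [NormedAddCommGroup E] [InnerProductSpace ℝ E] [FiniteDimensional ℝ E]
  [MeasurableSpace E] [BorelSpace E]

/-- the standard Gaussian measure is invariant under linear isometries -/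
lemma mp_isometry (R : E ≃ₗᵢ[ℝ] E) :
    MeasurePreserving (fun x => R x) (stdGaussian E) (stdGaussian E) := by
  refine ⟨R.continuous.measurable, ?_⟩
  haveI : IsProbabilityMeasure ((stdGaussian E).map (fun x => R x)) :=
    Measure.isProbabilityMeasure_map R.continuous.measurable.aemeasurable
  apply Measure.ext_of_charFun
  funext t
  rw [charFun_apply, integral_map R.continuous.measurable.aemeasurable (by fun_prop)]
  have e : ∀ x : E, ⟪R x, t⟫ = ⟪x, R.symm t⟫ := by
    intro x
    rw [← R.inner_map_map x (R.symm t), R.apply_symm_apply]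
  simp_rw [e]
  rw [← charFun_apply, charFun_stdGaussian, charFun_stdGaussian, R.symm.norm_map]

lemma lintegral_isometry (R : E ≃ₗᵢ[ℝ] E) {f : E → ℝ≥0∞} (hf : Measurable f) :
    ∫⁻ x, f (R x) ∂stdGaussian E = ∫⁻ x, f x ∂stdGaussian E :=
  (mp_isometry R).lintegral_comp hf

omit [MeasurableSpace E] [BorelSpace E] in
lemma starProjection_map_isometry (R : E ≃ₗᵢ[ℝ] E) (W : Submodule ℝ E) (x : E) :
    (W.map (R.toLinearEquiv : E →ₗ[ℝ] E)).starProjection (R x) = R (W.starProjection x) := by
  apply Submodule.eq_starProjection_of_mem_orthogonal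
  · exact ⟨W.starProjection x, Submodule.starProjection_apply_mem W x, rfl⟩
  · rw [Submodule.mem_orthogonal]
    rintro _ ⟨w, hw, rfl⟩
    have h1 : R x - R (W.starProjection x) = R (x - W.starProjection x) := by rw [map_sub]
    rw [h1]
    have h2 : ⟪(R.toLinearEquiv : E →ₗ[ℝ] E) w, R (x - W.starProjection x)⟫
        = ⟪w, x - W.starProjection x⟫ := R.inner_map_map _ _
    rw [h2]
    exact (Submodule.mem_orthogonal W _).mp (Submodule.sub_starProjection_mem_orthogonal x) w hw

omit [MeasurableSpace E] [BorelSpace E] in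
lemma mix_map_isometry (R : E ≃ₗᵢ[ℝ] E) (W : Submodule ℝ E) (x z : E) :
    mix (W.map (R.toLinearEquiv : E →ₗ[ℝ] E)) (R x) (R z) = R (mix W x z) := by
  unfold mix
  rw [starProjection_map_isometry, starProjection_map_isometry, map_add, map_sub]

/-- **equivariance of fibre averages** -/
lemma fib_map_isometry (R : E ≃ₗᵢ[ℝ] E) (W : Submodule ℝ E) {f : E → ℝ≥0∞} (hf : Measurable f)
    (x : E) : fib (W.map (R.toLinearEquiv : E →ₗ[ℝ] E)) f (R x) = fib W (fun y => f (R y)) x := by
  unfold fib
  have h := lintegral_isometry R (f := fun z =>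
    f (mix (W.map (R.toLinearEquiv : E →ₗ[ℝ] E)) (R x) z)) (hf.comp (measurable_mix_right _ _))
  rw [← h]
  refine lintegral_congr fun z => ?_
  rw [mix_map_isometry]

/-- `R` fixes `W` pointwise -/
def Fixes (R : E ≃ₗᵢ[ℝ] E) (W : Submodule ℝ E) : Prop := ∀ w ∈ W, R w = w

omit [FiniteDimensional ℝ E] [MeasurableSpace E] [BorelSpace E] in
lemma Fixes.mono {R : E ≃ₗᵢ[ℝ] E} {W V : Submodule ℝ E} (h : Fixes R V) (hWV : W ≤ V) :
    Fixes R W := fun w hw => h w (hWV hw)

omit [FiniteDimensional ℝ E] [MeasurableSpace E] [BorelSpace E] in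
lemma Fixes.symm {R : E ≃ₗᵢ[ℝ] E} {W : Submodule ℝ E} (h : Fixes R W) : Fixes R.symm W := by
  intro w hw
  rw [LinearIsometryEquiv.symm_apply_eq, h w hw]

omit [FiniteDimensional ℝ E] [MeasurableSpace E] [BorelSpace E] in
lemma Fixes.trans {R S : E ≃ₗᵢ[ℝ] E} {W : Submodule ℝ E} (h : Fixes R W) (h' : Fixes S W) :
    Fixes (R.trans S) W := by
  intro w hw
  rw [LinearIsometryEquiv.trans_apply, h w hw, h' w hw]

omit [FiniteDimensional ℝ E] [MeasurableSpace E] [BorelSpace E] in
lemma Fixes.refl (W : Submodule ℝ E) : Fixes (LinearIsometryEquiv.refl ℝ E) W := fun _ _ => rfl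

omit [FiniteDimensional ℝ E] [MeasurableSpace E] [BorelSpace E] in
lemma Fixes.map_eq {R : E ≃ₗᵢ[ℝ] E} {W : Submodule ℝ E} (h : Fixes R W) :
    W.map (R.toLinearEquiv : E →ₗ[ℝ] E) = W := by
  ext x
  simp only [Submodule.mem_map]
  constructor
  · rintro ⟨w, hw, rfl⟩
    have : (R.toLinearEquiv : E →ₗ[ℝ] E) w = w := h w hw
    rw [this]; exact hw
  · intro hx
    exact ⟨x, hx, h x hx⟩

omit [MeasurableSpace E] [BorelSpace E] in
/-- labels do not move -/
lemma Fixes.proj {R : E ≃ₗᵢ[ℝ] E} {W : Submodule ℝ E} (h : Fixes R W) (x : E) :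
    W.starProjection (R x) = W.starProjection x := by
  have h1 : R x - W.starProjection x ∈ Wᗮ := by
    rw [Submodule.mem_orthogonal]
    intro w hw
    have h2 : W.starProjection x = R (W.starProjection x) :=
      (h _ (Submodule.starProjection_apply_mem W x)).symm
    rw [h2, ← map_sub]
    have h3 : ⟪w, R (x - W.starProjection x)⟫ = ⟪R w, R (x - W.starProjection x)⟫ := by
      rw [h w hw]
    rw [h3, R.inner_map_map]
    exact (Submodule.mem_orthogonal W _).mp (Submodule.sub_starProjection_mem_orthogonal x) w hw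
  exact Submodule.eq_starProjection_of_mem_orthogonal
    (Submodule.starProjection_apply_mem W x) h1

/-- **conditioning on labels fixed by `R` does not see `R`** -/
lemma fib_fixes {R : E ≃ₗᵢ[ℝ] E} {W : Submodule ℝ E} (h : Fixes R W) {f : E → ℝ≥0∞}
    (hf : Measurable f) (x : E) : fib W (fun y => f (R y)) x = fib W f x := by
  rw [← fib_map_isometry R W hf x, h.map_eq]
  exact (inv_fib W f).eq_of (h.proj x)

lemma Inv.fixes {R : E ≃ₗᵢ[ℝ] E} {W : Submodule ℝ E} (h : Fixes R W) {g : E → ℝ≥0∞}
    (hg : Inv W g) (x : E) : g (R x) = g x := hg.eq_of (h.proj x)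

/-- a weight depending only on fixed labels can be pulled through an isometry -/
lemma lintegral_mul_fixes {R : E ≃ₗᵢ[ℝ] E} {W : Submodule ℝ E} (h : Fixes R W) {f g : E → ℝ≥0∞}
    (hg : Inv W g) (hgm : Measurable g) (hf : Measurable f) :
    ∫⁻ x, g x * f (R x) ∂stdGaussian E = ∫⁻ x, g x * f x ∂stdGaussian E := by
  have := lintegral_isometry R (f := fun x => g x * f x) (hgm.mul hf)
  rw [← this]
  refine lintegral_congr fun x => ?_
  rw [Inv.fixes h hg x]

/-- the nested value does not see isometries fixing all label spaces -/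
lemma nest_fixes {R : E ≃ₗᵢ[ℝ] E} {L : Levels E} (hne : L ≠ []) (hR : ∀ p ∈ L, Fixes R p.1)
    {f : E → ℝ≥0∞} (hf : Measurable f) : nest L (fun y => f (R y)) = nest L f := by
  induction L with
  | nil => exact absurd rfl hne
  | cons p L ih =>
    funext x
    simp only [nest_cons]
    by_cases hL : L = []
    · subst hL
      simp only [nest_nil]
      rw [fib_fixes (hR p List.mem_cons_self) hf]
    · rw [ih hL fun q hq => hR q (List.mem_cons_of_mem _ hq)]

lemma val_fixes {R : E ≃ₗᵢ[ℝ] E} {L : Levels E} (hR : ∀ p ∈ L, Fixes R p.1)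
    {f : E → ℝ≥0∞} (hf : Measurable f) : val L (fun y => f (R y)) = val L f := by
  by_cases hL : L = []
  · subst hL
    exact lintegral_isometry R hf
  · unfold val
    rw [nest_fixes hL hR hf]

/-! ### bodies -/

omit [FiniteDimensional ℝ E] [MeasurableSpace E] [BorelSpace E] in
/-- Banaszczyk's operation is equivariant -/
lemma star_preimage (R : E ≃ₗᵢ[ℝ] E) (K : Set E) (v : E) :
    H493.star ((fun x => R x) ⁻¹' K) v = (fun x => R x) ⁻¹' (H493.star K (R v)) := by
  ext x
  simp only [H493.star, mem_preimage, mem_setOf_eq, map_add, map_smul]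

omit [FiniteDimensional ℝ E] [MeasurableSpace E] [BorelSpace E] in
lemma ball_preimage (R : E ≃ₗᵢ[ℝ] E) (r : ℝ) :
    (fun x => R x) ⁻¹' (Metric.closedBall (0 : E) r) = Metric.closedBall 0 r := by
  ext x
  simp [R.norm_map]

/-- `D` at a label: complement mass of the fibre is invariant under isometries fixing the label -/
lemma fib_compl_preimage {R : E ≃ₗᵢ[ℝ] E} {W : Submodule ℝ E} (h : Fixes R W) {K : Set E}
    (hK : MeasurableSet K) (x : E) :
    fib W ((((fun x => R x) ⁻¹' K)ᶜ).indicator 1) x = fib W (Kᶜ.indicator 1) x := by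
  rw [← fib_fixes h (measurable_one.indicator hK.compl) x]
  rfl

end Vale.Agent.P262.H395
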