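import Vale.Agent.P262.H395.Tree

/-!
# P262: the star inequality on a tree of labels with killed labels

Functional form. `h0 ≥ hT ≥ h1` are functions on `E`; the fixed flag theorem `FlagIneq` is the
input (it is `H493.star_abstract` / its fibre version). The kill sets of the class `0` chain are
frozen (label independent below an anchor), all labels of another class are long.
-/

set_option linter.all false

open MeasureTheory ProbabilityTheory Set
open scoped ENNReal RealInnerProductSpace

namespace Vale.Agent.P262.H395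

/-- tree of labels with stopped sets `D`, killed sets `Z` -/
inductive KTree (E : Type*) [NormedAddCommGroup E] [InnerProductSpace ℝ E] where
  | leaf : KTree E
  | node (W : Submodule ℝ E) (D Z : Set E) (cls : E → ℕ) (sub : ℕ → KTree E) : KTree E

namespace KTree

variable {E : Type*} [NormedAddCommGroup E] [InnerProductSpace ℝ E] [FiniteDimensional ℝ E]
  [MeasurableSpace E] [BorelSpace E]

/-- the set of points which are never stopped and never killed -/
def reg : KTree E → Set E
  | leaf => univ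
  | node _ D Z cls sub => {x | x ∉ D ∧ x ∉ Z ∧ x ∈ (sub (cls x)).reg}

/-- points never killed along the frozen chain (class `0`) -/
def frz : KTree E → Set E
  | leaf => univ
  | node _ _ Z _ sub => Zᶜ ∩ (sub 0).frz

/-- the frozen chain of subspaces -/
def chain : KTree E → List (Submodule ℝ E)
  | leaf => []
  | node W _ _ _ sub => W :: (sub 0).chain

/-- `A` is a set of labels -/
def Cyl (W : Submodule ℝ E) (A : Set E) : Prop := ∀ x, ∀ w ∈ Wᗮ, (x + w ∈ A ↔ x ∈ A)

/-- admissible trees above `W0` -/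
def Valid : Submodule ℝ E → KTree E → Prop
  | _, leaf => True
  | W0, node W D Z cls sub => W0 ≤ W ∧ MeasurableSet D ∧ Cyl W D ∧ Cyl W Z ∧ IsClosed Zᶜ ∧
      Convex ℝ Zᶜ ∧ Measurable cls ∧ Tree.InvN W cls ∧ ∀ n, Valid W (sub n)

@[simp] lemma reg_leaf : (leaf : KTree E).reg = univ := rfl
@[simp] lemma reg_node (W : Submodule ℝ E) (D Z : Set E) (cls : E → ℕ) (sub : ℕ → KTree E) :
    (node W D Z cls sub).reg = {x | x ∉ D ∧ x ∉ Z ∧ x ∈ (sub (cls x)).reg} := rfl
@[simp] lemma frz_leaf : (leaf : KTree E).frz = univ := rfl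
@[simp] lemma frz_node (W : Submodule ℝ E) (D Z : Set E) (cls : E → ℕ) (sub : ℕ → KTree E) :
    (node W D Z cls sub).frz = Zᶜ ∩ (sub 0).frz := rfl
@[simp] lemma chain_leaf : (leaf : KTree E).chain = [] := rfl
@[simp] lemma chain_node (W : Submodule ℝ E) (D Z : Set E) (cls : E → ℕ) (sub : ℕ → KTree E) :
    (node W D Z cls sub).chain = W :: (sub 0).chain := rfl

omit [MeasurableSpace E] [BorelSpace E] in
lemma Cyl.mem_iff {W : Submodule ℝ E} {A : Set E} (h : Cyl W A) {x y : E}
    (hxy : W.starProjection x = W.starProjection y) : x ∈ A ↔ y ∈ A := by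
  have h1 : y - x ∈ Wᗮ := by
    rw [← Submodule.starProjection_apply_eq_zero_iff, map_sub, hxy, sub_self]
  have := h x (y - x) h1
  rw [add_sub_cancel] at this
  exact this.symm

omit [MeasurableSpace E] [BorelSpace E] in
lemma proj_eq_of_le {W V : Submodule ℝ E} (h : W ≤ V) {x y : E}
    (hxy : V.starProjection x = V.starProjection y) : W.starProjection x = W.starProjection y := by
  have h1 : y - x ∈ Vᗮ := by
    rw [← Submodule.starProjection_apply_eq_zero_iff, map_sub, hxy, sub_self]
  have h2 : y - x ∈ Wᗮ := Submodule.orthogonal_le h h1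
  rw [← Submodule.starProjection_apply_eq_zero_iff, map_sub, sub_eq_zero] at h2
  exact h2.symm

lemma isClosed_frz : ∀ {T : KTree E} {W0 : Submodule ℝ E} (_ : T.Valid W0), IsClosed T.frz
  | leaf, _, _ => isClosed_univ
  | node W D Z cls sub, W0, h => h.2.2.2.2.1.inter (isClosed_frz (h.2.2.2.2.2.2.2.2 0))

lemma convex_frz : ∀ {T : KTree E} {W0 : Submodule ℝ E} (_ : T.Valid W0), Convex ℝ T.frz
  | leaf, _, _ => convex_univ
  | node W D Z cls sub, W0, h => h.2.2.2.2.2.1.inter (convex_frz (h.2.2.2.2.2.2.2.2 0))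

lemma measurableSet_reg {T : KTree E} {W0 : Submodule ℝ E} (h : T.Valid W0) :
    MeasurableSet T.reg := by
  induction T generalizing W0 with
  | leaf => exact MeasurableSet.univ
  | node W D Z cls sub ih =>
    obtain ⟨h1, hD, hcD, hcZ, hZ, hZc, hcls, hci, hsub⟩ := h
    have hZm : MeasurableSet Z := by simpa using hZ.measurableSet.compl
    have e : (node W D Z cls sub).reg
        = Dᶜ ∩ (Zᶜ ∩ ⋃ n, ({x | cls x = n} ∩ (sub n).reg)) := by
      ext x
      simp only [reg_node, mem_setOf_eq, mem_inter_iff, mem_compl_iff, mem_iUnion]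
      constructor
      · rintro ⟨a, b, c⟩
        exact ⟨a, b, cls x, rfl, c⟩
      · rintro ⟨a, b, n, hn, c⟩
        subst hn
        exact ⟨a, b, c⟩
    rw [e]
    refine hD.compl.inter (hZm.compl.inter (MeasurableSet.iUnion fun n => ?_))
    exact (hcls (measurableSet_singleton n)).inter (ih n (hsub n))

/-! ### The inequality on fibres -/

/-- the combined inequality on the fibre of `x0` over `W0` -/
def Ineq (κ : ℝ≥0∞) (h0 hT h1 : E → ℝ≥0∞) (W0 : Submodule ℝ E) (x0 : E) (A : Set E) : Prop :=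
  fib W0 (A.indicator h0) x0 + κ * fib W0 (A.indicator h1) x0
    ≤ (1 + κ) * fib W0 (A.indicator hT) x0

variable {κ : ℝ≥0∞} {h0 hT h1 : E → ℝ≥0∞}

lemma fib_congr_fibre {W : Submodule ℝ E} {f g : E → ℝ≥0∞} {x0 : E}
    (h : ∀ x, W.starProjection x = W.starProjection x0 → f x = g x) :
    fib W f x0 = fib W g x0 := by
  unfold fib
  exact lintegral_congr fun z => h _ (starProjection_mix W x0 z)

lemma Ineq.congr {W0 : Submodule ℝ E} {x0 : E} {A B : Set E}
    (h : Ineq κ h0 hT h1 W0 x0 A)
    (hAB : ∀ x, W0.starProjection x = W0.starProjection x0 → (x ∈ A ↔ x ∈ B)) :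
    Ineq κ h0 hT h1 W0 x0 B := by
  have key : ∀ f : E → ℝ≥0∞, fib W0 (B.indicator f) x0 = fib W0 (A.indicator f) x0 := by
    intro f
    refine fib_congr_fibre fun x hx => ?_
    by_cases hxA : x ∈ A
    · rw [indicator_of_mem hxA, indicator_of_mem ((hAB x hx).mp hxA)]
    · rw [indicator_of_notMem hxA, indicator_of_notMem (fun hB => hxA ((hAB x hx).mpr hB))]
  unfold Ineq at *
  rw [key, key, key]
  exact h

lemma Ineq.empty {W0 : Submodule ℝ E} {x0 : E} : Ineq κ h0 hT h1 W0 x0 ∅ := by
  unfold Ineq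
  simp only [indicator_empty]
  have : fib W0 (fun _ : E => (0 : ℝ≥0∞)) x0 = 0 := fib_const _ _ _
  rw [this]
  simp

/-- integrate the inequality over the labels of a larger space -/
lemma Ineq.of_fibres {W0 W : Submodule ℝ E} (hW : W0 ≤ W) (m0 : Measurable h0)
    (mT : Measurable hT) (m1 : Measurable h1) {A : Set E} (hA : MeasurableSet A) {x0 : E}
    (h : ∀ y, W0.starProjection y = W0.starProjection x0 → Ineq κ h0 hT h1 W y A) :
    Ineq κ h0 hT h1 W0 x0 A := by
  have t0 := fib_tower hW (m0.indicator hA) x0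
  have tT := fib_tower hW (mT.indicator hA) x0
  have t1 := fib_tower hW (m1.indicator hA) x0
  unfold Ineq
  rw [← t0, ← tT, ← t1]
  have c0 : ∀ c : ℝ≥0∞, ∀ f : E → ℝ≥0∞, Measurable f → c * fib W0 f x0
      = fib W0 (fun y => c * f y) x0 := fun c f hf => (fib_mul (inv_const W0 c) hf x0).symm
  rw [c0 κ _ (measurable_fib (m1.indicator hA)), c0 (1 + κ) _ (measurable_fib (mT.indicator hA)),
    ← fib_add (measurable_fib (m0.indicator hA))]
  unfold fib
  refine lintegral_mono fun z => ?_
  exact h _ (starProjection_mix W0 x0 z)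

/-- additivity -/
lemma Ineq.add {W0 : Submodule ℝ E} {x0 : E} {A B : Set E} (m0 : Measurable h0)
    (mT : Measurable hT) (m1 : Measurable h1) (hA : MeasurableSet A)
    (hAB : A ⊆ B) (h : Ineq κ h0 hT h1 W0 x0 A) (h' : Ineq κ h0 hT h1 W0 x0 (B \ A)) :
    Ineq κ h0 hT h1 W0 x0 B := by
  have key : ∀ f : E → ℝ≥0∞, Measurable f → fib W0 (B.indicator f) x0
      = fib W0 (A.indicator f) x0 + fib W0 ((B \ A).indicator f) x0 := by
    intro f hf
    rw [← fib_add (hf.indicator hA)]
    congr 1
    funext x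
    by_cases hxA : x ∈ A
    · rw [indicator_of_mem hxA, indicator_of_mem (hAB hxA),
        indicator_of_notMem (fun h => h.2 hxA), add_zero]
    · by_cases hxB : x ∈ B
      · have hx : x ∈ B \ A := ⟨hxB, hxA⟩
        rw [indicator_of_notMem hxA, indicator_of_mem hxB, indicator_of_mem hx, zero_add]
      · rw [indicator_of_notMem hxA, indicator_of_notMem hxB,
          indicator_of_notMem (fun h => hxB h.1), zero_add]
  unfold Ineq at *
  rw [key h0 m0, key hT mT, key h1 m1]
  calc _ = (fib W0 (A.indicator h0) x0 + κ * fib W0 (A.indicator h1) x0)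
        + (fib W0 ((B \ A).indicator h0) x0 + κ * fib W0 ((B \ A).indicator h1) x0) := by ring
    _ ≤ (1 + κ) * fib W0 (A.indicator hT) x0 + (1 + κ) * fib W0 ((B \ A).indicator hT) x0 :=
        add_le_add h h'
    _ = _ := by ring

/-! ### Low region and health -/

/-- long label: the fibre of `x` over `W` of `1_C h` is at least half long -/
def Long (h0 h1 : E → ℝ≥0∞) (C : Set E) (W : Submodule ℝ E) (x : E) : Prop :=
  (1 / 2 : ℝ≥0∞) * fib W (C.indicator h0) x ≤ fib W (C.indicator h1) x

/-- root condition -/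
def Root (h0 h1 : E → ℝ≥0∞) (C : Set E) (W : Submodule ℝ E) (x : E) : Prop :=
  (1 / 4 : ℝ≥0∞) * fib W (C.indicator h0) x ≤ fib W (C.indicator h1) x

lemma Long.root {C : Set E} {W : Submodule ℝ E} {x : E} (h : Long h0 h1 C W x) :
    Root h0 h1 C W x := by
  refine le_trans ?_ h
  gcongr
  norm_num

/-- never killed and never long along the frozen chain -/
def low (h0 h1 : E → ℝ≥0∞) : KTree E → Set E
  | leaf => univ
  | node W _ Z _ sub => {x | x ∉ Z ∧ ¬ Long h0 h1 (sub 0).frz W x ∧ x ∈ low h0 h1 (sub 0)}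

@[simp] lemma low_leaf : low h0 h1 (leaf : KTree E) = univ := rfl
@[simp] lemma low_node (W : Submodule ℝ E) (D Z : Set E) (cls : E → ℕ) (sub : ℕ → KTree E) :
    low h0 h1 (node W D Z cls sub)
      = {x | x ∉ Z ∧ ¬ Long h0 h1 (sub 0).frz W x ∧ x ∈ low h0 h1 (sub 0)} := rfl

/-- health along the path of `x` -/
def hlt (h0 h1 : E → ℝ≥0∞) : KTree E → E → Prop
  | leaf, _ => True
  | node W D Z cls sub, x => x ∉ Z →
      ((x ∈ D ∨ cls x ≠ 0) → Long h0 h1 (sub 0).frz W x) ∧
      (x ∉ D → cls x ≠ 0 → Root h0 h1 (sub (cls x)).frz W x) ∧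
      (x ∉ D → hlt h0 h1 (sub (cls x)) x)

lemma low_subset_reg {T : KTree E} {x : E} (h : hlt h0 h1 T x) (hx : x ∈ low h0 h1 T) :
    x ∈ T.reg := by
  induction T with
  | leaf => trivial
  | node W D Z cls sub ih =>
    obtain ⟨hZ, hL, hlow⟩ := hx
    obtain ⟨a, b, c⟩ := h hZ
    have hD : x ∉ D := fun hD => hL (a (Or.inl hD))
    have hc : cls x = 0 := by
      by_contra hc
      exact hL (a (Or.inr hc))
    refine ⟨hD, hZ, ?_⟩
    rw [hc]
    have := c hD
    rw [hc] at this
    exact ih 0 this hlow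

lemma measurableSet_low {T : KTree E} {W0 : Submodule ℝ E} (h : T.Valid W0)
    (m0 : Measurable h0) (m1 : Measurable h1) : MeasurableSet (low h0 h1 T) := by
  induction T generalizing W0 with
  | leaf => exact MeasurableSet.univ
  | node W D Z cls sub ih =>
    obtain ⟨_, hD, hcD, hcZ, hZ, hZc, hcls, hci, hsub⟩ := h
    have hZm : MeasurableSet Z := by simpa using hZ.measurableSet.compl
    have hf : MeasurableSet (sub 0).frz := (isClosed_frz (hsub 0)).measurableSet
    have hL : MeasurableSet {x | ¬ Long h0 h1 (sub 0).frz W x} := by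
      have : {x | ¬ Long h0 h1 (sub 0).frz W x}
          = {x | fib W ((sub 0).frz.indicator h1) x
            < (1 / 2 : ℝ≥0∞) * fib W ((sub 0).frz.indicator h0) x} := by
        ext x; simp [Long]
      rw [this]
      exact measurableSet_lt (measurable_fib (m1.indicator hf))
        ((measurable_fib (m0.indicator hf)).const_mul _)
    exact hZm.compl.inter (hL.inter (ih 0 (hsub 0)))

lemma indicator_inter_fibre {W V : Submodule ℝ E} (hWV : W ≤ V) {Z C : Set E} (hZ : Cyl W Z)
    (f : E → ℝ≥0∞) {x : E} (hx : x ∉ Z) :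
    fib V ((Zᶜ ∩ C).indicator f) x = fib V (C.indicator f) x := by
  refine fib_congr_fibre fun y hy => ?_
  have hyZ : y ∉ Z := fun hy' => hx ((hZ.mem_iff (proj_eq_of_le hWV hy)).mp hy')
  by_cases hC : y ∈ C
  · have hx : y ∈ Zᶜ ∩ C := ⟨hyZ, hC⟩
    rw [indicator_of_mem hC, indicator_of_mem hx]
  · rw [indicator_of_notMem hC, indicator_of_notMem (fun h => hC h.2)]

lemma long_inter_iff {W V : Submodule ℝ E} (hWV : W ≤ V) {Z C : Set E} (hZ : Cyl W Z)
    {x : E} (hx : x ∉ Z) : Long h0 h1 (Zᶜ ∩ C) V x ↔ Long h0 h1 C V x := by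
  unfold Long
  rw [indicator_inter_fibre hWV hZ h0 hx, indicator_inter_fibre hWV hZ h1 hx]

lemma le_of_mem_chain {T : KTree E} {W0 : Submodule ℝ E} (h : T.Valid W0) :
    ∀ V ∈ T.chain, W0 ≤ V := by
  induction T generalizing W0 with
  | leaf => simp
  | node W D Z cls sub ih =>
    obtain ⟨h1, _, _, _, _, _, _, _, hsub⟩ := h
    intro V hV
    rcases List.mem_cons.mp hV with rfl | hV
    · exact h1
    · exact h1.trans (ih 0 (hsub 0) V hV)

lemma chain_sorted {T : KTree E} {W0 : Submodule ℝ E} (h : T.Valid W0) :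
    T.chain.Pairwise (· ≤ ·) := by
  induction T generalizing W0 with
  | leaf => exact List.Pairwise.nil
  | node W D Z cls sub ih =>
    obtain ⟨h1, _, _, _, _, _, _, _, hsub⟩ := h
    exact List.pairwise_cons.mpr ⟨fun V hV => le_of_mem_chain (hsub 0) V hV, ih 0 (hsub 0)⟩

/-- the low region as the low region of the fixed chain -/
lemma low_iff {T : KTree E} {W0 : Submodule ℝ E} (h : T.Valid W0) (x : E) :
    x ∈ low h0 h1 T ↔ x ∈ T.frz ∧ ∀ V ∈ T.chain, ¬ Long h0 h1 T.frz V x := by
  induction T generalizing W0 with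
  | leaf => simp
  | node W D Z cls sub ih =>
    obtain ⟨_, _, hcD, hcZ, hZ, hZc, hcls, hci, hsub⟩ := h
    simp only [low_node, mem_setOf_eq, frz_node, chain_node, mem_inter_iff, mem_compl_iff,
      List.mem_cons, forall_eq_or_imp, ih 0 (hsub 0)]
    constructor
    · rintro ⟨hxZ, hL, hf, hall⟩
      refine ⟨⟨hxZ, hf⟩, ?_, ?_⟩
      · rwa [long_inter_iff le_rfl hcZ hxZ]
      · intro V hV
        rw [long_inter_iff (le_of_mem_chain (hsub 0) V hV) hcZ hxZ]
        exact hall V hV
    · rintro ⟨⟨hxZ, hf⟩, hL, hall⟩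
      refine ⟨hxZ, ?_, hf, ?_⟩
      · rwa [long_inter_iff le_rfl hcZ hxZ] at hL
      · intro V hV
        have := hall V hV
        rwa [long_inter_iff (le_of_mem_chain (hsub 0) V hV) hcZ hxZ] at this

/-! ### The induction -/

/-- **input**: the fixed flag theorem on the low region of a chain of subspaces, for all
truncations `1_C h` of the triple to closed convex sets `C` -/
def FlagIneq (κ : ℝ≥0∞) (h0 hT h1 : E → ℝ≥0∞) : Prop :=
  ∀ (C : Set E), IsClosed C → Convex ℝ C → ∀ (W0 : Submodule ℝ E) (L : List (Submodule ℝ E)),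
    (∀ V ∈ L, W0 ≤ V) → L.Pairwise (· ≤ ·) → ∀ x0 : E, Root h0 h1 C W0 x0 →
    Ineq κ (C.indicator h0) (C.indicator hT) (C.indicator h1) W0 x0
      {x | ∀ V ∈ L, ¬ Long h0 h1 C V x}

lemma Ineq.of_indicator {W0 : Submodule ℝ E} {x0 : E} {C A B : Set E}
    (h : Ineq κ (C.indicator h0) (C.indicator hT) (C.indicator h1) W0 x0 A)
    (hB : ∀ x, x ∈ B ↔ x ∈ C ∧ x ∈ A) : Ineq κ h0 hT h1 W0 x0 B := by
  have key : ∀ f : E → ℝ≥0∞, A.indicator (C.indicator f) = B.indicator f := by
    intro f
    funext x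
    by_cases hA : x ∈ A
    · by_cases hC : x ∈ C
      · rw [indicator_of_mem hA, indicator_of_mem hC, indicator_of_mem ((hB x).mpr ⟨hC, hA⟩)]
      · rw [indicator_of_mem hA, indicator_of_notMem hC,
          indicator_of_notMem (fun h => hC ((hB x).mp h).1)]
    · rw [indicator_of_notMem hA, indicator_of_notMem (fun h => hA ((hB x).mp h).2)]
  unfold Ineq at *
  rw [key, key, key] at h
  exact h

theorem main_aux (m0 : Measurable h0) (mT : Measurable hT) (m1 : Measurable h1)
    (hF : FlagIneq κ h0 hT h1) (T : KTree E) :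
    (∀ (W0 : Submodule ℝ E) (_ : T.Valid W0) (x0 : E)
      (_ : ∀ y, W0.starProjection y = W0.starProjection x0 → hlt h0 h1 T y)
      (_ : Root h0 h1 T.frz W0 x0), Ineq κ h0 hT h1 W0 x0 T.reg) ∧
    (∀ (W0 : Submodule ℝ E) (_ : T.Valid W0) (x0 : E)
      (_ : ∀ y, W0.starProjection y = W0.starProjection x0 → hlt h0 h1 T y),
      Ineq κ h0 hT h1 W0 x0 (T.reg \ low h0 h1 T)) := by
  -- `P` from `Q`
  have PQ : ∀ (T : KTree E), (∀ (W0 : Submodule ℝ E) (_ : T.Valid W0) (x0 : E)
      (_ : ∀ y, W0.starProjection y = W0.starProjection x0 → hlt h0 h1 T y),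
      Ineq κ h0 hT h1 W0 x0 (T.reg \ low h0 h1 T)) →
      (∀ (W0 : Submodule ℝ E) (_ : T.Valid W0) (x0 : E)
      (_ : ∀ y, W0.starProjection y = W0.starProjection x0 → hlt h0 h1 T y)
      (_ : Root h0 h1 T.frz W0 x0), Ineq κ h0 hT h1 W0 x0 T.reg) := by
    intro T hQ W0 hv x0 hh hroot
    have hlowm := measurableSet_low (h0 := h0) (h1 := h1) hv m0 m1
    have hI := hF T.frz (isClosed_frz hv) (convex_frz hv) W0 T.chain (le_of_mem_chain hv)
      (chain_sorted hv) x0 hroot
    have hL : Ineq κ h0 hT h1 W0 x0 (low h0 h1 T) :=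
      Ineq.of_indicator hI fun x => low_iff hv x
    have hL' : Ineq κ h0 hT h1 W0 x0 (low h0 h1 T ∩ T.reg) :=
      hL.congr fun x hx => ⟨fun h => ⟨h, low_subset_reg (hh x hx) h⟩, fun h => h.1⟩
    refine Ineq.add m0 mT m1 (hlowm.inter (measurableSet_reg hv)) inter_subset_right hL' ?_
    refine (hQ W0 hv x0 hh).congr fun x hx => ?_
    simp only [mem_diff, mem_inter_iff, not_and]
    constructor
    · rintro ⟨a, b⟩
      exact ⟨a, fun h => absurd h b⟩
    · rintro ⟨a, b⟩
      exact ⟨a, fun h => b h a⟩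
  induction T with
  | leaf =>
    have hQ : ∀ (W0 : Submodule ℝ E) (_ : (leaf : KTree E).Valid W0) (x0 : E)
      (_ : ∀ y, W0.starProjection y = W0.starProjection x0 → hlt h0 h1 leaf y),
      Ineq κ h0 hT h1 W0 x0 ((leaf : KTree E).reg \ low h0 h1 leaf) := by
      intro W0 _ x0 _
      simp only [reg_leaf, low_leaf, diff_self]
      exact Ineq.empty
    exact ⟨PQ leaf hQ, hQ⟩
  | node W D Z cls sub ih =>
    have hQ : ∀ (W0 : Submodule ℝ E) (_ : (node W D Z cls sub).Valid W0) (x0 : E)
      (_ : ∀ y, W0.starProjection y = W0.starProjection x0 → hlt h0 h1 (node W D Z cls sub) y),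
      Ineq κ h0 hT h1 W0 x0 ((node W D Z cls sub).reg \ low h0 h1 (node W D Z cls sub)) := by
      intro W0 hv x0 hh
      have hlowm := measurableSet_low (h0 := h0) (h1 := h1) hv m0 m1
      have hregm := measurableSet_reg hv
      obtain ⟨hle, hD, hcD, hcZ, hZ, hZc, hcls, hci, hsub⟩ := id hv
      refine Ineq.of_fibres hle m0 mT m1 (hregm.diff hlowm) fun y hy => ?_
      by_cases hyZ : y ∈ Z
      · refine Ineq.empty.congr fun x hx => ?_
        simp only [mem_empty_iff_false, false_iff]
        rintro ⟨⟨_, h2, _⟩, _⟩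
        exact h2 ((hcZ.mem_iff hx).mpr hyZ)
      by_cases hyD : y ∈ D
      · refine Ineq.empty.congr fun x hx => ?_
        simp only [mem_empty_iff_false, false_iff]
        rintro ⟨⟨h2, _, _⟩, _⟩
        exact h2 ((hcD.mem_iff hx).mpr hyD)
      have hfib : ∀ x, W.starProjection x = W.starProjection y →
          W0.starProjection x = W0.starProjection x0 := fun x hx =>
        (proj_eq_of_le hle hx).trans hy
      obtain ⟨a, b, c⟩ := hh y hy hyZ
      have hsubh : ∀ x, W.starProjection x = W.starProjection y → hlt h0 h1 (sub (cls y)) x := by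
        intro x hx
        have hxZ : x ∉ Z := fun h => hyZ ((hcZ.mem_iff hx).mp h)
        have hxD : x ∉ D := fun h => hyD ((hcD.mem_iff hx).mp h)
        have := (hh x (hfib x hx) hxZ).2.2 hxD
        rwa [hci.eq_of hx] at this
      have hlongx : ∀ x, W.starProjection x = W.starProjection y →
          (Long h0 h1 (sub 0).frz W x ↔ Long h0 h1 (sub 0).frz W y) := by
        intro x hx
        unfold Long
        rw [(inv_fib W _).eq_of hx, (inv_fib W _).eq_of hx]
      by_cases hL : Long h0 h1 (sub 0).frz W y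
      · have hroot : Root h0 h1 (sub (cls y)).frz W y := by
          by_cases hc : cls y = 0
          · rw [hc]; exact hL.root
          · exact b hyD hc
        refine ((ih (cls y)).1 W (hsub _) y hsubh hroot).congr fun x hx => ?_
        have hxZ : x ∉ Z := fun h => hyZ ((hcZ.mem_iff hx).mp h)
        have hxD : x ∉ D := fun h => hyD ((hcD.mem_iff hx).mp h)
        simp only [mem_diff, reg_node, low_node, mem_setOf_eq, hxZ, hxD, not_false_eq_true,
          true_and, hci.eq_of hx, hlongx x hx, hL, not_true_eq_false, false_and, and_true]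
      · have hc : cls y = 0 := by
          by_contra hc
          exact hL (a (Or.inr hc))
        rw [hc] at hsubh
        refine ((ih 0).2 W (hsub 0) y hsubh).congr fun x hx => ?_
        have hxZ : x ∉ Z := fun h => hyZ ((hcZ.mem_iff hx).mp h)
        have hxD : x ∉ D := fun h => hyD ((hcD.mem_iff hx).mp h)
        simp only [mem_diff, reg_node, low_node, mem_setOf_eq, hxZ, hxD, not_false_eq_true,
          true_and, hci.eq_of hx, hc, hlongx x hx, hL]
    exact ⟨PQ _ hQ, hQ⟩

/-- **The star inequality on a tree of labels with killed labels, functional form.** -/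
theorem kill_ineq (m0 : Measurable h0) (mT : Measurable hT) (m1 : Measurable h1)
    (hF : FlagIneq κ h0 hT h1) {T : KTree E} {W0 : Submodule ℝ E} (hv : T.Valid W0) {x0 : E}
    (hh : ∀ y, W0.starProjection y = W0.starProjection x0 → hlt h0 h1 T y)
    (hroot : Root h0 h1 T.frz W0 x0) : Ineq κ h0 hT h1 W0 x0 T.reg :=
  (main_aux m0 mT m1 hF T).1 W0 hv x0 hh hroot

end KTree

end Vale.Agent.P262.H395
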