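import Vale.Agent.P262.H44.StarTree
import Vale.Agent.P262.H395.Kill
import Vale.Agent.P262.H59.Rim

/-!
# P262: the star step on a tree of labels with class dependent flags and killed labels
-/

set_option linter.all false

open MeasureTheory ProbabilityTheory Set
open scoped ENNReal RealInnerProductSpace

namespace Vale.Agent.P262.H395

open Vale.Agent.P262.H44 Vale.Agent.P262.H59
open Vale.Agent.P262.H493 (star)

namespace KTree

variable {E : Type*} [NormedAddCommGroup E] [InnerProductSpace ℝ E] [FiniteDimensional ℝ E]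
  [MeasurableSpace E] [BorelSpace E] {h0 hT h1 : E → ℝ≥0∞}

/-- the fixed flag of a chain, stopped at the long labels -/
def chainTree (g0 g1 : E → ℝ≥0∞) : List (Submodule ℝ E) → STree E
  | [] => STree.leaf
  | V :: L => STree.node V {x | ENNReal.ofReal (1 / 2) * fib V g0 x ≤ fib V g1 x}
      (fun _ => 0) (fun _ => chainTree g0 g1 L)

lemma reg_chainTree (g0 g1 : E → ℝ≥0∞) (L : List (Submodule ℝ E)) :
    (chainTree g0 g1 L).reg
      = {x | ∀ V ∈ L, ¬ ENNReal.ofReal (1 / 2) * fib V g0 x ≤ fib V g1 x} := by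
  induction L with
  | nil => ext x; simp [chainTree, STree.reg]
  | cons V L ih =>
    ext x
    simp only [chainTree, STree.reg, mem_setOf_eq, List.mem_cons, forall_eq_or_imp, ih]

lemma valid_chainTree {g0 g1 : E → ℝ≥0∞} (m0 : Measurable g0) (m1 : Measurable g1) :
    ∀ (L : List (Submodule ℝ E)) (W0 : Submodule ℝ E), (∀ V ∈ L, W0 ≤ V) → L.Pairwise (· ≤ ·) →
      (chainTree g0 g1 L).Valid W0
  | [], _, _, _ => by trivial
  | V :: L, W0, hW, hL => by
    have hL' := List.pairwise_cons.mp hL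
    refine ⟨hW V List.mem_cons_self, ?_, ?_, measurable_const, ?_, fun n => ?_⟩
    · exact measurableSet_le ((measurable_fib m0).const_mul _) (measurable_fib m1)
    · intro x w hw
      simp only [mem_setOf_eq]
      rw [inv_fib V g0 x w hw, inv_fib V g1 x w hw]
    · intro x w hw; rfl
    · exact valid_chainTree m0 m1 L V hL'.1 hL'.2

lemma deep_chainTree {g0 g1 : E → ℝ≥0∞} :
    ∀ (L : List (Submodule ℝ E)), (chainTree g0 g1 L).Deep g0 g1
  | [] => by trivial
  | V :: L => ⟨fun x hx => hx, fun n => deep_chainTree L⟩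

lemma ofReal_half : ENNReal.ofReal (1 / 2) = (1 / 2 : ℝ≥0∞) := by
  rw [ENNReal.ofReal_div_of_pos (by norm_num)]; norm_num

lemma ofReal_quarter : ENNReal.ofReal (1 / 4) = (1 / 4 : ℝ≥0∞) := by
  rw [ENNReal.ofReal_div_of_pos (by norm_num)]; norm_num

/-- the input of `kill_ineq` holds for regular triples -/
theorem flagIneq {Θ : ℝ} (hΘ : 0 < Θ) (hΘ1 : Θ ≤ 1 / 704) (h : RegG Θ h0 hT h1) :
    FlagIneq (ENNReal.ofReal (704 * Θ)) h0 hT h1 := by
  intro C hC hCc W0 L hW hL x0 hroot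
  have hr := h.indicator hΘ (by linarith) hC hCc
  have key := hr.star_tree hΘ hΘ1
    (valid_chainTree (g0 := C.indicator h0) (g1 := C.indicator h1) hr.m0 hr.m1 L W0 hW hL)
    (deep_chainTree L) x0 (by rw [ofReal_quarter]; exact hroot)
  have e : (chainTree (C.indicator h0) (C.indicator h1) L).reg
      = {x | ∀ V ∈ L, ¬ Long h0 h1 C V x} := by
    rw [reg_chainTree]
    ext x
    simp only [Long, ofReal_half]
  rw [e] at key
  unfold Ineq
  rw [add_mul, one_mul]
  exact key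

/-- all subspaces of the tree are orthogonal to `v` -/
def Below (V : Submodule ℝ E) : KTree E → Prop
  | leaf => True
  | node W _ _ _ sub => W ≤ V ∧ ∀ n, Below V (sub n)

lemma line_reg {V : Submodule ℝ E} : ∀ {T : KTree E} {W0 : Submodule ℝ E} (_ : T.Valid W0)
    (_ : T.Below V), InvS V T.reg
  | leaf, _, _, _ => fun x w hw => by simp
  | node W D Z cls sub, W0, h, hb => by
    obtain ⟨h1, hD, hcD, hcZ, hZ, hZc, hcls, hci, hsub⟩ := h
    intro x w hw
    have hw' := Submodule.orthogonal_le hb.1 hw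
    simp only [reg_node, mem_setOf_eq]
    rw [hcD x w hw', hcZ x w hw', hci x w hw', line_reg (hsub (cls x)) (hb.2 _) x w hw]

lemma line_frz {V : Submodule ℝ E} : ∀ {T : KTree E} {W0 : Submodule ℝ E} (_ : T.Valid W0)
    (_ : T.Below V), InvS V T.frz
  | leaf, _, _, _ => fun x w hw => by simp
  | node W D Z cls sub, W0, h, hb => by
    obtain ⟨h1, hD, hcD, hcZ, hZ, hZc, hcls, hci, hsub⟩ := h
    intro x w hw
    have hw' := Submodule.orthogonal_le hb.1 hw
    simp only [frz_node, mem_inter_iff, mem_compl_iff]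
    rw [hcZ x w hw', line_frz (hsub 0) (hb.2 _) x w hw]

/-- `a` of the conditional mass of `K` or of `star K v` inside `C` -/
def Hea (K : Set E) (v : E) (a : ℝ) (C : Set E) (W : Submodule ℝ E) (x : E) : Prop :=
  ENNReal.ofReal a ≤ fib W ((star K v ∩ C).indicator 1) x ∨
    ENNReal.ofReal a ≤ fib W ((K ∩ C).indicator 1) x

/-- health along the path of a point, in terms of measures of fibres -/
def HK (K : Set E) (v : E) : KTree E → E → Prop
  | leaf, _ => True
  | node W D Z cls sub, x => x ∉ Z →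
      ((x ∈ D ∨ cls x ≠ 0) → Hea K v (4 / 5) (sub 0).frz W x) ∧
      (x ∉ D → cls x ≠ 0 → Hea K v (2 / 3) (sub (cls x)).frz W x) ∧
      (x ∉ D → HK K v (sub (cls x)) x)

variable {K : Set E} {v : E}

lemma Hea.long (hv : v ≠ 0) (hv' : ‖v‖ ≤ 1 / 100) (hK : IsClosed K) (hKc : Convex ℝ K)
    (hb : ∃ R : ℝ, ∀ x ∈ K, |⟪v, x⟫| ≤ R) {C : Set E} (hC : MeasurableSet C)
    (hCi : InvS (ℝ ∙ v)ᗮ C) {W : Submodule ℝ E} (hW : W ≤ (ℝ ∙ v)ᗮ) {x : E}
    (h : Hea K v (4 / 5) C W x) : Long (hl K v 0) (hl K v (1 / 2)) C W x := by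
  unfold Long
  rw [← ofReal_half]
  rcases h with h | h
  · exact (deep_star hv hv' hK hKc hb hC hCi hW x).1 h
  · exact (deep_body hv hK hKc hb hC hCi hW x).1 h

lemma Hea.root (hv : v ≠ 0) (hv' : ‖v‖ ≤ 1 / 100) (hK : IsClosed K) (hKc : Convex ℝ K)
    (hb : ∃ R : ℝ, ∀ x ∈ K, |⟪v, x⟫| ≤ R) {C : Set E} (hC : MeasurableSet C)
    (hCi : InvS (ℝ ∙ v)ᗮ C) {W : Submodule ℝ E} (hW : W ≤ (ℝ ∙ v)ᗮ) {x : E}
    (h : Hea K v (2 / 3) C W x) : Root (hl K v 0) (hl K v (1 / 2)) C W x := by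
  unfold Root
  rw [← ofReal_quarter]
  rcases h with h | h
  · exact (deep_star hv hv' hK hKc hb hC hCi hW x).2 h
  · exact (deep_body hv hK hKc hb hC hCi hW x).2 h

lemma HK.hlt (hv : v ≠ 0) (hv' : ‖v‖ ≤ 1 / 100) (hK : IsClosed K) (hKc : Convex ℝ K)
    (hb : ∃ R : ℝ, ∀ x ∈ K, |⟪v, x⟫| ≤ R) : ∀ {T : KTree E} {W0 : Submodule ℝ E}
    (_ : T.Valid W0) (_ : T.Below (ℝ ∙ v)ᗮ) {x : E} (_ : HK K v T x),
    KTree.hlt (hl K v 0) (hl K v (1 / 2)) T x
  | leaf, _, _, _, _, _ => trivial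
  | node W D Z cls sub, W0, h, hbl, x, hx => by
    obtain ⟨h1, hD, hcD, hcZ, hZ, hZc, hcls, hci, hsub⟩ := h
    intro hxZ
    obtain ⟨a, b, c⟩ := hx hxZ
    refine ⟨fun h => ?_, fun h h' => ?_, fun h => ?_⟩
    · exact (a h).long hv hv' hK hKc hb (isClosed_frz (hsub 0)).measurableSet
        (line_frz (hsub 0) (hbl.2 0)) hbl.1
    · exact (b h h').root hv hv' hK hKc hb (isClosed_frz (hsub _)).measurableSet
        (line_frz (hsub _) (hbl.2 _)) hbl.1
    · exact HK.hlt hv hv' hK hKc hb (hsub _) (hbl.2 _) (c h)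

/-- **The nested star theorem for class dependent flags with killed labels.**
`T.reg` is the set of points never stopped and never killed. Stopped labels and labels of a class
different from `0` are healthy; the kill sets of the class `0` chain are complements of closed
convex cylinders. -/
theorem star_kill (hv : v ≠ 0) (hv' : ‖v‖ ≤ 1 / 3000) (hK : IsClosed K) (hKc : Convex ℝ K)
    (hb : ∃ R : ℝ, ∀ x ∈ K, |⟪v, x⟫| ≤ R) {W0 : Submodule ℝ E} (hW0 : W0 ≤ (ℝ ∙ v)ᗮ)
    {T : KTree E} (hT : T.Valid W0) (hTb : T.Below (ℝ ∙ v)ᗮ) (x0 : E)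
    (hh : ∀ y, W0.starProjection y = W0.starProjection x0 → HK K v T y)
    (hroot : Hea K v (2 / 3) T.frz W0 x0) :
    fib W0 (((K \ star K v) ∩ T.reg).indicator 1) x0 ≤
      ENNReal.ofReal (10000 * ‖v‖) *
        fib W0 (((star K v \ K) ∩ T.reg).indicator 1) x0 := by
  have hδ : 0 < ‖v‖ := norm_pos_iff.mpr hv
  have hreg := regG_body hv (by linarith) hK hKc hb
  have hΘ : 0 < 4 * ‖v‖ := by linarith
  have hΘ1 : 4 * ‖v‖ ≤ 1 / 704 := by linarith
  have hR := hroot.root hv (by linarith) hK hKc hb (isClosed_frz hT).measurableSet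
    (line_frz hT hTb) hW0
  have key := kill_ineq hreg.m0 hreg.mT hreg.m1 (flagIneq hΘ hΘ1 hreg) hT
    (fun y hy => HK.hlt hv (by linarith) hK hKc hb hT hTb (hh y hy)) hR
  have key' : IneqF (ENNReal.ofReal (704 * (4 * ‖v‖))) (hl K v 0) (hl K v (2 * ‖v‖))
      (hl K v (1 / 2)) W0 x0 T.reg := by
    unfold Ineq at key
    rw [add_mul, one_mul] at key
    exact key
  have h2 := transfer hv (by linarith) hK hKc hb hW0 (measurableSet_reg hT) (line_reg hT hTb) x0
    (by positivity) key'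
  refine h2.trans (mul_le_mul' (ENNReal.ofReal_le_ofReal ?_) le_rfl)
  nlinarith

/-- the same with the cut by the ball -/
theorem star_kill_cut (hv : v ≠ 0) (hv' : ‖v‖ ≤ 1 / 3000) (hK : IsClosed K) (hKc : Convex ℝ K)
    {R : ℝ} (hKR : K ⊆ Metric.closedBall 0 R) {W0 : Submodule ℝ E} (hW0 : W0 ≤ (ℝ ∙ v)ᗮ)
    {T : KTree E} (hT : T.Valid W0) (hTb : T.Below (ℝ ∙ v)ᗮ) (x0 : E)
    (hh : ∀ y, W0.starProjection y = W0.starProjection x0 → HK K v T y)
    (hroot : Hea K v (2 / 3) T.frz W0 x0)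
    {p Lam : ℝ} (hp0 : 0 ≤ p) (hp : p ≤ 1 / 4) (hL : 1 ≤ Lam)
    (hline : ∀ x ∈ T.reg, OnLine K v R p Lam x) :
    fib W0 (fun y => T.reg.indicator 1 y *
        (K \ (star K v ∩ Metric.closedBall 0 R)).indicator 1 y) x0 ≤
      ENNReal.ofReal (20000 * ‖v‖) *
        fib W0 (fun y => T.reg.indicator 1 y *
          ((star K v ∩ Metric.closedBall 0 R) \ K).indicator 1 y) x0 := by
  have hδ : 0 < ‖v‖ := norm_pos_iff.mpr hv
  have hb : ∃ R : ℝ, ∀ x ∈ K, |⟪v, x⟫| ≤ R := ⟨‖v‖ * R, fun x hx =>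
    (abs_real_inner_le_norm v x).trans
      (mul_le_mul_of_nonneg_left (by simpa using hKR hx) (norm_nonneg v))⟩
  have h1 := star_kill hv hv' hK hKc hb hW0 hT hTb x0 hh hroot
  have hrm := measurableSet_reg hT
  have hri := line_reg hT hTb
  have e : ∀ A : Set E, (fun y => T.reg.indicator (1 : E → ℝ≥0∞) y * A.indicator 1 y)
      = (A ∩ T.reg).indicator 1 := by
    intro A
    funext y
    by_cases h : y ∈ T.reg
    · by_cases h' : y ∈ A
      · have h2 : y ∈ A ∩ T.reg := ⟨h', h⟩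
        rw [indicator_of_mem h, indicator_of_mem h', indicator_of_mem h2]; simp
      · rw [indicator_of_mem h, indicator_of_notMem h', indicator_of_notMem (fun h2 => h' h2.1)]
        simp
    · rw [indicator_of_notMem h, indicator_of_notMem (fun h2 : y ∈ A ∩ T.reg => h h2.2)]; simp
  have hinv : Inv (Hp v) (T.reg.indicator (1 : E → ℝ≥0∞)) := by
    intro x w hw
    by_cases h : x ∈ T.reg
    · rw [indicator_of_mem h, indicator_of_mem ((hri x w hw).mpr h)]; rfl
    · rw [indicator_of_notMem h, indicator_of_notMem (fun h' => h ((hri x w hw).mp h'))]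
  have h2 := cut_fib hK hKc hKR hδ (by linarith) hp0 hp hL hW0 hinv
    (measurable_one.indicator hrm) (fun x hx => hline x (by
      by_contra hcon
      exact hx (by rw [indicator_of_notMem hcon]))) x0
    (c := ENNReal.ofReal (10000 * ‖v‖)) (by rw [e, e]; exact h1)
  refine h2.trans (le_of_eq ?_)
  congr 1
  rw [show (2 : ℝ≥0∞) = ENNReal.ofReal 2 by norm_num, ← ENNReal.ofReal_mul (by norm_num)]
  congr 1
  ring

end KTree

end Vale.Agent.P262.H395
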