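import Vale.Agent.P262.H395.Tel2

/-!
# P262, milestone 1: block TEL, the telescoping of the root potential (part 3)
-/

set_option linter.all false

open MeasureTheory ProbabilityTheory Set Finset Module
open scoped ENNReal

namespace Vale.Agent.P262.H395.Tel

open Vale.Agent.P262.H136 Vale.Agent.P262.H118 Vale.Agent.P262.M1

variable {E : Type*} [NormedAddCommGroup E] [InnerProductSpace ℝ E] [FiniteDimensional ℝ E]
  [MeasurableSpace E] [BorelSpace E]

variable (S : Sys E)

/-! ### (C) openings -/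

lemma fib_P_compl {i : ℕ} (m : ℕ) (x : E) :
    fib (L S.f i) (P S m) x + fib (L S.f i) (Sys.iw (S.X S.lf m)) x = 1 := by
  rw [← fib_add (P_meas S m), P_eq]
  have : (fun y => ((S.X S.lf m)ᶜ.indicator 1 : E → ℝ≥0∞) y + Sys.iw (S.X S.lf m) y)
      = fun _ => 1 := by
    funext y
    unfold Sys.iw
    by_cases h : y ∈ S.X S.lf m
    · simp [indicator, h]
    · simp [indicator, h]
  rw [this, fib_const]

/-- one opening -/
lemma open_le {i m : ℕ} (hi : i ≤ S.lf) {w : E → ℝ≥0∞} (hw : Inv (L S.f i) w)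
    (hwm : Measurable w) :
    ∫⁻ y, w y * (a2 S i y - fib (L S.f i) (P S m) y) ∂stdGaussian E
      ≤ ∫⁻ y, w y * S.a i y * Sys.iw (S.X S.lf m) y ∂stdGaussian E := by
  have hX : Measurable (Sys.iw (S.X S.lf m)) := measurable_one.indicator (X_meas S _ _)
  have h1 : ∫⁻ y, w y * S.a i y * Sys.iw (S.X S.lf m) y ∂stdGaussian E
      = ∫⁻ y, w y * S.a i y * fib (L S.f i) (Sys.iw (S.X S.lf m)) y ∂stdGaussian E :=
    (lintegral_mul_fib (hw.mul (a_inv S i)) (hwm.mul (a_meas S i)) hX).symm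
  rw [h1]
  refine lintegral_mono fun y => ?_
  rw [mul_assoc]
  refine mul_le_mul' le_rfl ?_
  have h2 := fib_P_compl S (i := i) m y
  set D := fib (L S.f i) (P S m) y
  set q := fib (L S.f i) (Sys.iw (S.X S.lf m)) y
  have ha : a2 S i y ≤ 1 := min_le_right _ _
  have ha' : a2 S i y ≤ S.a i y := min_le_left _ _
  rw [tsub_le_iff_left]
  calc a2 S i y = a2 S i y * (D + q) := by rw [h2, mul_one]
    _ = a2 S i y * D + a2 S i y * q := by rw [mul_add]
    _ ≤ 1 * D + S.a i y * q := add_le_add (mul_le_mul' ha le_rfl) (mul_le_mul' ha' le_rfl)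
    _ = _ := by rw [one_mul]

lemma opn_le {i τ m : ℕ} (hi : 1 ≤ i) (hil : i ≤ S.lf) (hm : gs S τ = m) :
    ENNReal.ofReal (Bk.opn (L S.f) (nw2 S) (fun τ => P S (gs S τ)) (a2 S) i τ
      (Omp (om2 S) i τ)) ≤
    ∫⁻ x, Sys.iw (S.OM (i - 1) m) x * S.a i x * Sys.iw (S.X S.lf m) x ∂stdGaussian E := by
  unfold Bk.opn
  split_ifs with hc
  swap
  · simp
  obtain ⟨i', rfl⟩ : ∃ i', i = i' + 1 := ⟨i - 1, by omega⟩
  refine (ofReal_mean_le _).trans ?_
  rw [Nat.add_sub_cancel]
  simp only [omp_eq, hm]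
  refine open_le S hil ?_ ?_
  · have h := (bk S).omp_inv (i' + 1) τ
    rw [omp_eq, hm] at h
    exact h
  · have h := omp_meas' S (i' + 1) τ
    rw [omp_eq, hm] at h
    exact h

lemma opn_odd {i t : ℕ} (hil : i ≤ S.lf) (w : E → ℝ≥0∞) :
    Bk.opn (L S.f) (nw2 S) (fun τ => P S (gs S τ)) (a2 S) i (2 * t + 1) w = 0 := by
  unfold Bk.opn
  rw [if_neg]
  rintro (h | ⟨h, -⟩)
  · omega
  · omega

lemma sv_lt {t i : ℕ} (hi : t + 1 ∈ S.K.nw i) : S.sv (S.el.n (t + 1) - 1) < i := by
  have hn := S.el.n_succ t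
  have htm : S.tm (S.el.n (t + 1) - 1) = t := tm_eq S (by omega) (by omega)
  by_contra hcon
  push Not at hcon
  have h0 : t + 1 ∉ S.K.nw 0 := by
    rw [S.K.nw_zero]
    simp
  have h1 : t + 1 ∉ S.K.nw (S.sv (S.el.n (t + 1) - 1)) := by
    classical
    unfold Sys.sv
    rw [htm]
    exact Nat.findGreatest_spec (P := fun i => t + 1 ∉ S.K.nw i) (Nat.zero_le S.lf) h0
  exact h1 (H118.Elem.K_nw_mono S.K hcon hi)

lemma sum_opn_le {t : ℕ} (ht : t + 1 < S.T) :
    ∑ i ∈ range (S.lf + 1), ENNReal.ofReal (Bk.opn (L S.f) (nw2 S) (fun τ => P S (gs S τ)) (a2 S) i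
      (2 * (t + 1)) (Omp (om2 S) i (2 * (t + 1)))) ≤ S.Vp (S.el.n (t + 1) - 1) := by
  have hn := S.el.n_succ t
  have htm : S.tm (S.el.n (t + 1) - 1) = t := tm_eq S (by omega) (by omega)
  have hre : S.IsRe (S.el.n (t + 1) - 1) := by
    unfold Sys.IsRe
    rw [htm]
    omega
  unfold Sys.Vp
  rw [if_pos hre]
  have hm1 : S.el.n (t + 1) - 1 + 1 = S.el.n (t + 1) := by omega
  rw [hm1]
  set s := S.sv (S.el.n (t + 1) - 1) with hs
  have hsplit : ∑ i ∈ range (S.lf + 1), ENNReal.ofReal (Bk.opn (L S.f) (nw2 S)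
      (fun τ => P S (gs S τ)) (a2 S) i (2 * (t + 1)) (Omp (om2 S) i (2 * (t + 1))))
      = ∑ i ∈ Finset.Ioc s S.lf, ENNReal.ofReal (Bk.opn (L S.f) (nw2 S)
      (fun τ => P S (gs S τ)) (a2 S) i (2 * (t + 1)) (Omp (om2 S) i (2 * (t + 1)))) := by
    symm
    refine Finset.sum_subset ?_ ?_
    · intro i hi
      rw [Finset.mem_Ioc] at hi
      rw [Finset.mem_range]
      omega
    · intro i hi hni
      rw [Finset.mem_range] at hi
      rw [Finset.mem_Ioc] at hni
      unfold Bk.opn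
      rw [if_neg]
      · simp
      · rintro (h | ⟨-, h⟩)
        · omega
        · rw [show 2 * (t + 1) / 2 = t + 1 by omega] at h
          have := sv_lt S h
          omega
  rw [hsplit]
  refine Finset.sum_le_sum fun i hi => ?_
  rw [Finset.mem_Ioc] at hi
  exact opn_le S (by omega) hi.2 (gs_even S (t + 1))

lemma gs_zero : gs S 0 = 0 := by
  have := gs_even S 0
  rw [mul_zero, S.el.n_zero] at this
  exact this

/-- the opening of the root -/
lemma opn_root :
    ENNReal.ofReal (mean (P S 0) + Bk.opn (L S.f) (nw2 S) (fun τ => P S (gs S τ)) (a2 S) 0 0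
      (Omp (om2 S) 0 0)) ≤ max (S.a 0 0) (S.De 0 0 0) := by
  have hd0 : 0 < S.d := by have := S.hd2; omega
  have hbot : L S.f 0 = ⊥ := rfl
  have hconst : ∀ y, fib (L S.f 0) (P S 0) y = S.De 0 0 0 := by
    intro y
    rw [De_eq S hd0, hbot, fib_bot, fib_bot]
  have hcap : ∀ y, a2 S 0 y = a2 S 0 0 := by
    intro y
    have h := a_inv S 0
    rw [hbot] at h
    have h2 := h 0 y (by simp)
    rw [zero_add] at h2
    unfold a2
    rw [h2]
  have h1 : Bk.opn (L S.f) (nw2 S) (fun τ => P S (gs S τ)) (a2 S) 0 0 (Omp (om2 S) 0 0)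
      = (a2 S 0 0 - S.De 0 0 0).toReal := by
    unfold Bk.opn
    rw [if_pos (by rw [nw2_zero]; rfl)]
    unfold mean
    have : (fun y => Omp (om2 S) 0 0 y * (a2 S 0 y - fib (L S.f 0) ((fun τ => P S (gs S τ)) 0) y))
        = fun _ => a2 S 0 0 - S.De 0 0 0 := by
      funext y
      rw [Omp_zero, one_mul, hcap y]
      simp only [gs_zero]
      rw [hconst y]
    rw [this]
    simp
  have h2 : mean (P S 0) = (S.De 0 0 0).toReal := by
    unfold mean
    rw [De_eq S hd0, hbot, fib_bot]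
  have hDf : S.De 0 0 0 ≠ ∞ := ne_of_lt (lt_of_le_of_lt (De_le S 0 0 0) ENNReal.one_lt_top)
  have haf : a2 S 0 0 - S.De 0 0 0 ≠ ∞ := by
    refine ne_of_lt (lt_of_le_of_lt (tsub_le_self.trans (min_le_right _ _)) ENNReal.one_lt_top)
  rw [h1, h2, ← ENNReal.toReal_add hDf haf, ENNReal.ofReal_toReal (ENNReal.add_ne_top.2
    ⟨hDf, haf⟩)]
  rcases le_total (a2 S 0 0) (S.De 0 0 0) with h | h
  · rw [tsub_eq_zero_of_le h, add_zero]
    exact le_max_right _ _
  · rw [add_tsub_cancel_of_le h]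
    exact (min_le_left _ _).trans (le_max_left _ _)

/-! ### (D) ends of blocks -/

/-- the end state does not depend on the move in the block -/
lemma eT_eq {i m m' : ℕ} (h : st (S.K.nb i) (S.tm m) = st (S.K.nb i) (S.tm m')) :
    S.eT i m = S.eT i m' := by
  unfold Sys.eT Sys.sT
  rw [h]

lemma sB_above {l m : ℕ} (hl : l < S.lf) : S.sB l m = S.el.n (st (S.K.nb l) (S.tm m)) := by
  unfold Sys.sB Sys.sT
  rw [if_neg hl.ne]

lemma st_idem {B : Set ℕ} (h0 : 0 ∈ B) (t : ℕ) : st B (st B t) = st B t := by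
  refine le_antisymm (st_le _) ?_
  classical
  exact Nat.le_findGreatest le_rfl (st_mem h0 t)

/-- for the levels above: the outer block start is the same -/
lemma st_outer {k l : ℕ} (hk : k ≤ l) (t : ℕ) :
    st (S.K.nb k) (st (S.K.nb l) t) = st (S.K.nb k) t := by
  refine le_antisymm ?_ ?_
  · classical
    exact Nat.le_findGreatest ((st_le _).trans (st_le t)) (st_mem (S.K.zero_mem_nb k) _)
  · classical
    refine Nat.le_findGreatest ?_ (st_mem (S.K.zero_mem_nb k) t)
    by_contra hcon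
    push Not at hcon
    exact not_mem_of_st (B := S.K.nb l) hcon (st_le t)
      (nb_mono' S.K hk (st_mem (S.K.zero_mem_nb k) t))

lemma om_sB {k l m : ℕ} (hl : l < S.lf) (hk : k ≤ l) : S.om k (S.sB l m) = S.om k m := by
  refine om_congr_st S (by omega) ?_
  rw [sB_above S hl, tm_n, st_outer S hk]

lemma PZ_sB {l m : ℕ} (hl : l < S.lf) : S.PZ l (S.sB l m) = S.PZ l m := by
  unfold Sys.PZ
  have h1 : S.OM l (S.sB l m) = S.OM l m := by
    ext x
    simp only [Sys.OM, mem_setOf_eq]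
    constructor
    · intro h i hi
      rw [← om_sB S hl hi]; exact h i hi
    · intro h i hi
      rw [om_sB S hl hi]; exact h i hi
  have h2 : S.eB l (S.sB l m) = S.eB l m := by
    rw [eB_of_ne S hl.ne, eB_of_ne S hl.ne]
    congr 2
    refine eT_eq S ?_
    rw [sB_above S hl, tm_n, st_idem (S.K.zero_mem_nb l)]
  rw [h1, h2]

open Classical in
/-- the price of one block -/
lemma cls_le {l τ : ℕ} (hl : l ≤ S.lf) (hτ : τ < 2 * S.T - 1) :
    ENNReal.ofReal (Bk.cls (L S.f) (nw2 S) (nb2 S) (2 * S.T - 1) (fun τ => P S (gs S τ))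
      (fun τ => P S (hs S τ)) (om2 S) (a2 S) l τ (Omp (om2 S) l τ))
      ≤ if τ + 1 ∈ nb2 S l ∨ τ + 1 = 2 * S.T - 1 then S.PZ l (gs S τ) else 0 := by
  unfold Bk.cls
  split_ifs with hc
  swap
  · simp
  refine (ofReal_mean_le _).trans ?_
  unfold Sys.PZ
  refine lintegral_mono fun y => ?_
  rw [fin_eq S hl hτ hc y, ← omp_eq, Omp_succ]
  by_cases hy : y ∈ S.om l (gs S τ)
  · refine mul_le_mul' le_rfl (tsub_le_tsub_right ?_ _)
    refine (min_le_left _ _).trans ?_
    unfold Sys.a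
    rw [if_neg hy.1]
  · unfold om2 Sys.iw
    rw [indicator_of_notMem hy]
    simp

/-- the first state of the block of a doubled step -/
lemma sB_mem {l τ : ℕ} (hl : l ≤ S.lf) (hτ : τ < 2 * S.T - 1) : S.sB l (gs S τ) ∈ S.bl l := by
  have hT := S.hT
  have hmT := mT_eq S
  unfold Sys.bl
  rw [Finset.mem_filter, Finset.mem_range]
  rcases hl.eq_or_lt with rfl | hlt
  · -- leaf
    rcases Nat.even_or_odd' τ with ⟨t, rfl | rfl⟩
    · have e1 : S.sB S.lf (gs S (2 * t)) = S.el.n t := by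
        unfold Sys.sB
        rw [if_pos rfl, gs_even, if_pos (isStar_n S t)]
      rw [e1]
      refine ⟨?_, ?_⟩
      · rw [hmT]
        have := (n_mono S).monotone (by omega : t ≤ S.T - 1)
        omega
      · unfold Sys.sB
        rw [if_pos rfl, if_pos (isStar_n S t)]
    · have hn := S.el.n_succ t
      have e1 : S.sB S.lf (gs S (2 * t + 1)) = S.el.n t + 1 := by
        unfold Sys.sB
        rw [if_pos rfl, gs_odd, if_neg (not_isStar S (t := t) (by omega) (by omega)), tm_n1]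
      rw [e1]
      refine ⟨?_, ?_⟩
      · rw [hmT]
        have := (n_mono S).monotone (by omega : t + 1 ≤ S.T - 1)
        omega
      · unfold Sys.sB
        rw [if_pos rfl, if_neg (not_isStar S (t := t) (by omega) (by omega)), tm_n1]
  · rw [sB_above S hlt, tm_gs]
    refine ⟨?_, ?_⟩
    · rw [hmT]
      have h1 : st (S.K.nb l) (τ / 2) ≤ S.T - 1 := (st_le _).trans (by omega)
      have := (n_mono S).monotone h1
      omega
    · rw [sB_above S hlt, tm_n, st_idem (S.K.zero_mem_nb l)]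

/-- two block ends with the same block coincide -/
lemma sB_inj {l τ τ' : ℕ} (hl : l ≤ S.lf) (hτ : τ < 2 * S.T - 1) (hτ' : τ' < 2 * S.T - 1)
    (h : τ + 1 ∈ nb2 S l ∨ τ + 1 = 2 * S.T - 1) (h' : τ' + 1 ∈ nb2 S l ∨ τ' + 1 = 2 * S.T - 1)
    (he : S.sB l (gs S τ) = S.sB l (gs S τ')) : τ = τ' := by
  have hT := S.hT
  rcases hl.eq_or_lt with rfl | hlt
  · -- leaf
    have key : ∀ τ, S.sB S.lf (gs S τ) = gs S τ := by
      intro τ
      rcases Nat.even_or_odd' τ with ⟨t, rfl | rfl⟩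
      · unfold Sys.sB
        rw [if_pos rfl, gs_even, if_pos (isStar_n S t)]
      · have hn := S.el.n_succ t
        unfold Sys.sB
        rw [if_pos rfl, gs_odd, if_neg (not_isStar S (t := t) (by omega) (by omega)), tm_n1]
    rw [key, key] at he
    have h1 := tm_gs S τ
    have h2 := tm_gs S τ'
    rw [he, h2] at h1
    rcases Nat.even_or_odd' τ with ⟨t, rfl | rfl⟩
    · rcases Nat.even_or_odd' τ' with ⟨t', rfl | rfl⟩
      · omega
      · rw [gs_even, gs_odd] at he
        have : t = t' := by omega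
        subst this
        omega
    · rcases Nat.even_or_odd' τ' with ⟨t', rfl | rfl⟩
      · rw [gs_even, gs_odd] at he
        have : t = t' := by omega
        subst this
        omega
      · omega
  · rw [sB_above S hlt, sB_above S hlt, tm_gs, tm_gs] at he
    have hs := (n_mono S).injective he
    -- both are the end of the block of this start
    have key : ∀ τ, τ < 2 * S.T - 1 → (τ + 1 ∈ nb2 S l ∨ τ + 1 = 2 * S.T - 1) →
        (τ + 1 = 2 * en (S.K.nb l) S.T (st (S.K.nb l) (τ / 2)) ∧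
          en (S.K.nb l) S.T (st (S.K.nb l) (τ / 2)) < S.T) ∨
        (τ + 1 = 2 * S.T - 1 ∧ en (S.K.nb l) S.T (st (S.K.nb l) (τ / 2)) = S.T) := by
      intro τ hτ h
      rcases h with (h1 | ⟨h1, h2⟩) | h1
      · omega
      · left
        obtain ⟨t, rfl⟩ : ∃ t, τ = 2 * t + 1 := ⟨τ / 2, by omega⟩
        have e3 : (2 * t + 1 + 1) / 2 = t + 1 := by omega
        rw [e3] at h2
        have hiv := iv_st (B := S.K.nb l) (S.K.zero_mem_nb l) (by omega : t < S.T)
        have e5 : (2 * t + 1) / 2 = t := by omega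
        rw [e5]
        have e4 : en (S.K.nb l) S.T (st (S.K.nb l) t) = t + 1 := by
          obtain ⟨g1, g2, g3⟩ := hiv
          by_contra hcon
          exact g1.2.2.2.2 (t + 1) (by omega) (by omega) h2
        rw [e4]
        omega
      · right
        obtain rfl : τ = 2 * (S.T - 1) := by omega
        have e5 : 2 * (S.T - 1) / 2 = S.T - 1 := by omega
        rw [e5]
        have hiv := iv_st (B := S.K.nb l) (S.K.zero_mem_nb l) (by omega : S.T - 1 < S.T)
        obtain ⟨g1, g2, g3⟩ := hiv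
        have := g1.2.2.1
        omega
    have k1 := key τ hτ h
    have k2 := key τ' hτ' h'
    rw [hs] at k1
    omega

lemma sum_cls_le {l : ℕ} (hl : l ≤ S.lf) :
    ∑ τ ∈ range (2 * S.T - 1), ENNReal.ofReal (Bk.cls (L S.f) (nw2 S) (nb2 S) (2 * S.T - 1)
      (fun τ => P S (gs S τ)) (fun τ => P S (hs S τ)) (om2 S) (a2 S) l τ (Omp (om2 S) l τ))
      ≤ ∑ m ∈ S.bl l, S.PZ l m := by
  classical
  calc _ ≤ ∑ τ ∈ range (2 * S.T - 1),
        (if τ + 1 ∈ nb2 S l ∨ τ + 1 = 2 * S.T - 1 then S.PZ l (gs S τ) else 0) :=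
        Finset.sum_le_sum fun τ hτ => cls_le S hl (Finset.mem_range.1 hτ)
    _ = ∑ τ ∈ range (2 * S.T - 1) with (τ + 1 ∈ nb2 S l ∨ τ + 1 = 2 * S.T - 1),
        S.PZ l (gs S τ) := (Finset.sum_filter _ _).symm
    _ = ∑ τ ∈ range (2 * S.T - 1) with (τ + 1 ∈ nb2 S l ∨ τ + 1 = 2 * S.T - 1),
        S.PZ l (S.sB l (gs S τ)) := by
        refine Finset.sum_congr rfl fun τ _ => ?_
        rcases hl.eq_or_lt with rfl | hlt
        · rcases Nat.even_or_odd' τ with ⟨t, rfl | rfl⟩
          · unfold Sys.sB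
            rw [if_pos rfl, gs_even, if_pos (isStar_n S t)]
          · have hn := S.el.n_succ t
            have e1 : S.sB S.lf (gs S (2 * t + 1)) = S.el.n t + 1 := by
              unfold Sys.sB
              rw [if_pos rfl, gs_odd, if_neg (not_isStar S (t := t) (by omega) (by omega)), tm_n1]
            rw [e1, gs_odd]
        · exact (PZ_sB S hlt).symm
    _ = ∑ m ∈ ((range (2 * S.T - 1)).filter
          (fun τ => τ + 1 ∈ nb2 S l ∨ τ + 1 = 2 * S.T - 1)).image (fun τ => S.sB l (gs S τ)),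
        S.PZ l m := by
        rw [Finset.sum_image]
        intro τ h1 τ' h2 he
        rw [Finset.mem_coe, Finset.mem_filter, Finset.mem_range] at h1 h2
        exact sB_inj S hl h1.1 h2.1 h1.2 h2.2 he
    _ ≤ ∑ m ∈ S.bl l, S.PZ l m := by
        refine Finset.sum_le_sum_of_subset ?_
        intro m hm
        rw [Finset.mem_image] at hm
        obtain ⟨τ, h1, rfl⟩ := hm
        rw [Finset.mem_filter, Finset.mem_range] at h1
        exact sB_mem S hl h1.1

/-! ### assembly -/

lemma sum_double (F : ℕ → ℝ) {T : ℕ} (hT : 0 < T) :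
    ∑ τ ∈ range (2 * T - 1), F τ
      = ∑ t ∈ range T, F (2 * t) + ∑ t ∈ range (T - 1), F (2 * t + 1) := by
  induction T, hT using Nat.le_induction with
  | base => simp
  | succ T hT ih =>
    have e1 : 2 * (T + 1) - 1 = 2 * T - 1 + 1 + 1 := by omega
    have e2 : T + 1 - 1 = T - 1 + 1 := by omega
    rw [e1, Finset.sum_range_succ, Finset.sum_range_succ, ih, Finset.sum_range_succ _ T, e2,
      Finset.sum_range_succ _ (T - 1)]
    have e3 : 2 * T - 1 = 2 * (T - 1) + 1 := by omega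
    have e4 : 2 * T - 1 + 1 = 2 * T := by omega
    rw [e4, e3]
    ring

lemma sum_moves (F : ℕ → ℝ≥0∞) (k : ℕ) :
    ∑ t ∈ range k, ∑ m ∈ Finset.Ico (S.el.n t) (S.el.n (t + 1)), F m
      = ∑ m ∈ range (S.el.n k), F m := by
  induction k with
  | zero => simp [S.el.n_zero]
  | succ k ih =>
    rw [Finset.sum_range_succ, ih, Finset.range_eq_Ico, Finset.range_eq_Ico,
      Finset.sum_Ico_consecutive _ (Nat.zero_le _) (S.el.n_lt k).le]

/-- **block TEL** -/
theorem tel (hM : 1 / 4 ≤ S.M) : S.TEL := by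
  have hT := S.hT
  have H := bk S
  have hd0 : 0 < S.d := by have := S.hd2; omega
  have hbot : L S.f 0 = ⊥ := rfl
  have h1 := H.total (by omega) (nw2_zero S) (hmean S)
  -- the last state
  have hlast : hs S (2 * S.T - 1 - 1) = S.mT := by
    have e1 : 2 * S.T - 1 - 1 = 2 * (S.T - 1) := by omega
    rw [e1, hs_even, mT_eq]
  simp only [hlast, gs_zero] at h1
  set opn := fun i τ => Bk.opn (L S.f) (nw2 S) (fun τ => P S (gs S τ)) (a2 S) i τ
    (Omp (om2 S) i τ) with hopn
  set cls := fun i τ => Bk.cls (L S.f) (nw2 S) (nb2 S) (2 * S.T - 1) (fun τ => P S (gs S τ))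
    (fun τ => P S (hs S τ)) (om2 S) (a2 S) i τ (Omp (om2 S) i τ) with hcls
  have hopn0 : ∀ i τ, 0 ≤ opn i τ := by
    intro i τ
    simp only [hopn]
    unfold Bk.opn
    split_ifs
    exacts [mean_nonneg _, le_rfl]
  have hcls0 : ∀ i τ, 0 ≤ cls i τ := by
    intro i τ
    simp only [hcls]
    unfold Bk.cls
    split_ifs
    exacts [mean_nonneg _, le_rfl]
  -- prices
  have h2 : ∑ τ ∈ range (2 * S.T - 1), ∑ i ∈ range (S.lf + 1),
      (Bk.opn (L S.f) (nw2 S) (fun τ => P S (gs S τ)) (a2 S) i τ (Omp (om2 S) i τ)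
        + Bk.cls (L S.f) (nw2 S) (nb2 S) (2 * S.T - 1) (fun τ => P S (gs S τ))
          (fun τ => P S (hs S τ)) (om2 S) (a2 S) i τ (Omp (om2 S) i τ)
        + Bk.rotS (L S.f) (nw2 S) (2 * S.T - 1) (fun τ => P S (gs S τ))
          (fun τ => P S (hs S τ)) (om2 S) i τ)
      = ∑ τ ∈ range (2 * S.T - 1), ∑ i ∈ range (S.lf + 1), opn i τ
        + ∑ i ∈ range (S.lf + 1), ∑ τ ∈ range (2 * S.T - 1), cls i τ := by
    rw [Finset.sum_comm (s := range (S.lf + 1)) (t := range (2 * S.T - 1)),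
      ← Finset.sum_add_distrib]
    refine Finset.sum_congr rfl fun τ _ => ?_
    rw [← Finset.sum_add_distrib]
    refine Finset.sum_congr rfl fun i hi => ?_
    rw [Finset.mem_range] at hi
    rw [rotS_zero S (by omega : i ≤ S.lf) τ, add_zero]
  rw [h2] at h1
  clear h2
  -- openings: even steps only
  have h3 : ∑ τ ∈ range (2 * S.T - 1), ∑ i ∈ range (S.lf + 1), opn i τ
      = opn 0 0 + ∑ i ∈ Finset.Ioc 0 S.lf, opn i 0
        + ∑ t ∈ range (S.T - 1), ∑ i ∈ range (S.lf + 1), opn i (2 * (t + 1)) := by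
    rw [sum_double _ hT]
    have e1 : ∑ t ∈ range (S.T - 1), ∑ i ∈ range (S.lf + 1), opn i (2 * t + 1) = 0 := by
      refine Finset.sum_eq_zero fun t _ => Finset.sum_eq_zero fun i hi => ?_
      rw [Finset.mem_range] at hi
      exact opn_odd S (by omega) _
    have e2 : ∑ t ∈ range S.T, ∑ i ∈ range (S.lf + 1), opn i (2 * t)
        = ∑ i ∈ range (S.lf + 1), opn i 0
          + ∑ t ∈ range (S.T - 1), ∑ i ∈ range (S.lf + 1), opn i (2 * (t + 1)) := by
      have e3 : S.T = S.T - 1 + 1 := by omega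
      conv_lhs => rw [e3]
      rw [Finset.sum_range_succ', add_comm]
    have e4 : ∑ i ∈ range (S.lf + 1), opn i 0 = opn 0 0 + ∑ i ∈ Finset.Ioc 0 S.lf, opn i 0 := by
      rw [Finset.sum_range_succ', add_comm]
      congr 1
      have e5 : Finset.Ioc 0 S.lf = Finset.Ico 1 (S.lf + 1) := by
        ext i; rw [Finset.mem_Ioc, Finset.mem_Ico]; omega
      rw [e5, Finset.sum_Ico_eq_sum_range, Nat.add_sub_cancel]
      exact Finset.sum_congr rfl fun i _ => by rw [add_comm]
    rw [e1, e2, e4, add_zero]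
  -- the steps
  have h4 := sum_double (fun τ => mean (fun y => Omp (om2 S) (S.lf + 1) τ y * P S (gs S τ) y)) hT
  have h5 := sum_double (fun τ => mean (fun y => Omp (om2 S) (S.lf + 1) τ y * P S (hs S τ) y)) hT
  simp only [gs_even, gs_odd] at h4
  simp only [hs_even, hs_odd] at h5
  have h6 : ∑ t ∈ range S.T, mean (fun y => Omp (om2 S) (S.lf + 1) (2 * t) y * P S (S.el.n t) y)
      + ∑ t ∈ range S.T, (S.loss (S.el.n t)).toReal
      = ∑ t ∈ range S.T, mean (fun y => Omp (om2 S) (S.lf + 1) (2 * t) y * P S (S.el.n t + 1) y)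
        + ∑ t ∈ range S.T, (S.gain (S.el.n t)).toReal := by
    rw [← Finset.sum_add_distrib, ← Finset.sum_add_distrib]
    exact Finset.sum_congr rfl fun t _ => star_part S t
  have h7 : ∑ t ∈ range (S.T - 1), mean (fun y => Omp (om2 S) (S.lf + 1) (2 * t + 1) y
        * P S (S.el.n (t + 1) - 1) y)
      - ∑ t ∈ range (S.T - 1), mean (fun y => Omp (om2 S) (S.lf + 1) (2 * t + 1) y
        * P S (S.el.n t + 1) y)
      ≤ ∑ t ∈ range (S.T - 1), ∑ m ∈ Finset.Ico (S.el.n t + 1) (S.el.n (t + 1) - 1), rB S t m := by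
    rw [← Finset.sum_sub_distrib]
    exact Finset.sum_le_sum fun t _ => rot_part S t
  rw [h4, h5, h3] at h1
  have hreal : mean (P S S.mT) + ∑ t ∈ range S.T, (S.gain (S.el.n t)).toReal
      ≤ (mean (P S 0) + opn 0 0) + ∑ t ∈ range S.T, (S.loss (S.el.n t)).toReal
        + ∑ i ∈ Finset.Ioc 0 S.lf, opn i 0
        + ∑ t ∈ range (S.T - 1),
          (∑ m ∈ Finset.Ico (S.el.n t + 1) (S.el.n (t + 1) - 1), rB S t m
            + ∑ i ∈ range (S.lf + 1), opn i (2 * (t + 1)))
        + ∑ i ∈ range (S.lf + 1), ∑ τ ∈ range (2 * S.T - 1), cls i τ := by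
    rw [Finset.sum_add_distrib]
    linarith
  clear h1 h3 h4 h5 h6 h7
  -- back to `ENNReal`
  have hgain : ∀ m, S.gain m ≠ ∞ := fun m =>
    lintegral_ne_top_of_le_one fun y => mul_le_one'' (iw_le _ y) (iw_le _ y)
  have hlhs : S.De 0 S.mT 0 + ∑ m ∈ (Finset.range S.T).image S.el.n, S.gain m
      = ENNReal.ofReal (mean (P S S.mT) + ∑ t ∈ range S.T, (S.gain (S.el.n t)).toReal) := by
    rw [ENNReal.ofReal_add (mean_nonneg _) (Finset.sum_nonneg fun _ _ => ENNReal.toReal_nonneg),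
      ENNReal.ofReal_sum_of_nonneg fun _ _ => ENNReal.toReal_nonneg, ofReal_mean (P_le S _),
      De_eq S hd0, hbot, fib_bot, Finset.sum_image fun a _ b _ hab => (n_mono S).injective hab]
    congr 1
    exact Finset.sum_congr rfl fun t _ => (ENNReal.ofReal_toReal (hgain _)).symm
  unfold Sys.TEL
  rw [hlhs]
  refine (ENNReal.ofReal_le_ofReal hreal).trans ?_
  refine ENNReal.ofReal_add_le.trans (add_le_add ?_ ?_)
  · refine ENNReal.ofReal_add_le.trans (add_le_add ?_ ?_)
    · refine ENNReal.ofReal_add_le.trans (add_le_add ?_ ?_)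
      · refine ENNReal.ofReal_add_le.trans (add_le_add ?_ ?_)
        · exact opn_root S
        · rw [ENNReal.ofReal_sum_of_nonneg fun _ _ => ENNReal.toReal_nonneg,
            Finset.sum_image fun a _ b _ hab => (n_mono S).injective hab]
          exact Finset.sum_le_sum fun t _ => ENNReal.ofReal_toReal_le
      · rw [ENNReal.ofReal_sum_of_nonneg fun i _ => hopn0 i 0]
        refine Finset.sum_le_sum fun i hi => ?_
        rw [Finset.mem_Ioc] at hi
        exact opn_le S (by omega) hi.2 (gs_zero S)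
    · -- the moves
      have hmT : S.el.n (S.T - 1) ≤ S.mT := by rw [mT_eq]; omega
      have hsub : ∑ t ∈ range (S.T - 1), ∑ m ∈ Finset.Ico (S.el.n t) (S.el.n (t + 1)), S.Vp m
          ≤ ∑ m ∈ range S.mT, S.Vp m := by
        rw [sum_moves]
        exact Finset.sum_le_sum_of_subset (Finset.range_mono hmT)
      refine le_trans ?_ hsub
      rw [ENNReal.ofReal_sum_of_nonneg fun t _ => add_nonneg
        (Finset.sum_nonneg fun m _ => rB_nonneg S t m) (Finset.sum_nonneg fun i _ => hopn0 i _)]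
      refine Finset.sum_le_sum fun t ht => ?_
      rw [Finset.mem_range] at ht
      have hn := S.el.n_succ t
      have h8 : ∑ m ∈ Finset.Ico (S.el.n t + 1) (S.el.n (t + 1) - 1), S.Vp m
          + S.Vp (S.el.n (t + 1) - 1)
          ≤ ∑ m ∈ Finset.Ico (S.el.n t) (S.el.n (t + 1)), S.Vp m := by
        rw [← Finset.sum_Ico_succ_top (by omega)]
        refine Finset.sum_le_sum_of_subset ?_
        intro m hm
        rw [Finset.mem_Ico] at hm ⊢
        omega
      refine le_trans ?_ h8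
      refine ENNReal.ofReal_add_le.trans (add_le_add ?_ ?_)
      · rw [ENNReal.ofReal_sum_of_nonneg fun m _ => rB_nonneg S t m]
        refine Finset.sum_le_sum fun m hm => ?_
        rw [Finset.mem_Ico] at hm
        exact rB_le S hM (by omega) (by omega)
      · rw [ENNReal.ofReal_sum_of_nonneg fun i _ => hopn0 i _]
        exact sum_opn_le S (by omega)
  · rw [ENNReal.ofReal_sum_of_nonneg fun i _ => Finset.sum_nonneg fun τ _ => hcls0 i τ, lf_succ]
    refine Finset.sum_le_sum fun i hi => ?_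
    rw [Finset.mem_range] at hi
    rw [ENNReal.ofReal_sum_of_nonneg fun τ _ => hcls0 i τ]
    exact sum_cls_le S (by have := lf_succ S; omega)

end Vale.Agent.P262.H395.Tel
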