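import Mathlib
import Vale.Agent.P262.H962.PCap3
import Vale.Agent.P262.H118.Bod2

/-!
# P262, milestone 2, block CONS, part 1: integration of single time inequalities over the outer
labels and the sum over the child lives of a window
-/

set_option linter.all false

open MeasureTheory ProbabilityTheory Set
open scoped ENNReal NNReal RealInnerProductSpace

namespace Vale.Agent.P262.H395.CW

open Vale.Agent.P262.H395 Vale.Agent.P262.H606 Vale.Agent.P262.H962

variable {E : Type*} [NormedAddCommGroup E] [InnerProductSpace ℝ E] [FiniteDimensional ℝ E]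
  [MeasurableSpace E] [BorelSpace E]

/-- integration of a fibrewise inequality against an outer factor -/
theorem int_fib_le {W : Submodule ℝ E} {G f g : E → ℝ≥0∞} (hG : Inv W G) (hGm : Measurable G)
    (hf : Measurable f) (hg : Measurable g) {c : ℝ≥0∞}
    (h : ∀ x, G x ≠ 0 → fib W f x ≤ c * fib W g x) :
    ∫⁻ x, G x * f x ∂(stdGaussian E) ≤ c * ∫⁻ x, G x * g x ∂(stdGaussian E) := by
  have e : ∀ {u : E → ℝ≥0∞}, Measurable u →
      ∫⁻ x, G x * u x ∂(stdGaussian E) = ∫⁻ x, G x * fib W u x ∂(stdGaussian E) := by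
    intro u hu
    rw [← lintegral_fib (W := W) (f := fun x => G x * u x) (hGm.mul hu)]
    refine lintegral_congr fun x => ?_
    exact fib_mul hG hu x
  have hm : Measurable fun x => G x * fib W g x := hGm.mul (measurable_fib hg)
  rw [e hf, e hg, ← lintegral_const_mul _ hm]
  refine lintegral_mono fun x => ?_
  by_cases hx : G x = 0
  · simp [hx]
  · calc G x * fib W f x ≤ G x * (c * fib W g x) := mul_le_mul' le_rfl (h x hx)
      _ = c * (G x * fib W g x) := by ring

/-- the same, when the right hand side is a function of the labels of `W` -/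
theorem int_fib_le' {W : Submodule ℝ E} {G f g : E → ℝ≥0∞} (hG : Inv W G) (hGm : Measurable G)
    (hf : Measurable f) (hg : Measurable g) {c : ℝ≥0∞}
    (h : ∀ x, G x ≠ 0 → fib W f x ≤ c * g x) :
    ∫⁻ x, G x * f x ∂(stdGaussian E) ≤ c * ∫⁻ x, G x * g x ∂(stdGaussian E) := by
  have hm : Measurable fun x => G x * g x := hGm.mul hg
  rw [← lintegral_fib (W := W) (f := fun x => G x * f x) (hGm.mul hf),
    ← lintegral_const_mul _ hm]
  refine lintegral_mono fun x => ?_
  rw [fib_mul hG hf x]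
  by_cases hx : G x = 0
  · simp [hx]
  · calc G x * fib W f x ≤ G x * (c * g x) := mul_le_mul' le_rfl (h x hx)
      _ = c * (G x * g x) := by ring

section holder

variable {l l' : List (Submodule ℝ E)} {W W' : Submodule ℝ E} {q : ℝ} {A0 kap s : ℝ}

/-- the constant of the conservation inequality at labels of class at least one -/
noncomputable def cH (ε th kap : ℝ) (k : ℕ) : ℝ := ((1 - ε)⁻¹ * kap ^ k) ^ th

/-- **conservation, class at least one** (labelwise Hoelder, integrated over the outer labels):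
`G` = any function of the labels of `W` -/
theorem consH {ε : ℝ} (hε : 2 * (Real.sqrt 2 * Real.exp (-(q / 4))) ≤ ε) (hε1 : ε < 1)
    (h1 : ∀ V ∈ l, V ≤ W) (hW : W ∈ l ∨ W = ⊥) (hp : l'.Pairwise (· < ·)) (h2 : ∀ V ∈ l', W < V)
    (hWW : W ≤ W') (hA : 0 < A0) (hk : 0 < kap) (hq : 0 ≤ q) {th : ℝ} (h0 : 0 < th) (hth : th < 1)
    {g G psi : E → ℝ≥0∞} (hg : Measurable g) (hG : Inv W G) (hGm : Measurable G)
    (hpsi : Measurable psi) (hgp : ∀ x, G x ≠ 0 → fib W g x ^ (1 - th) ≤ psi x) :
    ∫⁻ x, G x * (capS A0 kap q th (l ++ l') W' x * g x ^ (1 - th)) ∂(stdGaussian E) ≤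
      ENNReal.ofReal (cH ε th kap (Module.finrank ℝ W' - Module.finrank ℝ W)) *
        ∫⁻ x, G x * (capS A0 kap q th l W x * psi x) ∂(stdGaussian E) := by
  refine int_fib_le' (g := fun x => capS A0 kap q th l W x * psi x) hG hGm
    (measurable_capS.mul (hg.pow_const _)) (measurable_capS.mul hpsi) ?_
  intro x hx
  refine (fib_cap_holder hε hε1 h1 hW hp h2 hWW hA hk hq h0 hth hg x).trans ?_
  have hpos : 0 ≤ (1 - ε)⁻¹ * kap ^ (Module.finrank ℝ W' - Module.finrank ℝ W) := by
    have : 0 < 1 - ε := by linarith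
    positivity
  rw [ENNReal.mul_rpow_of_nonneg _ _ h0.le, capS_rpow hA hk h0.le,
    ENNReal.ofReal_rpow_of_nonneg hpos h0.le, mul_assoc]
  unfold cH
  refine mul_le_mul' le_rfl (mul_le_mul' le_rfl (hgp x hx))

end holder

/-! ### the child lives of a window -/

section lives

open Vale.Agent.P262.H118 Vale.Agent.P262.H274 Module

variable {v : ℕ → E} {T : ℕ} {N : ℕ → ℝ} {δ ρ : ℝ} (K : K2 v T N δ ρ)

omit [MeasurableSpace E] [BorelSpace E] in
/-- **sum over the child lives of a window**: the powers `kap^(k th)` are paid by the price -/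
theorem life_sum (hv : ∀ t, t < T → ‖v t‖ = δ) (hδ : 0 < δ) (hρ : 0 < ρ) {kap th : ℝ}
    (hk : 0 < kap) (hkρ : kap ^ th ≤ ρ) {p : List ℕ} {c s e : ℕ}
    (h2 : 2 ≤ finrank ℝ (K.W p s)ᗮ) (h : Iv (K.B p c) T s e) :
    ∑ a ∈ Finset.Ico s e, (K.nw (c :: p)).indicator
      (fun a => (kap ^ (finrank ℝ (K.W (c :: p) a) - finrank ℝ (K.W p a))) ^ th) a
      ≤ kap ^ th / ρ * Cost (K.Sw p s (N c)) ρ s e := by
  have hx0 : 0 ≤ kap ^ th := Real.rpow_nonneg hk.le _
  refine le_trans ?_ (mul_le_mul_of_nonneg_left (K.price h2 h) (div_nonneg hx0 hρ.le))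
  rw [Finset.mul_sum]
  refine Finset.sum_le_sum fun a ha => ?_
  rw [Finset.mem_Ico] at ha
  by_cases hn : a ∈ K.nw (c :: p)
  · rw [indicator_of_mem hn, indicator_of_mem hn]
    have haT : a < T := lt_of_lt_of_le ha.2 h.2.2.1
    have hWa : K.W p a = K.W p s := K.W_const (K.nw_sub_B p c) h ha.1 ha.2
    obtain ⟨j, hj⟩ : ∃ j, finrank ℝ (K.W (c :: p) a) - finrank ℝ (K.W p a) = j + 1 := by
      have := (K.dim_child (c := c) haT (p := p) (by rw [hWa]; exact h2)).1
      exact ⟨finrank ℝ (K.W (c :: p) a) - finrank ℝ (K.W p a) - 1, by omega⟩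
    rw [hj]
    have e1 : (kap ^ (j + 1)) ^ th = (kap ^ th) ^ (j + 1) := by
      rw [← Real.rpow_natCast, ← Real.rpow_mul hk.le, mul_comm, Real.rpow_mul hk.le,
        Real.rpow_natCast]
    rw [e1, pow_succ, pow_succ]
    have h3 : (kap ^ th) ^ j ≤ ρ ^ j := pow_le_pow_left₀ hx0 hkρ j
    have e2 : kap ^ th / ρ * (ρ ^ j * ρ) = ρ ^ j * kap ^ th := by
      field_simp
    rw [e2]
    exact mul_le_mul_of_nonneg_right h3 hx0
  · rw [indicator_of_notMem hn, indicator_of_notMem hn, mul_zero]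

end lives

end Vale.Agent.P262.H395.CW
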