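import Mathlib
import Vale.Agent.P262.H962.PCap3

/-!
# P262, milestone 2, block CONS, part 2: the set of points which are not killed along a flag, and the
mass of the killed points below a label which is not killed
-/

set_option linter.all false

open MeasureTheory ProbabilityTheory Set
open scoped ENNReal NNReal RealInnerProductSpace

namespace Vale.Agent.P262.H395.CW

open Vale.Agent.P262.H395 Vale.Agent.P262.H606 Vale.Agent.P262.H962

variable {E : Type*} [NormedAddCommGroup E] [InnerProductSpace ℝ E] [FiniteDimensional ℝ E]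
  [MeasurableSpace E] [BorelSpace E]

/-- points not killed at the levels of `l'`, the prefix being `l` -/
def unk (A0 kap q : ℝ) (b0 : ℝ≥0∞) : List (Submodule ℝ E) → List (Submodule ℝ E) → Set E
  | _, [] => univ
  | l, V :: l' => {x | capS A0 kap q 1 (l ++ [V]) V x ≤ b0} ∩ unk A0 kap q b0 (l ++ [V]) l'

variable {A0 kap q : ℝ} {b0 : ℝ≥0∞}

@[simp] lemma unk_nil (l : List (Submodule ℝ E)) : unk A0 kap q b0 l [] = univ := rfl

lemma unk_cons (l l' : List (Submodule ℝ E)) (V : Submodule ℝ E) :
    unk A0 kap q b0 l (V :: l') =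
      {x | capS A0 kap q 1 (l ++ [V]) V x ≤ b0} ∩ unk A0 kap q b0 (l ++ [V]) l' := rfl

lemma unk_append (l' l'' : List (Submodule ℝ E)) : ∀ l : List (Submodule ℝ E),
    unk A0 kap q b0 l (l' ++ l'') =
      unk A0 kap q b0 l l' ∩ unk A0 kap q b0 (l ++ l') l'' := by
  induction l' with
  | nil => intro l; simp
  | cons V l' ih =>
    intro l
    rw [List.cons_append, unk_cons, unk_cons, ih, inter_assoc]
    simp [List.append_assoc]

lemma isClosed_unk (l' : List (Submodule ℝ E)) : ∀ l : List (Submodule ℝ E),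
    IsClosed (unk A0 kap q b0 l l') := by
  induction l' with
  | nil => intro l; exact isClosed_univ
  | cons V l' ih => intro l; exact (isClosed_capS_le b0).inter (ih _)

lemma convex_unk (hq : 0 ≤ q) (hA : 0 < A0) (hk : 0 < kap) (l' : List (Submodule ℝ E)) :
    ∀ l : List (Submodule ℝ E), Convex ℝ (unk A0 kap q b0 l l') := by
  induction l' with
  | nil => intro l; exact convex_univ
  | cons V l' ih => intro l; exact (convex_capS_le hq one_pos hA hk b0).inter (ih _)

lemma measurableSet_unk (l l' : List (Submodule ℝ E)) :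
    MeasurableSet (unk A0 kap q b0 l l') := (isClosed_unk l' l).measurableSet

/-- the set of points which are not killed is a set of labels of the last space -/
lemma inv_unk {V : Submodule ℝ E} (l' : List (Submodule ℝ E)) : ∀ l : List (Submodule ℝ E),
    (∀ U ∈ l, U ≤ V) → l'.Pairwise (· < ·) → (∀ U ∈ l', U ≤ V) →
    (∀ U ∈ l, ∀ U' ∈ l', U ≤ U') → ∀ x, ∀ w ∈ Vᗮ,
    (x + w ∈ unk A0 kap q b0 l l' ↔ x ∈ unk A0 kap q b0 l l') := by
  induction l' with
  | nil => intro l _ _ _ _ x w _; simp
  | cons U l' ih =>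
    intro l h1 h2 h3 h4 x w hw
    rw [List.pairwise_cons] at h2
    have hU := h3 U List.mem_cons_self
    have e1 : ∀ V' ∈ l ++ [U], V' ≤ U := by
      intro V' hV'
      rw [List.mem_append, List.mem_singleton] at hV'
      rcases hV' with h | rfl
      · exact h4 V' h U List.mem_cons_self
      · exact le_rfl
    have e2 := inv_capS (A0 := A0) (kap := kap) (q := q) (s := 1) e1 x w
      (Submodule.orthogonal_le hU hw)
    have e3 := ih (l ++ [U]) (fun V' hV' => (e1 V' hV').trans hU) h2.2
      (fun V' hV' => h3 V' (List.mem_cons_of_mem _ hV')) (fun V' hV' U' hU' =>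
        (e1 V' hV').trans (h2.1 U' hU').le) x w hw
    rw [unk_cons, mem_inter_iff, mem_inter_iff, e3, mem_setOf_eq, mem_setOf_eq, e2]

/-- sum of powers of `kap` over a strictly increasing list -/
lemma sum_kap {W : Submodule ℝ E} (hk : 0 ≤ kap) (hk2 : kap ≤ 1 / 2)
    (l' : List (Submodule ℝ E)) : ∀ n : ℕ, l'.Pairwise (· < ·) →
    (∀ V ∈ l', Module.finrank ℝ W + n ≤ Module.finrank ℝ V) →
    (l'.map fun V : Submodule ℝ E => kap ^ (Module.finrank ℝ V - Module.finrank ℝ W)).sum ≤ 2 * kap ^ n := by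
  induction l' with
  | nil => intro n _ _; simp; positivity
  | cons V l' ih =>
    intro n h1 h2
    rw [List.pairwise_cons] at h1
    have hV := h2 V List.mem_cons_self
    have h3 := ih (n + 1) h1.2 (fun U hU => by
      have := Submodule.finrank_lt_finrank_of_lt (h1.1 U hU)
      omega)
    rw [List.map_cons, List.sum_cons]
    have h4 : kap ^ (Module.finrank ℝ V - Module.finrank ℝ W) ≤ kap ^ n :=
      pow_le_pow_of_le_one hk (by linarith) (by omega)
    have h5 : 2 * kap ^ (n + 1) ≤ kap ^ n := by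
      rw [pow_succ]
      have : 0 ≤ kap ^ n := pow_nonneg hk n
      nlinarith
    linarith

/-- the mass of the points killed below a label, level by level -/
lemma fib_unk_aux {ε : ℝ} (hε : 2 * (Real.sqrt 2 * Real.exp (-(q / 4))) ≤ ε) (hε1 : ε < 1)
    {l : List (Submodule ℝ E)} {W : Submodule ℝ E} (h1 : ∀ V ∈ l, V ≤ W) (hW : W ∈ l ∨ W = ⊥)
    (hA : 0 < A0) (hk : 0 < kap) (hq : 0 ≤ q) (hb : b0 ≠ 0) (hb' : b0 ≠ ⊤) {x : E}
    (hx : capS A0 kap q 1 l W x ≤ b0) (l' : List (Submodule ℝ E)) :
    ∀ m : List (Submodule ℝ E), (m ++ l').Pairwise (· < ·) → (∀ V ∈ m ++ l', W < V) →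
    fib W ((unk A0 kap q b0 (l ++ m) l')ᶜ.indicator 1) x ≤
      ENNReal.ofReal ((1 - ε)⁻¹ *
        (l'.map fun V : Submodule ℝ E => kap ^ (Module.finrank ℝ V - Module.finrank ℝ W)).sum) := by
  induction l' with
  | nil =>
    intro m _ _
    have : ((univ : Set E)ᶜ).indicator (1 : E → ℝ≥0∞) = fun _ => 0 := by
      funext y; simp
    rw [unk_nil, this, fib_const]
    exact bot_le
  | cons V l' ih =>
    intro m hm hmW
    have hε0 : 0 < 1 - ε := by linarith
    have e1 : m ++ V :: l' = (m ++ [V]) ++ l' := by simp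
    have i2 := ih (m ++ [V]) (by rw [← e1]; exact hm) (by rw [← e1]; exact hmW)
    rw [← List.append_assoc] at i2
    have hm' : (m ++ [V]).Pairwise (· < ·) := by
      rw [e1] at hm
      exact (List.pairwise_append.mp hm).1
    have hmW' : ∀ U ∈ m ++ [V], W < U := fun U hU => hmW U (by
      rw [e1]; exact List.mem_append_left _ hU)
    have hWV : W < V := hmW V (by simp)
    have i1 := fib_killed_le hε hε1 h1 hW hm' hmW' hWV.le hA hk hq hb hb' x
    have i1' : fib W ({y | b0 < capS A0 kap q 1 (l ++ (m ++ [V])) V y}.indicator 1) x ≤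
        ENNReal.ofReal ((1 - ε)⁻¹ * kap ^ (Module.finrank ℝ V - Module.finrank ℝ W)) := by
      refine i1.trans ?_
      rw [mul_div_assoc]
      calc _ ≤ ENNReal.ofReal ((1 - ε)⁻¹ *
            kap ^ (Module.finrank ℝ V - Module.finrank ℝ W)) * 1 := by
            gcongr
            exact ENNReal.div_le_of_le_mul (by rwa [one_mul])
        _ = _ := mul_one _
    have hms : MeasurableSet {y : E | b0 < capS A0 kap q 1 (l ++ (m ++ [V])) V y} :=
      measurableSet_lt measurable_const measurable_capS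
    have hpt : ∀ y, (unk A0 kap q b0 (l ++ m) (V :: l'))ᶜ.indicator (1 : E → ℝ≥0∞) y ≤
        {y | b0 < capS A0 kap q 1 (l ++ (m ++ [V])) V y}.indicator 1 y +
          (unk A0 kap q b0 (l ++ m ++ [V]) l')ᶜ.indicator 1 y := by
      intro y
      by_cases hy : y ∈ (unk A0 kap q b0 (l ++ m) (V :: l'))ᶜ
      · rw [indicator_of_mem hy]
        rw [unk_cons, mem_compl_iff, mem_inter_iff, not_and_or] at hy
        rcases hy with h | h
        · rw [mem_setOf_eq, not_le, List.append_assoc] at h
          rw [indicator_of_mem (show y ∈ {y | b0 < capS A0 kap q 1 (l ++ (m ++ [V])) V y} from h)]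
          exact le_self_add
        · rw [indicator_of_mem (show y ∈ (unk A0 kap q b0 (l ++ m ++ [V]) l')ᶜ from h)]
          exact le_add_self
      · rw [indicator_of_notMem hy]
        exact bot_le
    refine (fib_mono hpt x).trans ?_
    rw [fib_add (measurable_one.indicator hms), List.map_cons, List.sum_cons, mul_add,
      ENNReal.ofReal_add (by positivity)
        (mul_nonneg (inv_nonneg.mpr hε0.le) (List.sum_nonneg fun y hy => by
          rw [List.mem_map] at hy
          obtain ⟨U, _, rfl⟩ := hy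
          positivity))]
    exact add_le_add i1' i2

/-- **killed points below a label which is not killed** -/
theorem fib_unk {ε : ℝ} (hε : 2 * (Real.sqrt 2 * Real.exp (-(q / 4))) ≤ ε) (hε1 : ε < 1)
    {l l' : List (Submodule ℝ E)} {W : Submodule ℝ E} (h1 : ∀ V ∈ l, V ≤ W) (hW : W ∈ l ∨ W = ⊥)
    (hp : l'.Pairwise (· < ·)) (h2 : ∀ V ∈ l', W < V)
    (hA : 0 < A0) (hk : 0 < kap) (hk2 : kap ≤ 1 / 2) (hq : 0 ≤ q) (hb : b0 ≠ 0) (hb' : b0 ≠ ⊤)
    {x : E} (hx : capS A0 kap q 1 l W x ≤ b0) :
    fib W ((unk A0 kap q b0 l l')ᶜ.indicator 1) x ≤ ENNReal.ofReal ((1 - ε)⁻¹ * (2 * kap)) := by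
  have hε0 : 0 < 1 - ε := by linarith
  have h := fib_unk_aux hε hε1 h1 hW hA hk hq hb hb' hx l' [] (by simpa using hp) (by simpa using h2)
  rw [List.append_nil] at h
  refine h.trans (ENNReal.ofReal_le_ofReal ?_)
  refine mul_le_mul_of_nonneg_left ?_ (inv_nonneg.mpr hε0.le)
  have := sum_kap (W := W) hk.le hk2 l' 1 hp (fun V hV => by
    have := Submodule.finrank_lt_finrank_of_lt (h2 V hV)
    omega)
  rwa [pow_one] at this

/-- **health, kills included**: if the body has deficit at most `a` at a label which is not killed,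
then the body minus the killed points below has mass at least `1 - a - (1-ε)⁻¹ 2 kap` -/
theorem health_unk {ε : ℝ} (hε : 2 * (Real.sqrt 2 * Real.exp (-(q / 4))) ≤ ε) (hε1 : ε < 1)
    {l l' : List (Submodule ℝ E)} {W : Submodule ℝ E} (h1 : ∀ V ∈ l, V ≤ W) (hW : W ∈ l ∨ W = ⊥)
    (hp : l'.Pairwise (· < ·)) (h2 : ∀ V ∈ l', W < V)
    (hA : 0 < A0) (hk : 0 < kap) (hk2 : kap ≤ 1 / 2) (hq : 0 ≤ q) (hb : b0 ≠ 0) (hb' : b0 ≠ ⊤)
    {x : E} (hx : capS A0 kap q 1 l W x ≤ b0) {K : Set E} (hK : MeasurableSet K) {a m : ℝ}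
    (ha : 0 ≤ a) (ham : m + a + (1 - ε)⁻¹ * (2 * kap) ≤ 1)
    (hD : fib W (Kᶜ.indicator 1) x ≤ ENNReal.ofReal a) :
    ENNReal.ofReal m ≤ fib W ((unk A0 kap q b0 l l' ∩ K).indicator 1) x := by
  have hε0 : 0 < 1 - ε := by linarith
  have h3 := fib_unk hε hε1 h1 hW hp h2 hA hk hk2 hq hb hb' hx
  have hU := measurableSet_unk (A0 := A0) (kap := kap) (q := q) (b0 := b0) l l'
  have h4 : (1 : ℝ≥0∞) ≤ fib W ((unk A0 kap q b0 l l' ∩ K).indicator 1) x +
      (ENNReal.ofReal a + ENNReal.ofReal ((1 - ε)⁻¹ * (2 * kap))) := by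
    calc (1 : ℝ≥0∞) = fib W (fun _ => 1) x := (fib_const W 1 x).symm
      _ ≤ fib W (fun y => (unk A0 kap q b0 l l' ∩ K).indicator 1 y +
            (Kᶜ.indicator 1 y + (unk A0 kap q b0 l l')ᶜ.indicator 1 y)) x := by
          refine fib_mono (fun y => ?_) x
          by_cases h5 : y ∈ K
          · by_cases h6 : y ∈ unk A0 kap q b0 l l'
            · rw [indicator_of_mem (show y ∈ unk A0 kap q b0 l l' ∩ K from ⟨h6, h5⟩)]
              exact le_self_add
            · rw [indicator_of_mem (show y ∈ (unk A0 kap q b0 l l')ᶜ from h6)]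
              exact le_add_left le_add_self
          · rw [indicator_of_mem (show y ∈ Kᶜ from h5)]
            exact le_add_left le_self_add
      _ = fib W ((unk A0 kap q b0 l l' ∩ K).indicator 1) x + (fib W (Kᶜ.indicator 1) x +
            fib W ((unk A0 kap q b0 l l')ᶜ.indicator 1) x) := by
          rw [fib_add (measurable_one.indicator (hU.inter hK)),
            fib_add (measurable_one.indicator hK.compl)]
      _ ≤ _ := by gcongr
  have h5 : fib W ((unk A0 kap q b0 l l' ∩ K).indicator 1) x ≠ ⊤ :=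
    ne_top_of_le_ne_top ENNReal.one_ne_top
      (fib_le_one (fun z => indicator_le_self' (fun _ _ => bot_le) z) x)
  rw [← ENNReal.ofReal_toReal h5, ← ENNReal.ofReal_add ha (by positivity),
    ← ENNReal.ofReal_add ENNReal.toReal_nonneg (by positivity), ← ENNReal.ofReal_one,
    ENNReal.ofReal_le_ofReal_iff (by positivity)] at h4
  rw [← ENNReal.ofReal_toReal h5]
  refine ENNReal.ofReal_le_ofReal ?_
  linarith

end Vale.Agent.P262.H395.CW
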