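import Mathlib
import Vale.Agent.P262.H395.CW1
import Vale.Agent.P262.H395.CW2
import Vale.Agent.P262.H493.Cons

/-!
# P262, milestone 2, block CONS, part 3: conservation of the unit from a label to its children on
class paths, at a fixed time, integrated over all labels

A path is the reversed list of classes; `W p` is its label space; `cls p x` the class of the label of
`p` (read at the same point `x` for all the ancestors), `om p` the counted labels.
-/

set_option linter.all false

open MeasureTheory ProbabilityTheory Set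
open scoped ENNReal NNReal RealInnerProductSpace

namespace Vale.Agent.P262.H395.CW

open Vale.Agent.P262.H395 Vale.Agent.P262.H606 Vale.Agent.P262.H962
open Vale.Agent.P262.H44 (InvS)
open Vale.Agent.P262.H439 (qq measurable_qq qq_le_one inv_qq)
open Vale.Agent.P262.Cons493

variable {E : Type*} [NormedAddCommGroup E] [InnerProductSpace ℝ E] [FiniteDimensional ℝ E]
  [MeasurableSpace E] [BorelSpace E]

/-! ### lists of label spaces of a path -/

/-- label spaces along a path, root excluded -/
def pl (W : List ℕ → Submodule ℝ E) : List ℕ → List (Submodule ℝ E)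
  | [] => []
  | c :: p => pl W p ++ [W (c :: p)]

/-- label spaces between `a` and `s ++ a` -/
def chf (W : List ℕ → Submodule ℝ E) (a : List ℕ) : List ℕ → List (Submodule ℝ E)
  | [] => []
  | c :: s => chf W a s ++ [W (c :: (s ++ a))]

/-- the same with sets -/
def chn (W : List ℕ → Submodule ℝ E) (D : List ℕ → Set E) (a : List ℕ) :
    List ℕ → List (Submodule ℝ E × Set E)
  | [] => []
  | c :: s => chn W D a s ++ [(W (c :: (s ++ a)), D (c :: (s ++ a)))]

section lists

variable {W : List ℕ → Submodule ℝ E} {D : List ℕ → Set E} {a p : List ℕ}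

omit [FiniteDimensional ℝ E] [MeasurableSpace E] [BorelSpace E]

lemma pl_append (s : List ℕ) : pl W (s ++ a) = pl W a ++ chf W a s := by
  induction s with
  | nil => simp [chf]
  | cons c s ih => rw [List.cons_append, pl, ih, chf, List.append_assoc]

lemma map_chn (s : List ℕ) : (chn W D a s).map Prod.fst = chf W a s := by
  induction s with
  | nil => rfl
  | cons c s ih => rw [chn, chf, List.map_append, ih]; rfl

/-- `W` is strictly increasing along the path `p` -/
def SI (W : List ℕ → Submodule ℝ E) (p : List ℕ) : Prop := ∀ c r, (c :: r) <:+ p → W r < W (c :: r)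

lemma SI.tail {c : ℕ} (h : SI W (c :: p)) : SI W p := fun d r hr =>
  h d r (hr.trans (List.suffix_cons c p))

lemma SI.suffix {q : List ℕ} (h : SI W q) (hp : p <:+ q) : SI W p := fun d r hr =>
  h d r (hr.trans hp)

lemma SI.le {s : List ℕ} (h : SI W (s ++ a)) : W a ≤ W (s ++ a) := by
  induction s with
  | nil => exact le_rfl
  | cons c s ih =>
    exact (ih h.tail).trans (h c (s ++ a) (List.suffix_refl _)).le

lemma SI.le_of_suffix {q : List ℕ} (h : SI W q) (hp : p <:+ q) : W p ≤ W q := by
  obtain ⟨s, rfl⟩ := hp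
  exact h.le

lemma mem_chf {s : List ℕ} {V : Submodule ℝ E} (hV : V ∈ chf W a s) :
    ∃ r, a <:+ r ∧ r ≠ a ∧ r <:+ s ++ a ∧ V = W r := by
  induction s with
  | nil => simp [chf] at hV
  | cons c s ih =>
    rw [chf, List.mem_append, List.mem_singleton] at hV
    rcases hV with h | h
    · obtain ⟨r, h1, h2, h3, h4⟩ := ih h
      exact ⟨r, h1, h2, h3.trans (List.suffix_cons c (s ++ a)), h4⟩
    · refine ⟨c :: (s ++ a), ⟨c :: s, rfl⟩, ?_, List.suffix_refl _, h⟩
      intro h0
      have := congrArg List.length h0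
      simp at this
      omega

lemma mem_chn {s : List ℕ} {v : Submodule ℝ E × Set E} (hV : v ∈ chn W D a s) :
    ∃ r, a <:+ r ∧ r ≠ a ∧ r <:+ s ++ a ∧ v = (W r, D r) := by
  induction s with
  | nil => simp [chn] at hV
  | cons c s ih =>
    rw [chn, List.mem_append, List.mem_singleton] at hV
    rcases hV with h | h
    · obtain ⟨r, h1, h2, h3, h4⟩ := ih h
      exact ⟨r, h1, h2, h3.trans (List.suffix_cons c (s ++ a)), h4⟩
    · refine ⟨c :: (s ++ a), ⟨c :: s, rfl⟩, ?_, List.suffix_refl _, h⟩
      intro h0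
      have := congrArg List.length h0
      simp at this
      omega

lemma mem_chn_of {r : List ℕ} (h1 : a <:+ r) (h2 : r ≠ a) {s : List ℕ} (h3 : r <:+ s ++ a) :
    (W r, D r) ∈ chn W D a s := by
  induction s with
  | nil =>
    exfalso
    exact h2 (h3.eq_of_length (le_antisymm h3.length_le h1.length_le))
  | cons c s ih =>
    rw [chn, List.mem_append, List.mem_singleton]
    rw [List.cons_append, List.suffix_cons_iff] at h3
    rcases h3 with h | h
    · right; rw [h]
    · left; exact ih h

lemma chf_pairwise {s : List ℕ} (h : SI W (s ++ a)) : (chf W a s).Pairwise (· < ·) := by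
  induction s with
  | nil => simp [chf]
  | cons c s ih =>
    rw [chf, List.pairwise_append]
    refine ⟨ih h.tail, by simp, fun V hV U hU => ?_⟩
    rw [List.mem_singleton] at hU
    subst hU
    obtain ⟨r, h1, h2, h3, rfl⟩ := mem_chf hV
    exact lt_of_le_of_lt (h.tail.le_of_suffix h3) (h c (s ++ a) (List.suffix_refl _))

lemma chf_gt {s : List ℕ} (h : SI W (s ++ a)) : ∀ V ∈ chf W a s, W a < V := by
  induction s with
  | nil => intro V hV; simp [chf] at hV
  | cons c s ih =>
    intro V hV
    rw [chf, List.mem_append, List.mem_singleton] at hV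
    rcases hV with h1 | rfl
    · exact ih h.tail V h1
    · exact lt_of_le_of_lt h.tail.le (h c (s ++ a) (List.suffix_refl _))

lemma mem_pl {V : Submodule ℝ E} (hV : V ∈ pl W p) : ∃ r, r <:+ p ∧ r ≠ [] ∧ V = W r := by
  induction p with
  | nil => simp [pl] at hV
  | cons c p ih =>
    rw [pl, List.mem_append, List.mem_singleton] at hV
    rcases hV with h | rfl
    · obtain ⟨r, h1, h2, h3⟩ := ih h
      exact ⟨r, h1.trans (List.suffix_cons c p), h2, h3⟩
    · exact ⟨c :: p, List.suffix_refl _, List.cons_ne_nil _ _, rfl⟩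

lemma SI.pl_le (h : SI W p) : ∀ V ∈ pl W p, V ≤ W p := by
  intro V hV
  obtain ⟨r, h1, -, rfl⟩ := mem_pl hV
  exact h.le_of_suffix h1

lemma mem_pl_or (h0 : W [] = ⊥) : W p ∈ pl W p ∨ W p = ⊥ := by
  rcases p with _ | ⟨c, p⟩
  · exact Or.inr h0
  · left; rw [pl]; simp

lemma SI.pl_pairwise (h : SI W p) : (pl W p).Pairwise (· < ·) := by
  induction p with
  | nil => simp [pl]
  | cons c p ih =>
    rw [pl, List.pairwise_append]
    refine ⟨ih h.tail, by simp, fun V hV U hU => ?_⟩
    rw [List.mem_singleton] at hU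
    subst hU
    exact lt_of_le_of_lt (h.tail.pl_le V hV) (h c p (List.suffix_refl _))

lemma exists_chain (p : List ℕ) : (∀ c ∈ p, c = 0) ∨ ∃ s c a, c ≠ 0 ∧ (∀ d ∈ s, d = 0) ∧
    p = (s ++ [c]) ++ a := by
  induction p with
  | nil => left; simp
  | cons c p ih =>
    by_cases hc : c = 0
    · rcases ih with h | ⟨s, c', a, h1, h2, h3⟩
      · left
        intro d hd
        rcases List.mem_cons.mp hd with h' | h'
        · rw [h', hc]
        · exact h d h'
      · right
        refine ⟨c :: s, c', a, h1, ?_, by rw [h3]; simp⟩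
        intro d hd
        rcases List.mem_cons.mp hd with h' | h'
        · rw [h', hc]
        · exact h2 d h'
    · right
      exact ⟨[], c, p, hc, by simp, by simp⟩

end lists

/-! ### points which are not killed -/

section unk

variable {W : List ℕ → Submodule ℝ E} {A0 kap q : ℝ} {b0 : ℝ≥0∞}

/-- points which are not killed along the path `p` -/
def nk (W : List ℕ → Submodule ℝ E) (A0 kap q : ℝ) (b0 : ℝ≥0∞) (p : List ℕ) : Set E :=
  unk A0 kap q b0 [] (pl W p)

lemma nk_nil : nk W A0 kap q b0 [] = univ := rfl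

lemma nk_cons (c : ℕ) (p : List ℕ) : nk W A0 kap q b0 (c :: p) =
    nk W A0 kap q b0 p ∩ {x | capS A0 kap q 1 (pl W (c :: p)) (W (c :: p)) x ≤ b0} := by
  unfold nk
  rw [pl, unk_append, List.nil_append, unk_cons, unk_nil, inter_univ]

lemma nk_append (s a : List ℕ) : nk W A0 kap q b0 (s ++ a) =
    nk W A0 kap q b0 a ∩ unk A0 kap q b0 (pl W a) (chf W a s) := by
  unfold nk
  rw [pl_append, unk_append, List.nil_append]

lemma nk_anti {p r : List ℕ} (h : r <:+ p) : nk W A0 kap q b0 p ⊆ nk W A0 kap q b0 r := by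
  obtain ⟨s, rfl⟩ := h
  rw [nk_append]
  exact inter_subset_left

lemma capS_nil (hA : 0 ≤ A0) (s : ℝ) (h0 : W [] = ⊥) (x : E) :
    capS A0 kap q s (pl W []) (W []) x = ENNReal.ofReal (A0 ^ s) := by
  unfold capS dw
  have h1 : PB (pl W []) q = (univ : Set E) := by
    ext y
    simp [PB, pl]
  rw [h1, h0, finrank_bot, pow_zero, mul_one, Metric.infDist_zero_of_mem (mem_univ x)]
  simp

lemma cap_le_of_nk {p : List ℕ} (hA : 0 < A0) (h0 : W [] = ⊥) (hAb : ENNReal.ofReal A0 ≤ b0) {x : E}
    (hx : x ∈ nk W A0 kap q b0 p) : capS A0 kap q 1 (pl W p) (W p) x ≤ b0 := by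
  rcases p with _ | ⟨c, p⟩
  · rw [capS_nil hA.le 1 h0, Real.rpow_one]
    exact hAb
  · rw [nk_cons] at hx
    exact hx.2

lemma measurableSet_nk (p : List ℕ) : MeasurableSet (nk W A0 kap q b0 p) := measurableSet_unk _ _

lemma inv_nk {p : List ℕ} (h : SI W p) : InvS (W p) (nk W A0 kap q b0 p) := by
  intro x w hw
  exact inv_unk (pl W p) [] (by simp) h.pl_pairwise h.pl_le (by simp) x w hw

end unk

end Vale.Agent.P262.H395.CW
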