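import Mathlib
import Vale.Agent.P262.H395.CW4

/-!
# P262, milestone 2, block CONS, part 5: class at least one, the combined single time statement, and
the sum over the child lives of a window
-/

set_option linter.all false

open MeasureTheory ProbabilityTheory Set
open scoped ENNReal NNReal RealInnerProductSpace

namespace Vale.Agent.P262.H395.CW

open Vale.Agent.P262.H395 Vale.Agent.P262.H606 Vale.Agent.P262.H962
open Vale.Agent.P262.H44 (InvS)
open Vale.Agent.P262.H439 (qq measurable_qq qq_le_one inv_qq)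
open Vale.Agent.P262.Cons493

variable {E : Type*} [NormedAddCommGroup E] [InnerProductSpace ℝ E] [FiniteDimensional ℝ E]
  [MeasurableSpace E] [BorelSpace E]

variable {W : List ℕ → Submodule ℝ E} {cls : List ℕ → E → ℕ} {om : List ℕ → Set E}
  {p : List ℕ} {A0 kap q th : ℝ} {b0 : ℝ≥0∞}

/-- `A = A^th A^(1-th)` -/
lemma capS_split (hA : 0 < A0) (hk : 0 < kap) (hth : 0 ≤ th) (hth1 : th ≤ 1)
    (l : List (Submodule ℝ E)) (V : Submodule ℝ E) (x : E) :
    capS A0 kap q 1 l V x = capS A0 kap q th l V x * capS A0 kap q 1 l V x ^ (1 - th) := by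
  rw [← capS_rpow hA hk hth, ← ENNReal.rpow_add_of_nonneg _ _ hth (by linarith),
    show th + (1 - th) = 1 by ring, ENNReal.rpow_one]

/-- the weight `A^th max(A, D)^(1-th)` of an opening label is at most `A + A^th D^(1-th)` -/
lemma cap_max_le (hA : 0 < A0) (hk : 0 < kap) (hth : 0 ≤ th) (hth1 : th ≤ 1)
    (l : List (Submodule ℝ E)) (V : Submodule ℝ E) (x : E) (D : ℝ≥0∞) :
    capS A0 kap q th l V x * max (capS A0 kap q 1 l V x) D ^ (1 - th) ≤
      capS A0 kap q 1 l V x + capS A0 kap q th l V x * D ^ (1 - th) := by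
  rcases le_total (capS A0 kap q 1 l V x) D with h | h
  · rw [max_eq_right h]
    exact le_add_self
  · rw [max_eq_left h, ← capS_split hA hk hth hth1]
    exact le_self_add

/-- **CONS at class at least one, integrated over all labels.**  `K` = the body in the coordinates of
the child `c :: p` at the beginning of its life. -/
theorem cons_pos {c : ℕ} (h0 : W [] = ⊥) (hW : SI W (c :: p)) (hL : Lab W cls om p)
    (hq : 0 ≤ q) (hε : 2 * (Real.sqrt 2 * Real.exp (-(q / 4))) ≤ 1 / 2)
    (hth : 0 < th) (hth1 : th < 1) (hA : 0 < A0) (hk : 0 < kap) (hk1 : kap ≤ 1)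
    {K : Set E} (hK : MeasurableSet K) {psi : E → ℝ≥0∞} (hpsi : Measurable psi)
    (hpD : ∀ x ∈ OMc cls om p c, fib (W p) (Kᶜ.indicator 1) x ^ (1 - th) ≤ psi x)
    (hpA : ∀ x ∈ OMc cls om p c, capS A0 kap q 1 (pl W p) (W p) x ^ (1 - th) ≤ psi x) :
    ∫⁻ x, (OMc cls om p c).indicator 1 x *
        (capS A0 kap q th (pl W (c :: p)) (W (c :: p)) x *
          max (capS A0 kap q 1 (pl W (c :: p)) (W (c :: p)) x)
            (fib (W (c :: p)) (Kᶜ.indicator 1) x) ^ (1 - th)) ∂(stdGaussian E) ≤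
      ENNReal.ofReal (4 *
        (kap ^ (Module.finrank ℝ (W (c :: p)) - Module.finrank ℝ (W p))) ^ th) *
      ∫⁻ x, (OMc cls om p c).indicator 1 x * (capS A0 kap q th (pl W p) (W p) x * psi x)
        ∂(stdGaussian E) := by
  have hWp : SI W p := hW.tail
  have hlt : W p < W (c :: p) := hW c p (List.suffix_refl _)
  set k := Module.finrank ℝ (W (c :: p)) - Module.finrank ℝ (W p) with hkdef
  have hgm : Measurable (fib (W (c :: p)) (Kᶜ.indicator (1 : E → ℝ≥0∞))) :=
    measurable_fib (measurable_one.indicator hK.compl)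
  refine int_fib_le' (g := fun x => capS A0 kap q th (pl W p) (W p) x * psi x)
    (inv_ind (hL.inv_c hWp c)) (measurable_one.indicator (hL.measurable_c c))
    (measurable_capS.mul ((measurable_capS.max hgm).pow_const _)) (measurable_capS.mul hpsi) ?_
  intro x hx
  have hxO : x ∈ OMc cls om p c := by
    by_contra hcon
    exact hx (indicator_of_notMem hcon _)
  have s1 : fib (W p) (fun y => capS A0 kap q th (pl W (c :: p)) (W (c :: p)) y *
      max (capS A0 kap q 1 (pl W (c :: p)) (W (c :: p)) y)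
        (fib (W (c :: p)) (Kᶜ.indicator 1) y) ^ (1 - th)) x ≤
      fib (W p) (capS A0 kap q 1 (pl W (c :: p)) (W (c :: p))) x +
      fib (W p) (fun y => capS A0 kap q th (pl W (c :: p)) (W (c :: p)) y *
        (fib (W (c :: p)) (Kᶜ.indicator 1) y) ^ (1 - th)) x := by
    rw [← fib_add measurable_capS]
    exact fib_mono (fun y => cap_max_le hA hk hth.le hth1.le _ _ y _) x
  have hne : 2 * (Real.sqrt 2 * Real.exp (-(q / 4))) ≤ 1 / 2 := hε
  have s2 : fib (W p) (capS A0 kap q 1 (pl W (c :: p)) (W (c :: p))) x ≤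
      ENNReal.ofReal (2 * (kap ^ k) ^ th) * (capS A0 kap q th (pl W p) (W p) x * psi x) := by
    have h := fib_capS_le (s := 1) (l := pl W p) (l' := [W (c :: p)]) (A0 := A0) (kap := kap)
      (q := q) hne (by norm_num) hWp.pl_le (mem_pl_or h0) (by simp) (by simpa using hlt) hlt.le
      hA hk (by norm_num) (by norm_num) hq x
    have e1 : pl W p ++ [W (c :: p)] = pl W (c :: p) := rfl
    rw [e1, Real.rpow_one] at h
    refine h.trans ?_
    rw [capS_split hA hk hth.le hth1.le (pl W p) (W p) x]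
    have h2 : kap ^ k ≤ (kap ^ k) ^ th := by
      have h3 : 0 < kap ^ k := pow_pos hk k
      have h4 : kap ^ k ≤ 1 := pow_le_one₀ hk.le hk1
      calc kap ^ k = (kap ^ k) ^ (1 : ℝ) := (Real.rpow_one _).symm
        _ ≤ (kap ^ k) ^ th := Real.rpow_le_rpow_of_exponent_ge h3 h4 hth1.le
    gcongr
    · norm_num
    · exact hpA x hxO
  have s3 : fib (W p) (fun y => capS A0 kap q th (pl W (c :: p)) (W (c :: p)) y *
        (fib (W (c :: p)) (Kᶜ.indicator 1) y) ^ (1 - th)) x ≤
      ENNReal.ofReal (2 * (kap ^ k) ^ th) * (capS A0 kap q th (pl W p) (W p) x * psi x) := by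
    have h := Vale.Agent.P262.Cons493.consH (l := pl W p) (V := W p) (W' := W (c :: p)) (A0 := A0) (kap := kap) (q := q)
      (s := th) hne (by norm_num) hq hA hk hWp.pl_le (mem_pl_or h0) hlt hth hth1 hgm x
      (D := fib (W p) (Kᶜ.indicator 1) x)
      (le_of_eq (fib_tower hlt.le (measurable_one.indicator hK.compl) x))
    refine h.trans ?_
    have := hpD x hxO
    gcongr
  refine s1.trans ((add_le_add s2 s3).trans (le_of_eq ?_))
  rw [← add_mul, ← ENNReal.ofReal_add (by positivity) (by positivity)]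
  congr 2
  ring

/-- **CONS, single time, all classes.**  `Ks`, `Ke` = the bodies in the coordinates of the child
`c :: p` at the beginning and at the end of its life; `psi` = the unit factor of the window of the
parent. -/
theorem cons_one {c : ℕ} (h0 : W [] = ⊥) (hW : SI W (c :: p)) (hL : Lab W cls om p)
    (hq : 0 ≤ q) (hε : 2 * (Real.sqrt 2 * Real.exp (-(q / 4))) ≤ 1 / 41)
    (hth : 0 < th) (hth1 : th < 1) (hA : 0 < A0) (hk : 0 < kap) (hk1 : kap ≤ 1 / 100)
    (hAb : ENNReal.ofReal A0 ≤ b0) (hb : b0 ≠ ⊤)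
    {Ks Ke : Set E} (hKs : MeasurableSet Ks)
    (hK : IsClosed Ke) (hKc : Convex ℝ Ke) {R : ℝ} (hKR : Ke ⊆ Metric.closedBall 0 R)
    (hroot : ∀ x, cls [] x ≠ 0)
    (homk : ∀ r, r <:+ p → om r ⊆ {x | capS A0 kap q 1 (pl W r) (W r) x ≤ b0})
    (hom0 : ∀ r, r <:+ p → ∀ x, cls r x = 0 → x ∈ nk W A0 kap q b0 r → x ∈ om r)
    (hgood : ∀ r, r <:+ p → ∀ x, cls r x ≠ 0 → x ∈ nk W A0 kap q b0 r →
      fib (W r) (Keᶜ.indicator 1) x ≤ ENNReal.ofReal (1 / 8))
    {psi : E → ℝ≥0∞} (hpsi : Measurable psi)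
    (hp0 : c = 0 → ∀ x ∈ OMc cls om p c,
      ENNReal.ofReal (Real.exp (-1418)) ≤ qq (W p) Ke x → 1 ≤ psi x)
    (hpD : c ≠ 0 → ∀ x ∈ OMc cls om p c, fib (W p) (Ksᶜ.indicator 1) x ^ (1 - th) ≤ psi x)
    (hpA : c ≠ 0 → ∀ x ∈ OMc cls om p c,
      capS A0 kap q 1 (pl W p) (W p) x ^ (1 - th) ≤ psi x) :
    ∫⁻ x, (OMc cls om p c).indicator 1 x *
        (capS A0 kap q th (pl W (c :: p)) (W (c :: p)) x *
          min (max (capS A0 kap q 1 (pl W (c :: p)) (W (c :: p)) x)
            (fib (W (c :: p)) (Ksᶜ.indicator 1) x) ^ (1 - th)) (qq (W (c :: p)) Ke x))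
        ∂(stdGaussian E) ≤
      ENNReal.ofReal (cCons *
        (kap ^ (Module.finrank ℝ (W (c :: p)) - Module.finrank ℝ (W p))) ^ th) *
      ∫⁻ x, (OMc cls om p c).indicator 1 x * (capS A0 kap q th (pl W p) (W p) x * psi x)
        ∂(stdGaussian E) := by
  rcases Nat.eq_zero_or_pos c with hc | hc
  · subst hc
    have h := cons_zero (th := th) h0 hW hL hq hε hth.le hth1.le hA hk hk1 hAb hb hK hKc hKR
      hroot homk hom0 hgood
    refine (lintegral_mono fun x => ?_).trans (h.trans (mul_le_mul' le_rfl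
      (lintegral_mono fun x => ?_)))
    · exact mul_le_mul' le_rfl (mul_le_mul' le_rfl (min_le_right _ _))
    · by_cases hx : x ∈ OMc cls om p 0
      · rw [indicator_of_mem hx]
        by_cases h1 : x ∈ {x | ENNReal.ofReal (Real.exp (-1418)) ≤ qq (W p) Ke x}
        · rw [indicator_of_mem h1]
          have := hp0 rfl x hx h1
          calc _ = (1 : E → ℝ≥0∞) x * (capS A0 kap q th (pl W p) (W p) x * 1) := by rw [mul_one]
            _ ≤ _ := by gcongr
        · rw [indicator_of_notMem h1, mul_zero]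
          exact bot_le
      · rw [indicator_of_notMem hx, zero_mul, zero_mul]
  · have hc' : c ≠ 0 := by omega
    have h := cons_pos (th := th) (A0 := A0) (kap := kap) (q := q) (cls := cls) (om := om) h0 hW hL
      hq (hε.trans (by norm_num)) hth hth1 hA hk (by linarith) hKs hpsi (hpD hc') (hpA hc')
    refine (lintegral_mono fun x => ?_).trans (h.trans (mul_le_mul' (ENNReal.ofReal_le_ofReal ?_)
      le_rfl))
    · exact mul_le_mul' le_rfl (mul_le_mul' le_rfl (min_le_left _ _))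
    · refine mul_le_mul_of_nonneg_right ?_ (by positivity)
      unfold cCons
      have : (1 : ℝ) ≤ Real.exp (2 ^ 11) := Real.one_le_exp (by positivity)
      linarith

/-! ### the sum over the child lives of a window -/

section lives

open Vale.Agent.P262.H118 Vale.Agent.P262.H274 Module

variable {v : ℕ → E} {T : ℕ} {N : ℕ → ℝ} {δ ρ : ℝ} (K : K2 v T N δ ρ)

omit [MeasurableSpace E] [BorelSpace E] in
/-- **sum over the child lives of a window** -/
theorem cons_sum (hv : ∀ t, t < T → ‖v t‖ = δ) (hδ : 0 < δ) (hρ : 0 < ρ) {kap th CC : ℝ}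
    (hk : 0 < kap) (hkρ : kap ^ th ≤ ρ) (hCC : 0 ≤ CC) {p : List ℕ} {c s e : ℕ}
    (h2 : 2 ≤ finrank ℝ (K.W p s)ᗮ) (h : Iv (K.B p c) T s e) {F : ℕ → ℝ≥0∞} {U : ℝ≥0∞}
    (hF : ∀ a, a ∈ K.nw (c :: p) → s ≤ a → a < e → F a ≤
      ENNReal.ofReal (CC * (kap ^ (finrank ℝ (K.W (c :: p) a) - finrank ℝ (K.W p a))) ^ th) * U) :
    ∑ a ∈ Finset.Ico s e, (K.nw (c :: p)).indicator F a ≤
      ENNReal.ofReal (CC * (kap ^ th / ρ) * Cost (K.Sw p s (N c)) ρ s e) * U := by
  have h1 := life_sum K hv hδ hρ hk hkρ h2 h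
  have h3 : ∑ a ∈ Finset.Ico s e, (K.nw (c :: p)).indicator F a ≤
      ∑ a ∈ Finset.Ico s e, ENNReal.ofReal (CC * (K.nw (c :: p)).indicator
        (fun a => (kap ^ (finrank ℝ (K.W (c :: p) a) - finrank ℝ (K.W p a))) ^ th) a) * U := by
    refine Finset.sum_le_sum fun a ha => ?_
    rw [Finset.mem_Ico] at ha
    by_cases hn : a ∈ K.nw (c :: p)
    · rw [indicator_of_mem hn, indicator_of_mem hn]
      exact hF a hn ha.1 ha.2
    · rw [indicator_of_notMem hn]
      exact bot_le
  refine h3.trans ?_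
  rw [← Finset.sum_mul, ← ENNReal.ofReal_sum_of_nonneg (fun a _ => mul_nonneg hCC
    (indicator_nonneg (fun b _ => by positivity) a)), ← Finset.mul_sum]
  refine mul_le_mul' (ENNReal.ofReal_le_ofReal ?_) le_rfl
  rw [mul_assoc]
  exact mul_le_mul_of_nonneg_left h1 hCC

end lives

end Vale.Agent.P262.H395.CW
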