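import Vale.Agent.P262.H59.Rim
import Vale.Agent.P262.H395.Kill

/-!
# P262, scheme S1, one class: the star step with stopped labels, killed labels and the ball cut
-/

set_option linter.all false

open MeasureTheory ProbabilityTheory Set
open scoped ENNReal RealInnerProductSpace
open Vale.Agent.P262.H493 Vale.Agent.P262.H59

namespace Vale.Agent.P262.H395

section

variable {E : Type*} [NormedAddCommGroup E] [InnerProductSpace ℝ E] [FiniteDimensional ℝ E]
  [MeasurableSpace E] [BorelSpace E]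

open KTree (Cyl)

/-- the star of a body cut by a set which is invariant in the direction `v` -/
lemma star_inter {K C : Set E} {v : E} (hC : ∀ x (t : ℝ), x + t • v ∈ C ↔ x ∈ C) :
    star (K ∩ C) v = star K v ∩ C := by
  ext x
  constructor
  · rintro ⟨a, b, ⟨h1, h1'⟩, ⟨h2, _⟩, h3, h4, h5⟩
    exact ⟨⟨a, b, h1, h2, h3, h4, h5⟩, (hC x a).mp h1'⟩
  · rintro ⟨⟨a, b, h1, h2, h3, h4, h5⟩, hx⟩
    exact ⟨a, b, ⟨h1, (hC x a).mpr hx⟩, ⟨h2, (hC x b).mpr hx⟩, h3, h4, h5⟩

omit [MeasurableSpace E] [BorelSpace E] in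
lemma cyl_line {W : Submodule ℝ E} {v : E} (hW : W ≤ Hp v) {A : Set E} (hA : Cyl W A)
    (x : E) (t : ℝ) : x + t • v ∈ A ↔ x ∈ A := by
  refine hA x _ (Submodule.smul_mem _ _ ?_)
  have : v ∈ (Hp v)ᗮ := by
    unfold Hp
    rw [Submodule.orthogonal_orthogonal]
    exact Submodule.mem_span_singleton_self v
  exact Submodule.orthogonal_le hW this

/-- one level of a fixed flag: label space, active labels, dead labels -/
structure Lv (E : Type*) [NormedAddCommGroup E] [InnerProductSpace ℝ E] where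
  W : Submodule ℝ E
  om : Set E
  Z : Set E

/-- active and not dead at all levels -/
def regF {m : ℕ} (F : Fin m → Lv E) : Set E := {x | ∀ i, x ∈ (F i).om ∧ x ∉ (F i).Z}

/-- not dead at all levels -/
def frzF {m : ℕ} (F : Fin m → Lv E) : Set E := {x | ∀ i, x ∉ (F i).Z}

/-- admissible flags orthogonal to `v` -/
structure GoodF {m : ℕ} (F : Fin m → Lv E) (v : E) : Prop where
  mono : Monotone fun i => (F i).W
  perp : ∀ i, (F i).W ≤ Hp v
  mom : ∀ i, MeasurableSet (F i).om
  com : ∀ i, Cyl (F i).W (F i).om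
  cZ : ∀ i, Cyl (F i).W (F i).Z
  clZ : ∀ i, IsClosed (F i).Zᶜ
  cvZ : ∀ i, Convex ℝ (F i).Zᶜ

variable {m : ℕ} {F : Fin m → Lv E} {v : E}

lemma GoodF.mZ (hF : GoodF F v) (i : Fin m) : MeasurableSet (F i).Z := by
  simpa using (hF.clZ i).measurableSet.compl

lemma frzF_eq (F : Fin m → Lv E) : frzF F = ⋂ i, (F i).Zᶜ := by
  ext x; simp [frzF]

lemma GoodF.closed (hF : GoodF F v) : IsClosed (frzF F) := by
  rw [frzF_eq]; exact isClosed_iInter fun i => hF.clZ i

lemma GoodF.convex (hF : GoodF F v) : Convex ℝ (frzF F) := by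
  rw [frzF_eq]; exact convex_iInter fun i => hF.cvZ i

lemma GoodF.frz_line (hF : GoodF F v) (x : E) (t : ℝ) : x + t • v ∈ frzF F ↔ x ∈ frzF F := by
  simp only [frzF, mem_setOf_eq]
  exact forall_congr' fun i => not_congr (cyl_line (hF.perp i) (hF.cZ i) x t)

lemma GoodF.measurableSet_reg (hF : GoodF F v) : MeasurableSet (regF F) := by
  have : regF F = ⋂ i, ((F i).om ∩ (F i).Zᶜ) := by ext x; simp [regF]
  rw [this]
  exact MeasurableSet.iInter fun i => (hF.mom i).inter (hF.mZ i).compl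

lemma GoodF.reg_perp (hF : GoodF F v) : Cyl (Hp v) (regF F) := by
  intro x w hw
  simp only [regF, mem_setOf_eq]
  refine forall_congr' fun i => ?_
  have hw' := Submodule.orthogonal_le (hF.perp i) hw
  rw [hF.com i x w hw', hF.cZ i x w hw']

/-- **Star step, one class, killed labels allowed, no ball.** -/
theorem star_flag {K : Set E} (hK : IsClosed K) (hKc : Convex ℝ K) (hv : v ≠ 0)
    (hv' : ‖v‖ ≤ 1 / 400) {R : ℝ} (hKR : K ⊆ Metric.closedBall 0 R) (hF : GoodF F v)
    (hdeep : ∀ i, ∀ x, x ∉ (F i).om → (∀ j ≤ i, x ∉ (F j).Z) → ENNReal.ofReal (4 / 5) ≤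
      fib (F i).W ((star K v ∩ frzF F).indicator 1) x)
    (hroot : ENNReal.ofReal (2 / 3) ≤ stdGaussian E (star K v ∩ frzF F)) :
    stdGaussian E ((K \ star K v) ∩ regF F) ≤
      ENNReal.ofReal (1200 * ‖v‖) * stdGaussian E ((star K v \ K) ∩ regF F) := by
  have hst : star (K ∩ frzF F) v = star K v ∩ frzF F := star_inter hF.frz_line
  have hKZ : IsClosed (K ∩ frzF F) := hK.inter hF.closed
  set D : Fin m → Set E := fun i => {x | x ∉ (F i).om ∧ ∀ j ≤ i, x ∉ (F j).Z} with hD
  have hDm : ∀ i, MeasurableSet (D i) := by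
    intro i
    have : D i = (F i).omᶜ ∩ ⋂ j, ⋂ (_ : j ≤ i), (F j).Zᶜ := by
      ext x; simp [hD]
    rw [this]
    exact (hF.mom i).compl.inter (MeasurableSet.iInter fun j => MeasurableSet.iInter fun _ =>
      (hF.mZ j).compl)
  have hDc : ∀ i, Cyl (F i).W (D i) := by
    intro i x w hw
    simp only [hD, mem_setOf_eq]
    rw [hF.com i x w hw]
    refine and_congr_right fun _ => forall_congr' fun j => forall_congr' fun hj => ?_
    exact not_congr (hF.cZ j x w (Submodule.orthogonal_le (hF.mono hj) hw))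
  have hsm : MeasurableSet (star K v ∩ frzF F) :=
    (measurableSet_star hK hKR hv).inter hF.closed.measurableSet
  have key := star_inner (K := K ∩ frzF F) hKZ (hKc.inter hF.convex) hv hv'
    ⟨‖v‖ * R, fun x hx => (abs_real_inner_le_norm v x).trans
      (mul_le_mul_of_nonneg_left (by simpa using hKR hx.1) (norm_nonneg v))⟩
    (W := fun i => (F i).W) hF.mono (fun i w hw => by
      have := hF.perp i hw
      unfold Hp at this
      rw [Submodule.mem_orthogonal_singleton_iff_inner_right] at this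
      exact this) (D := D) hDm (fun i x w hw hx => (hDc i x w hw).mpr hx)
    (fun i x hx => by
      have := hdeep i x hx.1 hx.2
      rw [fib_indicator _ hsm] at this
      rw [hst]
      exact this) (by rw [hst]; exact hroot)
  rw [hst] at key
  have e1 : {x | (x ∈ K ∩ frzF F ∧ x ∉ star K v ∩ frzF F) ∧ ∀ i, x ∉ D i}
      = (K \ star K v) ∩ regF F := by
    ext x
    simp only [mem_setOf_eq, mem_inter_iff, mem_diff, regF, frzF, hD, not_and, not_forall,
      not_not]
    constructor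
    · rintro ⟨⟨⟨h1, h2⟩, h3⟩, h4⟩
      refine ⟨⟨h1, fun hs => ?_⟩, fun i => ⟨?_, h2 i⟩⟩
      · obtain ⟨j, hj⟩ := h3 hs
        exact h2 j hj
      · by_contra hom
        obtain ⟨j, _, hj⟩ := h4 i hom
        exact h2 j hj
    · rintro ⟨⟨h1, h2⟩, h3⟩
      exact ⟨⟨⟨h1, fun i => (h3 i).2⟩, fun hs => absurd hs h2⟩, fun i hi => absurd (h3 i).1 hi⟩
  have e2 : {x | (x ∈ star K v ∩ frzF F ∧ x ∉ K ∩ frzF F) ∧ ∀ i, x ∉ D i}
      = (star K v \ K) ∩ regF F := by
    ext x
    simp only [mem_setOf_eq, mem_inter_iff, mem_diff, regF, frzF, hD, not_and, not_forall,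
      not_not]
    constructor
    · rintro ⟨⟨⟨h1, h2⟩, h3⟩, h4⟩
      refine ⟨⟨h1, fun hs => ?_⟩, fun i => ⟨?_, h2 i⟩⟩
      · obtain ⟨j, hj⟩ := h3 hs
        exact h2 j hj
      · by_contra hom
        obtain ⟨j, _, hj⟩ := h4 i hom
        exact h2 j hj
    · rintro ⟨⟨h1, h2⟩, h3⟩
      exact ⟨⟨⟨h1, fun i => (h3 i).2⟩, fun hs => absurd hs h2⟩, fun i hi => absurd (h3 i).1 hi⟩
  rw [e1, e2] at key
  exact key

/-- the weight of the counted points -/
noncomputable def Om (F : Fin m → Lv E) : E → ℝ≥0∞ := (regF F).indicator 1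

lemma GoodF.measurable_Om (hF : GoodF F v) : Measurable (Om F) :=
  measurable_one.indicator hF.measurableSet_reg

lemma GoodF.inv_Om (hF : GoodF F v) : Inv (Hp v) (Om F) := by
  intro x w hw
  unfold Om
  by_cases h : x ∈ regF F
  · rw [indicator_of_mem h, indicator_of_mem ((hF.reg_perp x w hw).mpr h)]; rfl
  · rw [indicator_of_notMem h, indicator_of_notMem (fun h' => h ((hF.reg_perp x w hw).mp h'))]

lemma lintegral_Om (F : Fin m → Lv E) {A : Set E} (hA : MeasurableSet A)
    (hr : MeasurableSet (regF F)) :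
    ∫⁻ x, Om F x * A.indicator 1 x ∂stdGaussian E = stdGaussian E (A ∩ regF F) := by
  have : ∀ x, Om F x * A.indicator 1 x = (A ∩ regF F).indicator 1 x := by
    intro x
    unfold Om
    by_cases h : x ∈ regF F
    · by_cases h' : x ∈ A
      · have h2 : x ∈ A ∩ regF F := ⟨h', h⟩
        rw [indicator_of_mem h, indicator_of_mem h', indicator_of_mem h2]; simp
      · rw [indicator_of_mem h, indicator_of_notMem h', indicator_of_notMem (fun h2 => h' h2.1)]
        simp
    · rw [indicator_of_notMem h, indicator_of_notMem (fun h2 : x ∈ A ∩ regF F => h h2.2)]; simp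
  simp_rw [this]
  rw [lintegral_indicator_one (hA.inter hr)]

/-- **Star step with stopped labels, killed labels and the cut with the ball, one class.**
`K' = star K v ∩ closedBall 0 R`. The counted loss is at most `2400 ‖v‖` times the counted gain. -/
theorem star_step {K : Set E} (hK : IsClosed K) (hKc : Convex ℝ K) (hv : v ≠ 0)
    (hv' : ‖v‖ ≤ 1 / 400) {R : ℝ} (hKR : K ⊆ Metric.closedBall 0 R) (hF : GoodF F v)
    (hdeep : ∀ i, ∀ x, x ∉ (F i).om → (∀ j ≤ i, x ∉ (F j).Z) → ENNReal.ofReal (4 / 5) ≤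
      fib (F i).W ((star K v ∩ frzF F).indicator 1) x)
    (hroot : ENNReal.ofReal (2 / 3) ≤ stdGaussian E (star K v ∩ frzF F))
    {p Lam : ℝ} (hp0 : 0 ≤ p) (hp : p ≤ 1 / 4) (hL : 1 ≤ Lam)
    (hline : ∀ x ∈ regF F, OnLine K v R p Lam x) :
    ∫⁻ x, Om F x * (K \ (star K v ∩ Metric.closedBall 0 R)).indicator 1 x ∂stdGaussian E ≤
      ENNReal.ofReal (2400 * ‖v‖) *
        ∫⁻ x, Om F x * ((star K v ∩ Metric.closedBall 0 R) \ K).indicator 1 x ∂stdGaussian E := by
  have hvp : 0 < ‖v‖ := norm_pos_iff.mpr hv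
  have hKm := hK.measurableSet
  have hsm := measurableSet_star hK hKR hv
  have hr := hF.measurableSet_reg
  have h1 := star_flag hK hKc hv hv' hKR hF hdeep hroot
  rw [← lintegral_Om F (hKm.diff hsm) hr, ← lintegral_Om F (hsm.diff hKm) hr] at h1
  have h2 := cut_fib hK hKc hKR hvp (by linarith) hp0 hp hL (W0 := ⊥) bot_le hF.inv_Om
    hF.measurable_Om (fun x hx => hline x (by
      by_contra hcon
      exact hx (by unfold Om; rw [indicator_of_notMem hcon]))) 0
    (c := ENNReal.ofReal (1200 * ‖v‖)) (by rw [fib_bot, fib_bot]; exact h1)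
  rw [fib_bot, fib_bot] at h2
  refine h2.trans (le_of_eq ?_)
  congr 1
  rw [show (2 : ℝ≥0∞) = ENNReal.ofReal 2 by norm_num, ← ENNReal.ofReal_mul (by norm_num)]
  congr 1
  ring

/-- **One elementary move (star step) of the counted deficit with fixed weights.** -/
theorem star_move {K : Set E} (hK : IsClosed K) (hKc : Convex ℝ K) (hv : v ≠ 0)
    (hv' : ‖v‖ ≤ 1 / 400) {R : ℝ} (hKR : K ⊆ Metric.closedBall 0 R) (hF : GoodF F v)
    (hdeep : ∀ i, ∀ x, x ∉ (F i).om → (∀ j ≤ i, x ∉ (F j).Z) → ENNReal.ofReal (4 / 5) ≤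
      fib (F i).W ((star K v ∩ frzF F).indicator 1) x)
    (hroot : ENNReal.ofReal (2 / 3) ≤ stdGaussian E (star K v ∩ frzF F))
    {p Lam : ℝ} (hp0 : 0 ≤ p) (hp : p ≤ 1 / 4) (hL : 1 ≤ Lam)
    (hline : ∀ x ∈ regF F, OnLine K v R p Lam x) :
    ∫⁻ x, Om F x * ((star K v ∩ Metric.closedBall 0 R)ᶜ).indicator 1 x ∂stdGaussian E
        + ∫⁻ x, Om F x * ((star K v ∩ Metric.closedBall 0 R) \ K).indicator 1 x ∂stdGaussian E
      ≤ ∫⁻ x, Om F x * (Kᶜ).indicator 1 x ∂stdGaussian E
        + ENNReal.ofReal (2400 * ‖v‖) *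
        ∫⁻ x, Om F x * ((star K v ∩ Metric.closedBall 0 R) \ K).indicator 1 x ∂stdGaussian E := by
  have hstep := star_step hK hKc hv hv' hKR hF hdeep hroot hp0 hp hL hline
  have hKm := hK.measurableSet
  have hsm : MeasurableSet (star K v ∩ Metric.closedBall 0 R) :=
    (measurableSet_star hK hKR hv).inter Metric.isClosed_closedBall.measurableSet
  set K' := star K v ∩ Metric.closedBall (0 : E) R with hK'
  refine le_trans (le_of_eq ?_) (add_le_add le_rfl hstep)
  have hO := hF.measurable_Om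
  have m1 : Measurable fun x => Om F x * (K'ᶜ).indicator (1 : E → ℝ≥0∞) x :=
    hO.mul (measurable_one.indicator hsm.compl)
  have m2 : Measurable fun x => Om F x * (Kᶜ).indicator (1 : E → ℝ≥0∞) x :=
    hO.mul (measurable_one.indicator hKm.compl)
  rw [← lintegral_add_left m1, ← lintegral_add_left m2]
  apply lintegral_congr
  intro x
  rw [← mul_add, ← mul_add]
  congr 1
  by_cases h1 : x ∈ K
  · by_cases h2 : x ∈ K'
    · rw [indicator_of_notMem (by simpa using h2), indicator_of_notMem (fun h => h.2 h1),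
        indicator_of_notMem (by simpa using h1), indicator_of_notMem (fun h => h.2 h2)]
    · have h3 : x ∈ K'ᶜ := h2
      have h4 : x ∈ K \ K' := ⟨h1, h2⟩
      rw [indicator_of_mem h3, indicator_of_notMem (fun h => h.2 h1),
        indicator_of_notMem (by simpa using h1), indicator_of_mem h4]
      simp
  · by_cases h2 : x ∈ K'
    · have h3 : x ∈ Kᶜ := h1
      have h4 : x ∈ K' \ K := ⟨h2, h1⟩
      rw [indicator_of_notMem (by simpa using h2), indicator_of_mem h4, indicator_of_mem h3,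
        indicator_of_notMem (fun h => h1 h.1)]
      simp
    · have h3 : x ∈ Kᶜ := h1
      have h4 : x ∈ K'ᶜ := h2
      rw [indicator_of_mem h4, indicator_of_notMem (fun h => h2 h.1), indicator_of_mem h3,
        indicator_of_notMem (fun h => h1 h.1)]

end

end Vale.Agent.P262.H395
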