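import Mathlib
import Vale.Agent.P262.M2.Defs
import Vale.Agent.P262.H118.SysGeo
import Vale.Agent.P262.H395.CW5

/-!
# P262, milestone 2, block CONS on the system, part 0: windows, classes, measurability (own copies of
the facts which are needed, suffix `_c`)
-/

set_option linter.all false

open MeasureTheory ProbabilityTheory Set
open scoped ENNReal RealInnerProductSpace
open Vale.Agent.P262.H118 (Iv st en K2 El2 paths)
open Vale.Agent.P262.H274 (Slow Cost)
open Vale.Agent.P262.H395 (fib mix Inv)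
open Vale.Agent.P262.H44 (InvS)

namespace Vale.Agent.P262.M2.Sys

variable {E : Type*} [NormedAddCommGroup E] [InnerProductSpace ℝ E] [FiniteDimensional ℝ E]
  [MeasurableSpace E] [BorelSpace E] (S : Sys E)

/-- `k` is in the interval of the partition `B` which contains `m` -/
def In (B : Set ℕ) (m k : ℕ) : Prop := S.mv.sS B m ≤ k ∧ k ≤ S.mv.eS B m

variable {S}

lemma zero_nw_c (p : List ℕ) : 0 ∈ S.K.nw p := S.K.zero_mem_nw p

lemma zero_B_c (p : List ℕ) (c : ℕ) : 0 ∈ S.K.B p c := S.K.zero_mem_B p c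

lemma In.mono_c {B B' : Set ℕ} (h : B ⊆ B') (h0 : 0 ∈ B) {m k : ℕ} (hm : S.mv.tm m < S.T)
    (hk : S.In B' m k) : S.In B m k :=
  ⟨(S.mv.sS_mono h h0 m).trans hk.1, hk.2.trans (S.mv.eS_anti h h0 hm)⟩

lemma In.tm_c {B : Set ℕ} (h0 : 0 ∈ B) {m k : ℕ} (hm : S.mv.tm m < S.T) (hk : S.In B m k) :
    S.mv.tm k < S.T :=
  lt_of_lt_of_le (S.mv.tm_mem h0 hm hk.1 hk.2).2 (Vale.Agent.P262.H118.en_le _ _ _)

lemma In.same_c {B : Set ℕ} (h0 : 0 ∈ B) {m k : ℕ} (hm : S.mv.tm m < S.T) (hk : S.In B m k) :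
    S.mv.sS B k = S.mv.sS B m ∧ S.mv.eS B k = S.mv.eS B m :=
  (S.mv.same_eq h0 hm hk.1 hk.2).2

lemma In.st_c {B : Set ℕ} (h0 : 0 ∈ B) {m k : ℕ} (hm : S.mv.tm m < S.T) (hk : S.In B m k) :
    st B (S.mv.tm k) = st B (S.mv.tm m) :=
  (S.mv.same_eq h0 hm hk.1 hk.2).1

lemma In.self_c {B : Set ℕ} (h0 : 0 ∈ B) {m : ℕ} (hm : S.mv.tm m < S.T) : S.In B m m :=
  S.mv.same_self h0 hm

/-- label spaces are constant on lives (and on all finer intervals) -/
lemma W_In_c {p : List ℕ} {B : Set ℕ} (hB : S.K.nw p ⊆ B) {m k : ℕ} (hm : S.mv.tm m < S.T)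
    (hk : S.In B m k) : S.W p k = S.W p m := by
  have h0 : 0 ∈ B := hB (zero_nw_c p)
  have h1 := S.mv.tm_mem h0 hm hk.1 hk.2
  have h2 := (Vale.Agent.P262.H118.iv_st h0 hm)
  unfold W
  rw [S.K.W_const hB h2.1 h1.1 h1.2, S.K.W_const hB h2.1 h2.2.1 h2.2.2]

lemma W_suffix_c {p r : List ℕ} (hr : r <:+ p) {B : Set ℕ} (hB : S.K.nw p ⊆ B) {m k : ℕ}
    (hm : S.mv.tm m < S.T) (hk : S.In B m k) : S.W r k = S.W r m :=
  W_In_c ((S.K.nw_mono hr).trans hB) hm hk

lemma chn_In_c {p : List ℕ} {B : Set ℕ} (hB : S.K.nw p ⊆ B) {m k : ℕ}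
    (hm : S.mv.tm m < S.T) (hk : S.In B m k) : S.chn p k = S.chn p m := by
  induction p with
  | nil => rfl
  | cons c p ih =>
    rw [chn, chn, ih ((S.K.nw_sub_nw p c).trans hB), W_In_c hB hm hk]

lemma As_In_c {p : List ℕ} {B : Set ℕ} (hB : S.K.nw p ⊆ B) {m k : ℕ}
    (hm : S.mv.tm m < S.T) (hk : S.In B m k) (s : ℝ) : S.As s p k = S.As s p m := by
  funext x
  unfold As
  rw [chn_In_c hB hm hk, W_In_c hB hm hk]

lemma A_In_c {p : List ℕ} {B : Set ℕ} (hB : S.K.nw p ⊆ B) {m k : ℕ}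
    (hm : S.mv.tm m < S.T) (hk : S.In B m k) : S.A p k = S.A p m := As_In_c hB hm hk 1

lemma Z_In_c {p : List ℕ} {B : Set ℕ} (hB : S.K.nw p ⊆ B) {m k : ℕ}
    (hm : S.mv.tm m < S.T) (hk : S.In B m k) : S.Z p k = S.Z p m := by
  induction p with
  | nil => rfl
  | cons c p ih =>
    rw [Z, Z, ih ((S.K.nw_sub_nw p c).trans hB), A_In_c hB hm hk]

/-- window maxima depend on the window only -/
lemma Dw_In_c {p : List ℕ} {b : ℕ} {m k : ℕ} (hm : S.mv.tm m < S.T)
    (hk : S.In (S.K.B p b) m k) (x : E) : S.Dw p b k x = S.Dw p b m x := by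
  have h := In.same_c (zero_B_c p b) hm hk
  unfold Dw
  rw [h.1, h.2]

/-! ### the class -/

lemma As_ge_c (p : List ℕ) (m : ℕ) (x : E) :
    ENNReal.ofReal (S.A0 * S.kap ^ Module.finrank ℝ E) ≤ S.A p m x := by
  unfold A As H962.capS
  have h1 : (1 : ℝ≥0∞) ≤ H606.dw (1 / 8) (H962.PB (S.chn p m) S.qq) x :=
    H606.one_le_dw (by norm_num) x
  calc ENNReal.ofReal (S.A0 * S.kap ^ Module.finrank ℝ E)
      ≤ ENNReal.ofReal ((S.A0 * S.kap ^ Module.finrank ℝ (S.W p m)) ^ (1 : ℝ)) := by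
        refine ENNReal.ofReal_le_ofReal ?_
        rw [Real.rpow_one]
        refine mul_le_mul_of_nonneg_left ?_ S.hA0.le
        exact pow_le_pow_of_le_one S.hkap.le S.hkap1 (Submodule.finrank_le _)
    _ = ENNReal.ofReal ((S.A0 * S.kap ^ Module.finrank ℝ (S.W p m)) ^ (1 : ℝ)) * 1 :=
        (mul_one _).symm
    _ ≤ _ := by gcongr

lemma kl_ne_c (p : List ℕ) (m : ℕ) (x : E) :
    {c | S.thr c ≤ S.Dw p c m x ∨ S.thr c ≤ S.A p m x}.Nonempty :=
  ⟨S.cm, Or.inr (S.hcm.trans (As_ge_c p m x))⟩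

lemma kl_mem_c (p : List ℕ) (m : ℕ) (x : E) :
    S.thr (S.kl p m x) ≤ S.Dw p (S.kl p m x) m x ∨ S.thr (S.kl p m x) ≤ S.A p m x :=
  Nat.sInf_mem (kl_ne_c p m x)

lemma kl_le_cm_c (p : List ℕ) (m : ℕ) (x : E) : S.kl p m x ≤ S.cm :=
  Nat.sInf_le (Or.inr (S.hcm.trans (As_ge_c p m x)))

lemma kl_lt_c {p : List ℕ} {m : ℕ} {x : E} {b : ℕ} (hb : b < S.kl p m x) :
    S.Dw p b m x < S.thr b ∧ S.A p m x < S.thr b := by
  have h := Nat.notMem_of_lt_sInf hb
  rw [mem_setOf_eq, not_or, not_le, not_le] at h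
  exact h

lemma kl_eq_iff_c {p : List ℕ} {m : ℕ} {x : E} {c : ℕ} : S.kl p m x = c ↔
    (S.thr c ≤ S.Dw p c m x ∨ S.thr c ≤ S.A p m x) ∧
      ∀ b, b < c → S.Dw p b m x < S.thr b ∧ S.A p m x < S.thr b := by
  constructor
  · rintro rfl
    exact ⟨kl_mem_c p m x, fun b hb => kl_lt_c hb⟩
  · rintro ⟨h1, h2⟩
    refine le_antisymm (Nat.sInf_le h1) ?_
    by_contra hcon
    push Not at hcon
    have h3 := h2 _ hcon
    rcases kl_mem_c p m x with h | h
    · exact absurd h3.1 (not_lt.mpr h)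
    · exact absurd h3.2 (not_lt.mpr h)

/-- the class is constant on its block -/
lemma kl_In_c {p : List ℕ} {c : ℕ} {m k : ℕ} (hm : S.mv.tm m < S.T)
    (hk : S.In (S.K.B p c) m k) (x : E) : S.kl p k x = c ↔ S.kl p m x = c := by
  have hA := A_In_c (S.K.nw_sub_B p c) hm hk
  have hD : ∀ b, b ≤ c → S.Dw p b k x = S.Dw p b m x := fun b hb =>
    Dw_In_c hm (hk.mono_c (S.K.B_mono p hb) (zero_B_c p b) hm) x
  rw [kl_eq_iff_c, kl_eq_iff_c, hA, hD c le_rfl]
  refine and_congr_right fun _ => forall_congr' fun b => ?_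
  constructor
  · intro h hb
    rw [← hD b hb.le]; exact h hb
  · intro h hb
    rw [hD b hb.le]; exact h hb

/-- the rule is constant on the block -/
lemma om_In_c {p : List ℕ} {c : ℕ} {m k : ℕ} (hm : S.mv.tm m < S.T)
    (hk : S.In (S.K.B p c) m k) {x : E} (hx : S.kl p m x = c) :
    x ∈ S.om p k ↔ x ∈ S.om p m := by
  have hkk : S.kl p k x = c := (kl_In_c hm hk x).mpr hx
  have hA := A_In_c (S.K.nw_sub_B p c) hm hk
  have hZ := Z_In_c (S.K.nw_sub_B p c) hm hk
  have h1 := In.same_c (zero_B_c p c) hm hk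
  have hbe : S.be p k x = S.be p m x := by
    unfold be BB
    rw [hkk, hx, h1.2]
  have hDb : S.Db p k x = S.Db p m x := by
    unfold Db
    rw [hkk, hx, Dw_In_c hm hk]
  unfold om
  rw [mem_setOf_eq, mem_setOf_eq, hZ, hA, hbe, hDb]

/-- the labels of the path `p` with class `c` are constant on the window of class `c` -/
lemma OMc_In_c {p : List ℕ} {c : ℕ} {m k : ℕ} (hm : S.mv.tm m < S.T)
    (hk : S.In (S.K.B p c) m k) :
    H395.CW.OMc (fun r => S.kl r k) (fun r => S.om r k) p c =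
      H395.CW.OMc (fun r => S.kl r m) (fun r => S.om r m) p c := by
  have key : ∀ d r, (d :: r) <:+ p → S.In (S.K.B r d) m k := fun d r hr =>
    hk.mono_c ((S.K.B_sub_nw r d).trans ((S.K.nw_mono hr).trans (S.K.nw_sub_B p c)))
      (zero_B_c r d) hm
  ext x
  constructor
  · rintro ⟨⟨h1, h2⟩, h3⟩
    have h3' : S.kl p m x = c := (kl_In_c hm hk x).mp h3
    have h1' : ∀ d r, (d :: r) <:+ p → S.kl r m x = d := fun d r hr =>
      (kl_In_c hm (key d r hr) x).mp (h1 d r hr)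
    refine ⟨⟨h1', fun r hr => ?_⟩, h3'⟩
    rcases eq_or_ne r p with rfl | hne
    · exact (om_In_c hm hk h3').mp (h2 r hr)
    · obtain ⟨u, hu⟩ := hr
      rcases List.eq_nil_or_concat u with h6 | ⟨u', d, h6⟩
      · exact absurd (by rw [h6] at hu; simpa using hu) hne
      · have h7 : (d :: r) <:+ p := ⟨u', by rw [← hu, h6]; simp⟩
        exact (om_In_c hm (key d r h7) (h1' d r h7)).mp (h2 r ⟨u, hu⟩)
  · rintro ⟨⟨h1, h2⟩, h3⟩
    have h3' : S.kl p k x = c := (kl_In_c hm hk x).mpr h3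
    have h1' : ∀ d r, (d :: r) <:+ p → S.kl r k x = d := fun d r hr =>
      (kl_In_c hm (key d r hr) x).mpr (h1 d r hr)
    refine ⟨⟨h1', fun r hr => ?_⟩, h3'⟩
    rcases eq_or_ne r p with rfl | hne
    · exact (om_In_c hm hk h3).mpr (h2 r hr)
    · obtain ⟨u, hu⟩ := hr
      rcases List.eq_nil_or_concat u with h6 | ⟨u', d, h6⟩
      · exact absurd (by rw [h6] at hu; simpa using hu) hne
      · have h7 : (d :: r) <:+ p := ⟨u', by rw [← hu, h6]; simp⟩
        exact (om_In_c hm (key d r h7) (h1 d r h7)).mpr (h2 r ⟨u, hu⟩)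

/-! ### measurability, label functions -/

lemma measurableSet_X_c (p : List ℕ) (m : ℕ) : MeasurableSet (S.X p m) :=
  S.mv.measurableSet_Bd (fun t => M1.measurableSet_body S.v S.R t) p m

lemma measurable_De_c (p : List ℕ) (m : ℕ) : Measurable (S.De p m) :=
  H395.measurable_fib (measurable_one.indicator (measurableSet_X_c p m).compl)

lemma measurable_q_c (p : List ℕ) (m : ℕ) : Measurable (S.q p m) :=
  H395.measurable_fib (measurable_one.indicator (measurableSet_X_c p m))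

lemma measurable_Dc_c (p : List ℕ) (m : ℕ) : Measurable (S.Dc p m) := by
  unfold Dc
  by_cases h : S.mv.IsRe m
  · simp only [h, if_true]
    exact measurable_De_c p m
  · simp only [h, if_false]
    exact H395.measurable_fib (measurable_one.indicator
      ((measurableSet_X_c p m).inter (measurableSet_X_c p (m + 1))).compl)

lemma inv_De_c (p : List ℕ) (m : ℕ) : Inv (S.W p m) (S.De p m) := H395.inv_fib _ _

lemma inv_Dc_c (p : List ℕ) (m : ℕ) : Inv (S.W p m) (S.Dc p m) := by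
  unfold Dc
  by_cases h : S.mv.IsRe m
  · simp only [h, if_true]
    exact inv_De_c p m
  · simp only [h, if_false]
    exact H395.inv_fib _ _

lemma measurable_As_c (s : ℝ) (p : List ℕ) (m : ℕ) : Measurable (S.As s p m) :=
  H962.measurable_capS

lemma mem_chn_le_c {p : List ℕ} {m : ℕ} : ∀ V ∈ S.chn p m, V ≤ S.W p m := by
  induction p with
  | nil => intro V hV; simp [chn] at hV
  | cons c p ih =>
    intro V hV
    rw [chn, List.mem_append, List.mem_singleton] at hV
    rcases hV with h | rfl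
    · exact (ih V h).trans (S.K.W_le c p _)
    · exact le_rfl

lemma inv_As_c (s : ℝ) (p : List ℕ) (m : ℕ) : Inv (S.W p m) (S.As s p m) :=
  H962.inv_capS mem_chn_le_c

lemma measurable_Dw_c (p : List ℕ) (c m : ℕ) : Measurable (S.Dw p c m) := by
  unfold Dw
  simp_rw [Finset.sup_eq_iSup]
  refine Measurable.iSup fun k => ?_
  by_cases hk : k ∈ Finset.Icc (S.mv.sS (S.K.B p c) m) (S.mv.eS (S.K.B p c) m)
  · simp only [hk, iSup_pos]
    exact measurable_Dc_c p k
  · simp only [hk, iSup_false]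
    exact measurable_const

lemma inv_Dw_c {p : List ℕ} {c m : ℕ} (hm : S.mv.tm m < S.T) : Inv (S.W p m) (S.Dw p c m) := by
  intro x w hw
  unfold Dw
  refine Finset.sup_congr rfl fun k hk => ?_
  rw [Finset.mem_Icc] at hk
  have h1 : S.W p k = S.W p m := W_In_c (S.K.nw_sub_B p c) hm hk
  have h2 := inv_Dc_c (S := S) p k
  rw [h1] at h2
  exact h2 x w hw

lemma measurable_kl_c (p : List ℕ) (m : ℕ) : Measurable (S.kl p m) := by
  refine measurable_to_countable' fun c => ?_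
  have e : S.kl p m ⁻¹' {c} = ({x | S.thr c ≤ S.Dw p c m x} ∪ {x | S.thr c ≤ S.A p m x}) ∩
      ⋂ b ∈ Finset.range c, ({x | S.Dw p b m x < S.thr b} ∩ {x | S.A p m x < S.thr b}) := by
    ext x
    rw [mem_preimage, mem_singleton_iff, kl_eq_iff_c]
    simp only [mem_inter_iff, mem_union, mem_setOf_eq, mem_iInter, Finset.mem_range]
  rw [e]
  refine ((measurableSet_le measurable_const (measurable_Dw_c p c m)).union
    (measurableSet_le measurable_const (measurable_As_c 1 p m))).inter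
    (Finset.measurableSet_biInter _ fun b _ => ?_)
  exact (measurableSet_lt (measurable_Dw_c p b m) measurable_const).inter
    (measurableSet_lt (measurable_As_c 1 p m) measurable_const)

lemma inv_kl_c {p : List ℕ} {m : ℕ} (hm : S.mv.tm m < S.T) :
    ∀ x, ∀ w ∈ (S.W p m)ᗮ, S.kl p m (x + w) = S.kl p m x := by
  intro x w hw
  unfold kl
  congr 1
  ext c
  rw [mem_setOf_eq, mem_setOf_eq, inv_Dw_c hm x w hw,
    show S.A p m (x + w) = S.A p m x from inv_As_c 1 p m x w hw]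

lemma measurableSet_Z_c (p : List ℕ) (m : ℕ) : MeasurableSet (S.Z p m) := by
  induction p with
  | nil => exact MeasurableSet.empty
  | cons c p ih => exact ih.union (measurableSet_lt measurable_const (measurable_As_c 1 _ m))

lemma invS_Z_c (p : List ℕ) (m : ℕ) : InvS (S.W p m) (S.Z p m) := by
  induction p with
  | nil => intro x w _; simp [Z]
  | cons c p ih =>
    intro x w hw
    have h1 := ih x w (Submodule.orthogonal_le (S.K.W_le c p _) hw)
    have h2 : S.A (c :: p) m (x + w) = S.A (c :: p) m x := inv_As_c 1 (c :: p) m x w hw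
    rw [Z, mem_union, mem_union, h1, mem_setOf_eq, mem_setOf_eq, h2]

/-- `be` on a fixed class -/
lemma measurableSet_om_c (p : List ℕ) (m : ℕ) : MeasurableSet (S.om p m) := by
  have e : S.om p m = ⋃ c, (S.kl p m ⁻¹' {c} ∩ ((S.Z p m)ᶜ ∩
      ({x | S.A p m x ≤ S.De p (S.mv.eS (S.K.B p c) m) x} ∪
        {x | ENNReal.ofReal S.M * S.A p m x ≤ S.Dw p c m x}))) := by
    ext x
    simp only [om, be, BB, Db, mem_setOf_eq, mem_iUnion, mem_inter_iff, mem_preimage,
      mem_singleton_iff, mem_compl_iff, mem_union]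
    constructor
    · intro h
      exact ⟨_, rfl, h⟩
    · rintro ⟨c, rfl, h⟩
      exact h
  rw [e]
  refine MeasurableSet.iUnion fun c => ?_
  refine (measurable_kl_c p m (measurableSet_singleton c)).inter
    ((measurableSet_Z_c p m).compl.inter ?_)
  exact (measurableSet_le (measurable_As_c 1 p m) (measurable_De_c p _)).union
    (measurableSet_le ((measurable_As_c 1 p m).const_mul _) (measurable_Dw_c p c m))

lemma invS_om_c {p : List ℕ} {m : ℕ} (hm : S.mv.tm m < S.T) : InvS (S.W p m) (S.om p m) := by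
  intro x w hw
  have h1 := inv_kl_c hm x w hw
  have h2 : S.A p m (x + w) = S.A p m x := inv_As_c 1 p m x w hw
  have h3 := invS_Z_c (S := S) p m x w hw
  have h4 : S.be p m (x + w) = S.be p m x := by unfold be BB; rw [h1]
  have h5 : S.Db p m (x + w) = S.Db p m x := by
    unfold Db; rw [h1]; exact inv_Dw_c hm x w hw
  have h6 : S.De p (S.be p m x) (x + w) = S.De p (S.be p m x) x := by
    have h7 : S.W p (S.be p m x) = S.W p m := by
      have h0 := zero_B_c (S := S) p (S.kl p m x)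
      refine W_In_c (S.K.nw_sub_B p (S.kl p m x)) hm ⟨?_, le_rfl⟩
      exact (S.mv.sS_le _ m).trans (S.mv.le_eS h0 hm)
    have h8 := inv_De_c (S := S) p (S.be p m x)
    rw [h7] at h8
    exact h8 x w hw
  unfold om
  rw [mem_setOf_eq, mem_setOf_eq, h2, h4, h5, h6, h3]

lemma lab_c {p : List ℕ} {m : ℕ} (hm : S.mv.tm m < S.T) :
    H395.CW.Lab (fun r => S.W r m) (fun r => S.kl r m) (fun r => S.om r m) p where
  mcls := fun r _ => measurable_kl_c r m
  icls := fun r _ => inv_kl_c hm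
  mom := fun r _ => measurableSet_om_c r m
  iom := fun r _ => invS_om_c hm

end Vale.Agent.P262.M2.Sys
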