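import Mathlib
import Vale.Agent.P262.H395.CS0

/-!
# P262, milestone 2, block CONS on the system, part 1: one life of a child
-/

set_option linter.all false

open MeasureTheory ProbabilityTheory Set
open scoped ENNReal RealInnerProductSpace
open Vale.Agent.P262.H118 (Iv st en K2 El2 paths)
open Vale.Agent.P262.H274 (Slow Cost)
open Vale.Agent.P262.H395 (fib mix Inv)
open Vale.Agent.P262.H395.CW (pl nk nk_nil nk_cons OMp OMc Lab SI cons_one cap_le_of_nk)
open Vale.Agent.P262.H44 (InvS)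
open Vale.Agent.P262.H439 (qq)
open Vale.Agent.P262.Cons493 (cCons)

namespace Vale.Agent.P262.M2.Sys

variable {E : Type*} [NormedAddCommGroup E] [InnerProductSpace ℝ E] [FiniteDimensional ℝ E]
  [MeasurableSpace E] [BorelSpace E] {S : Sys E}

/-! ### small facts -/

lemma pl_eq_chn_c (p : List ℕ) (m : ℕ) : pl (fun r => S.W r m) p = S.chn p m := by
  induction p with
  | nil => rfl
  | cons c p ih => rw [pl, chn, ih]

lemma W_nil_c (m : ℕ) : S.W [] m = ⊥ := S.K.W_nil _

lemma nk_eq_c (p : List ℕ) (m : ℕ) :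
    nk (fun r => S.W r m) S.A0 S.kap S.qq (ENNReal.ofReal S.b0) p = (S.Z p m)ᶜ := by
  induction p with
  | nil => rw [nk_nil, Z, compl_empty]
  | cons c p ih =>
    rw [nk_cons, ih, Z, compl_union, pl_eq_chn_c]
    congr 1
    ext x
    rw [mem_setOf_eq, mem_compl_iff, mem_setOf_eq, not_lt]
    rfl

lemma A_le_b0_c {p : List ℕ} {m : ℕ} {x : E} (hx : x ∉ S.Z p m) :
    S.A p m x ≤ ENNReal.ofReal S.b0 := by
  have h := cap_le_of_nk (W := fun r => S.W r m) (q := S.qq) (kap := S.kap) S.hA0 (W_nil_c m)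
    (ENNReal.ofReal_le_ofReal S.hAb) (p := p) (x := x) (by rw [nk_eq_c]; exact hx)
  rw [pl_eq_chn_c] at h
  exact h

lemma b0_pos_c : 0 < S.b0 := lt_of_lt_of_le S.hA0 S.hAb

lemma Mb0_c : S.M * S.b0 ≤ 1 / 32 := by
  have h1 := S.hMb
  have h2 : 0 < S.b0 := b0_pos_c
  nlinarith

lemma b0_c : S.b0 ≤ 1 / 64 := by
  have h1 : S.M * S.b0 ≤ 1 / 32 := Mb0_c
  have h2 := S.hM
  have h3 : 0 < S.b0 := b0_pos_c
  nlinarith

lemma thr_zero_c : S.thr 0 = ENNReal.ofReal (1 / 10) := by
  rw [S.hthr 0]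
  norm_num

lemma De_le_Dc_c (p : List ℕ) (m : ℕ) (x : E) : S.De p m x ≤ S.Dc p m x := by
  unfold Dc
  split_ifs with h
  · exact le_rfl
  · exact H395.fib_mono (fun y => indicator_le_indicator_of_subset
      (compl_subset_compl.mpr inter_subset_left) (fun _ => bot_le) y) x

lemma Dc_le_Dw_c {p : List ℕ} {c m k : ℕ} (hk : S.In (S.K.B p c) m k) (x : E) :
    S.Dc p k x ≤ S.Dw p c m x := by
  unfold Dw
  exact Finset.le_sup (f := fun k => S.Dc p k x) (Finset.mem_Icc.mpr hk)

lemma De_le_Dw_c {p : List ℕ} {c m k : ℕ} (hk : S.In (S.K.B p c) m k) (x : E) :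
    S.De p k x ≤ S.Dw p c m x := (De_le_Dc_c p k x).trans (Dc_le_Dw_c hk x)

/-- counted labels have `A ≤ D*` -/
lemma A_le_Dw_c {p : List ℕ} {c m : ℕ} (hm : S.mv.tm m < S.T) {x : E} (hc : S.kl p m x = c)
    (hx : x ∈ S.om p m) : S.A p m x ≤ S.Dw p c m x := by
  obtain ⟨_, h⟩ := hx
  have hself := In.self_c (zero_B_c (S := S) p c) hm
  rcases h with h | h
  · refine h.trans ?_
    have hbe : S.be p m x = S.mv.eS (S.K.B p c) m := by unfold be BB; rw [hc]
    rw [hbe]
    exact De_le_Dw_c ⟨hself.1.trans hself.2, le_rfl⟩ x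
  · have hDb : S.Db p m x = S.Dw p c m x := by unfold Db; rw [hc]
    rw [hDb] at h
    refine le_trans ?_ h
    calc S.A p m x = 1 * S.A p m x := (one_mul _).symm
      _ ≤ ENNReal.ofReal S.M * S.A p m x := by
        gcongr
        rw [← ENNReal.ofReal_one]
        exact ENNReal.ofReal_le_ofReal (by linarith [S.hM])

/-- labels of class `0` which are not killed are counted -/
lemma om_of_zero_c {p : List ℕ} {m : ℕ} {x : E} (h0 : S.kl p m x = 0) (hx : x ∉ S.Z p m) :
    x ∈ S.om p m := by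
  have hA := A_le_b0_c hx
  have h1 := kl_mem_c (S := S) p m x
  rw [h0, thr_zero_c] at h1
  have hD : ENNReal.ofReal (1 / 10) ≤ S.Dw p 0 m x := by
    rcases h1 with h | h
    · exact h
    · exfalso
      have h2 := h.trans hA
      rw [ENNReal.ofReal_le_ofReal_iff (b0_pos_c (S := S)).le] at h2
      linarith [b0_c (S := S)]
  refine ⟨hx, Or.inr ?_⟩
  have hDb : S.Db p m x = S.Dw p 0 m x := by unfold Db; rw [h0]
  rw [hDb]
  refine le_trans ?_ hD
  calc ENNReal.ofReal S.M * S.A p m x ≤ ENNReal.ofReal S.M * ENNReal.ofReal S.b0 := by gcongr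
    _ = ENNReal.ofReal (S.M * S.b0) := (ENNReal.ofReal_mul (by linarith [S.hM])).symm
    _ ≤ _ := ENNReal.ofReal_le_ofReal (by linarith [Mb0_c (S := S)])

/-- labels of class at least one have small deficit on the coarse window -/
lemma good_of_pos_c {p : List ℕ} {m k : ℕ} {x : E} (h0 : S.kl p m x ≠ 0)
    (hk : S.In (S.K.B p 0) m k) : S.De p k x ≤ ENNReal.ofReal (1 / 10) := by
  have h1 := (kl_lt_c (S := S) (Nat.pos_of_ne_zero h0)).1
  rw [thr_zero_c] at h1
  exact (De_le_Dw_c hk x).trans h1.le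

/-- strictly increasing label spaces along a non leaf path -/
lemma SI_c {q : List ℕ} {m : ℕ} (hm : S.mv.tm m < S.T) (hq : ¬ S.Leaf q m) :
    SI (fun r => S.W r m) q := by
  intro d r hr
  have hle : S.W r m ≤ S.W (d :: r) m := S.K.W_le d r _
  have hrq : S.W r m ≤ S.W q m := S.K.W_mono ((List.suffix_cons d r).trans hr) _
  have h2 : 2 ≤ Module.finrank ℝ (S.W r m)ᗮ := by
    have h3 : 2 ≤ Module.finrank ℝ (S.W q m)ᗮ := by
      unfold Leaf at hq
      omega
    exact h3.trans (Submodule.finrank_mono (Submodule.orthogonal_le hrq))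
  have h4 := (S.K.dim_child (c := d) (p := r) hm h2).1
  refine lt_of_le_of_ne hle fun h => ?_
  have h5 : S.K.W r (S.mv.tm m) = S.K.W (d :: r) (S.mv.tm m) := h
  rw [← h5] at h4
  omega

/-! ### unit factor with a fixed class -/

open Classical in
/-- `ψ` with the class `c` -/
noncomputable def psiC (S : Sys E) (p : List ℕ) (c m : ℕ) (x : E) : ℝ≥0∞ :=
  if c = 0 then
    (if 2 * S.q0 ≤ (Finset.Icc (S.mv.sS (S.K.B p c) m) (S.mv.eS (S.K.B p c) m)).sup
      fun k => S.q p k x then 1 else 0)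
  else S.Dw p c m x ^ (1 - S.th)

lemma psi_eq_c {p : List ℕ} {c m : ℕ} {x : E} (h : S.kl p m x = c) :
    S.psi p m x = S.psiC p c m x := by
  unfold psi psiC qb bs be BB Db
  rw [h]

lemma psiC_In_c {p : List ℕ} {c m k : ℕ} (hm : S.mv.tm m < S.T)
    (hk : S.In (S.K.B p c) m k) (x : E) : S.psiC p c k x = S.psiC p c m x := by
  have h := In.same_c (zero_B_c p c) hm hk
  unfold psiC
  rw [h.1, h.2, Dw_In_c hm hk]

lemma measurable_psiC_c (p : List ℕ) (c m : ℕ) : Measurable (S.psiC p c m) := by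
  unfold psiC
  by_cases hc : c = 0
  · simp only [hc, if_true]
    refine Measurable.ite ?_ measurable_const measurable_const
    refine measurableSet_le measurable_const ?_
    simp_rw [Finset.sup_eq_iSup]
    refine Measurable.iSup fun k => ?_
    by_cases hk : k ∈ Finset.Icc (S.mv.sS (S.K.B p 0) m) (S.mv.eS (S.K.B p 0) m)
    · simp only [hk, iSup_pos]
      exact measurable_q_c p k
    · simp only [hk, iSup_false]
      exact measurable_const
  · simp only [hc, if_false]
    exact (measurable_Dw_c p c m).pow_const _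

/-- the region of the path `p` with class `c` at state `m` -/
noncomputable def Rg (S : Sys E) (p : List ℕ) (c m : ℕ) : Set E :=
  OMc (fun r => S.kl r m) (fun r => S.om r m) p c

/-- unit of a window without its cost -/
noncomputable def Vc (S : Sys E) (p : List ℕ) (c m : ℕ) : ℝ≥0∞ :=
  ∫⁻ x, (S.Rg p c m).indicator 1 x * (S.As S.th p m x * S.psiC p c m x) ∂stdGaussian E

lemma Vc_In_c {p : List ℕ} {c m k : ℕ} (hm : S.mv.tm m < S.T)
    (hk : S.In (S.K.B p c) m k) : S.Vc p c k = S.Vc p c m := by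
  unfold Vc Rg
  rw [OMc_In_c hm hk, As_In_c (S.K.nw_sub_B p c) hm hk]
  simp_rw [psiC_In_c hm hk]

/-- constants needed for CONS -/
structure ConsC (S : Sys E) : Prop where
  qq : 2 * (Real.sqrt 2 * Real.exp (-(S.qq / 4))) ≤ 1 / 41
  kap : S.kap ≤ 1 / 100
  q0 : 2 * S.q0 ≤ ENNReal.ofReal (Real.exp (-1418))

/-- **one life of a child**: `m` = any state of the life of `c :: p` (coordinates of the child),
start of the life in the formula -/
theorem cons_life (H : S.ConsC) {p : List ℕ} {c m : ℕ} (hroot : ∀ x, S.kl [] m x ≠ 0)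
    (hm : S.mv.tm m < S.T) (hq : ¬ S.Leaf (c :: p) m) :
    ∫⁻ x, (S.Rg p c m).indicator 1 x * S.ent (c :: p) m x ∂stdGaussian E ≤
      ENNReal.ofReal (cCons *
        (S.kap ^ (Module.finrank ℝ (S.W (c :: p) m) - Module.finrank ℝ (S.W p m))) ^ S.th) *
        S.Vc p c m := by
  set m1 := S.l1 (c :: p) m with hm1
  have h0q := zero_nw_c (S := S) (c :: p)
  have hin : S.In (S.K.nw (c :: p)) m m1 :=
    ⟨(S.mv.sS_le _ m).trans (S.mv.le_eS h0q hm), le_rfl⟩
  have hsuf : p <:+ c :: p := List.suffix_cons c p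
  have hinB : S.In (S.K.B p c) m m1 := hin.mono_c (S.K.B_sub_nw p c) (zero_B_c p c) hm
  -- the last state of the life is in the coarse windows of all ancestors
  have hinr : ∀ r, r <:+ p → S.In (S.K.B r 0) m m1 := by
    intro r hr
    rcases eq_or_ne r p with rfl | hne
    · exact hinB.mono_c (S.K.B_mono r (Nat.zero_le c)) (zero_B_c r 0) hm
    · obtain ⟨u, hu⟩ := hr
      rcases List.eq_nil_or_concat u with h6 | ⟨u', d, h6⟩
      · exact absurd (by rw [h6] at hu; simpa using hu) hne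
      · have h7 : (d :: r) <:+ p := ⟨u', by rw [← hu, h6]; simp⟩
        have h8 : S.K.B r d ⊆ S.K.nw (c :: p) :=
          (S.K.B_sub_nw r d).trans (S.K.nw_mono (h7.trans hsuf))
        exact (hin.mono_c h8 (zero_B_c r d) hm).mono_c (S.K.B_mono r (Nat.zero_le d))
          (zero_B_c r 0) hm
  have hWr : ∀ r, r <:+ c :: p → S.W r m1 = S.W r m := fun r hr =>
    W_suffix_c hr subset_rfl hm hin
  have hfibc : ∀ r, r <:+ c :: p → ∀ x,
      fib (S.W r m) ((S.X (c :: p) m1)ᶜ.indicator 1) x = S.De r m1 x := by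
    intro r hr x
    have h := S.mv.fib_Bd_compl (fun t => M1.measurableSet_body S.v S.R t) m1 hr x
    rw [← hWr r hr]
    exact h
  have hfib : ∀ r, r <:+ c :: p → ∀ x,
      fib (S.W r m) ((S.X (c :: p) m1).indicator 1) x = S.q r m1 x := by
    intro r hr x
    have h := S.mv.fib_Bd (fun t => M1.measurableSet_body S.v S.R t) m1 hr x
    rw [← hWr r hr]
    exact h
  have hDsuf : ∀ x, fib (S.W p m) ((S.X (c :: p) m)ᶜ.indicator 1) x = S.De p m x := fun x =>
    S.mv.fib_Bd_compl (fun t => M1.measurableSet_body S.v S.R t) m hsuf x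
  have hself := In.self_c (zero_B_c (S := S) p c) hm
  have h := cons_one (W := fun r => S.W r m) (cls := fun r => S.kl r m) (om := fun r => S.om r m)
    (p := p) (A0 := S.A0) (kap := S.kap) (q := S.qq) (th := S.th) (b0 := ENNReal.ofReal S.b0)
    (c := c) (W_nil_c m) (SI_c hm hq) (lab_c hm) S.hqq.le H.qq S.hth S.hth1 S.hA0 S.hkap H.kap
    (ENNReal.ofReal_le_ofReal S.hAb) ENNReal.ofReal_ne_top (Ks := S.X (c :: p) m)
    (Ke := S.X (c :: p) m1) (measurableSet_X_c _ _)
    (S.mv.isClosed_Bd (fun t => M1.isClosed_body S.v S.R t) _ _)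
    (S.mv.convex_Bd (fun t => M1.convex_body S.v S.R t) _ _)
    (S.mv.Bd_subset_ball (fun t => M1.body_subset S.v S.R t) _ _) hroot
    (fun r _ x hx => by
      have h := A_le_b0_c (S := S) (p := r) (m := m) (x := x) hx.1
      rw [mem_setOf_eq, pl_eq_chn_c]
      exact h)
    (fun r _ x h0 hx => by
      rw [nk_eq_c] at hx
      exact om_of_zero_c h0 hx)
    (fun r hr x h0 hx => by
      rw [hfibc r (hr.trans hsuf) x]
      exact (good_of_pos_c h0 (hinr r hr)).trans (ENNReal.ofReal_le_ofReal (by norm_num)))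
    (psi := S.psiC p c m) (measurable_psiC_c p c m)
    (fun hc x _ hx => by
      subst hc
      have h1 : ENNReal.ofReal (Real.exp (-1418)) ≤ S.q p m1 x := by
        rw [← hfib p hsuf x]
        exact hx
      have h2 : 2 * S.q0 ≤ (Finset.Icc (S.mv.sS (S.K.B p 0) m) (S.mv.eS (S.K.B p 0) m)).sup
          fun k => S.q p k x :=
        (H.q0.trans h1).trans (Finset.le_sup (f := fun k => S.q p k x)
          (Finset.mem_Icc.mpr hinB))
      unfold psiC
      rw [if_pos rfl, if_pos h2])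
    (fun hc x _ => by
      rw [hDsuf x]
      unfold psiC
      rw [if_neg hc]
      have h1 := S.hth1
      exact ENNReal.rpow_le_rpow (De_le_Dw_c hself x) (by linarith))
    (fun hc x hx => by
      have h2 : S.A p m x ≤ S.Dw p c m x :=
        A_le_Dw_c hm hx.2 (hx.1.2 p (List.suffix_refl _))
      unfold psiC
      rw [if_neg hc, pl_eq_chn_c]
      have h1 := S.hth1
      exact ENNReal.rpow_le_rpow h2 (by linarith))
  rw [pl_eq_chn_c, pl_eq_chn_c] at h
  refine le_trans (le_of_eq ?_) h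
  refine lintegral_congr fun x => ?_
  unfold ent Rg
  rw [show S.q (c :: p) (S.l1 (c :: p) m) x = H439.qq (S.W (c :: p) m) (S.X (c :: p) m1) x from
    (hfib (c :: p) (List.suffix_refl _) x).symm]
  rfl

end Vale.Agent.P262.M2.Sys
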