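import Mathlib
import Vale.Agent.P262.H395.CS1

/-!
# P262, milestone 2, block CONS on the system, part 2: decomposition of `U` and `B` over the nodes, and
the conservation inequality `B (j+1) ≤ κ U j`
-/

set_option linter.all false

open MeasureTheory ProbabilityTheory Set
open scoped ENNReal RealInnerProductSpace
open Vale.Agent.P262.H118 (Iv st en K2 El2 paths mem_paths st_mem st_le lt_en iv_en en_le
  sum_regroup_all)
open Vale.Agent.P262.H274 (Slow Cost)
open Vale.Agent.P262.H395 (fib mix Inv)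
open Vale.Agent.P262.H395.CW (pl nk OMp OMc Lab SI cons_sum)
open Vale.Agent.P262.Cons493 (cCons cCons_pos)

namespace Vale.Agent.P262.M2.Sys

variable {E : Type*} [NormedAddCommGroup E] [InnerProductSpace ℝ E] [FiniteDimensional ℝ E]
  [MeasurableSpace E] [BorelSpace E] {S : Sys E}

/-! ### paths of labels -/

lemma nd_succ_c (m : ℕ) (x : E) (j : ℕ) :
    S.nd m x (j + 1) = S.kl (S.nd m x j) m x :: S.nd m x j := rfl

lemma length_nd_c (m : ℕ) (x : E) (j : ℕ) : (S.nd m x j).length = j := by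
  induction j with
  | zero => rfl
  | succ j ih => rw [nd_succ_c, List.length_cons, ih]

lemma nd_suffix_c (m : ℕ) (x : E) {i j : ℕ} (h : i ≤ j) : S.nd m x i <:+ S.nd m x j := by
  induction j, h using Nat.le_induction with
  | base => exact List.suffix_refl _
  | succ j _ ih => exact ih.trans (by rw [nd_succ_c]; exact List.suffix_cons _ _)

lemma nd_eq_iff_c {m : ℕ} {x : E} (p : List ℕ) :
    S.nd m x p.length = p ↔ ∀ d r, (d :: r) <:+ p → S.kl r m x = d := by
  induction p with
  | nil =>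
    constructor
    · intro _ d r h
      have := h.length_le
      simp at this
    · intro _; rfl
  | cons c p ih =>
    rw [List.length_cons, nd_succ_c, List.cons.injEq]
    constructor
    · rintro ⟨h1, h2⟩ d r hr
      rw [h2] at h1
      rcases List.suffix_cons_iff.mp hr with h | h
      · rw [List.cons.injEq] at h
        obtain ⟨rfl, rfl⟩ := h
        exact h1
      · exact ih.mp h2 d r h
    · intro h
      have h2 : S.nd m x p.length = p := ih.mpr fun d r hr => h d r (hr.trans (List.suffix_cons c p))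
      refine ⟨?_, h2⟩
      rw [h2]
      exact h c p (List.suffix_refl _)

lemma mem_nd_c {m : ℕ} {x : E} {j : ℕ} : ∀ c ∈ S.nd m x j, c ≤ S.cm := by
  induction j with
  | zero => intro c hc; simp [nd, nb] at hc
  | succ j ih =>
    intro c hc
    rw [nd_succ_c] at hc
    rcases List.mem_cons.mp hc with rfl | h
    · exact kl_le_cm_c _ _ _
    · exact ih c h

/-- the counted region of a node with a class -/
lemma mem_Rg_iff_c {m : ℕ} {x : E} {j c : ℕ} {p : List ℕ} (hp : p.length = j) :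
    x ∈ S.Rg p c m ↔ x ∈ S.OL (j + 1) m ∧ S.nd m x (j + 1) = c :: p := by
  constructor
  · rintro ⟨⟨h1, h2⟩, h3⟩
    have h4 : S.nd m x p.length = p := (nd_eq_iff_c p).mpr h1
    rw [hp] at h4
    refine ⟨fun i hi => ?_, ?_⟩
    · have h5 := nd_suffix_c (S := S) m x (show i ≤ j by omega)
      rw [h4] at h5
      exact h2 _ h5
    · rw [nd_succ_c, h4, show S.kl p m x = c from h3]
  · rintro ⟨h1, h2⟩
    rw [nd_succ_c, List.cons.injEq] at h2
    obtain ⟨h3, h4⟩ := h2
    rw [h4] at h3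
    have h5 : S.nd m x p.length = p := by rw [hp]; exact h4
    have h6 := (nd_eq_iff_c p).mp h5
    refine ⟨⟨h6, fun r hr => ?_⟩, h3⟩
    have h7 : S.nd m x r.length = r :=
      (nd_eq_iff_c r).mpr fun d s hs => h6 d s (hs.trans hr)
    have h8 := h1 r.length (by have := hr.length_le; omega)
    rwa [h7] at h8

/-- nodes of level `j` with a class -/
noncomputable def PC (S : Sys E) (j : ℕ) : Finset (ℕ × List ℕ) :=
  Finset.range (S.cm + 1) ×ˢ (paths S.cm j).filter fun p => p.length = j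

lemma mem_PC_c {j c : ℕ} {p : List ℕ} : (c, p) ∈ S.PC j → p.length = j := by
  intro h
  unfold PC at h
  rw [Finset.mem_product, Finset.mem_filter] at h
  exact h.2.2

lemma nd_mem_PC_c (m : ℕ) (x : E) (j : ℕ) : (S.kl (S.nd m x j) m x, S.nd m x j) ∈ S.PC j := by
  unfold PC
  rw [Finset.mem_product, Finset.mem_filter, Finset.mem_range]
  refine ⟨Nat.lt_succ_of_le (kl_le_cm_c _ _ _), mem_paths.mpr ⟨(length_nd_c m x j).le, mem_nd_c⟩,
    length_nd_c m x j⟩

/-- **decomposition over the nodes of level `j`** -/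
lemma decomp_c (j m : ℕ) (g : ℕ → List ℕ → E → ℝ≥0∞) (x : E) :
    (S.OL (j + 1) m).indicator (fun x => g (S.kl (S.nd m x j) m x) (S.nd m x j) x) x =
      ∑ z ∈ S.PC j, (S.Rg z.2 z.1 m).indicator 1 x * g z.1 z.2 x := by
  by_cases hx : x ∈ S.OL (j + 1) m
  · rw [indicator_of_mem hx, Finset.sum_eq_single_of_mem _ (nd_mem_PC_c m x j)]
    · have h : x ∈ S.Rg (S.nd m x j) (S.kl (S.nd m x j) m x) m :=
        (mem_Rg_iff_c (length_nd_c m x j)).mpr ⟨hx, rfl⟩
      rw [indicator_of_mem h, Pi.one_apply, one_mul]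
    · rintro ⟨c, p⟩ hz hne
      have hp := mem_PC_c hz
      have h : x ∉ S.Rg p c m := by
        intro h
        have h2 := ((mem_Rg_iff_c hp).mp h).2
        rw [nd_succ_c, List.cons.injEq] at h2
        exact hne (by rw [← h2.1, ← h2.2])
      rw [indicator_of_notMem h, zero_mul]
  · rw [indicator_of_notMem hx]
    symm
    refine Finset.sum_eq_zero ?_
    rintro ⟨c, p⟩ hz
    have h : x ∉ S.Rg p c m := fun h => hx ((mem_Rg_iff_c (mem_PC_c hz)).mp h).1
    rw [indicator_of_notMem h, zero_mul]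

/-! ### costs, entrances -/

/-- cost of the class-`c` window of `p` -/
noncomputable def cstC (S : Sys E) (p : List ℕ) (c m : ℕ) : ℝ≥0∞ :=
  ENNReal.ofReal (Cost (S.K.Sw p (st (S.K.B p c) (S.mv.tm m)) (S.N c)) S.ρ
    (st (S.K.B p c) (S.mv.tm m)) (en (S.K.B p c) S.T (st (S.K.B p c) (S.mv.tm m))))

lemma measurable_ent_c (q : List ℕ) (m : ℕ) : Measurable (S.ent q m) := by
  unfold ent
  exact (measurable_As_c S.th q m).mul ((((measurable_As_c 1 q m).max
    (measurable_De_c q m)).pow_const _).min (measurable_q_c q _))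

lemma measurableSet_Rg_c {p : List ℕ} {c m : ℕ} (hm : S.mv.tm m < S.T) :
    MeasurableSet (S.Rg p c m) := (lab_c hm).measurable_c c

open Classical in
/-- entrances at one node -/
noncomputable def BtC (S : Sys E) (p : List ℕ) (c : ℕ) : ℝ≥0∞ :=
  ∑ m ∈ Finset.range S.mT, if ¬ S.Leaf (c :: p) m ∧ S.l0 (c :: p) m = m then
    ∫⁻ x, (S.Rg p c m).indicator 1 x * S.ent (c :: p) m x ∂stdGaussian E else 0

open Classical in
/-- units at one node -/
noncomputable def UtC (S : Sys E) (p : List ℕ) (c : ℕ) : ℝ≥0∞ :=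
  ∑ m ∈ Finset.range S.mT, if ¬ S.Leaf p m ∧ S.mv.sS (S.K.B p c) m = m then
    S.cstC p c m * S.Vc p c m else 0

lemma tm_lt_c {m : ℕ} (h : m < S.mT) : S.mv.tm m < S.T := by
  refine S.mv.tm_lt_of_lt ?_
  unfold mT at h
  omega

lemma Bt_eq_c (j : ℕ) : S.Bt (j + 1) = ∑ z ∈ S.PC j, S.BtC z.2 z.1 := by
  classical
  unfold Bt BtC
  rw [Finset.sum_comm]
  refine Finset.sum_congr rfl fun m hm => ?_
  rw [Finset.mem_range] at hm
  have htm := tm_lt_c hm
  set g : ℕ → List ℕ → E → ℝ≥0∞ := fun c p x =>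
    if ¬ S.Leaf (c :: p) m ∧ S.l0 (c :: p) m = m then S.ent (c :: p) m x else 0 with hg
  have hgm : ∀ c p, Measurable (g c p) := by
    intro c p
    simp only [hg]
    by_cases h : ¬ S.Leaf (c :: p) m ∧ S.l0 (c :: p) m = m
    · simp only [h, not_false_eq_true, and_self, if_true]
      exact measurable_ent_c (c :: p) m
    · simp only [h, if_false]
      exact measurable_const
  have e1 : ∀ x, iw (S.NL (j + 1) m ∩ S.OL (j + 1) m ∩
      {x | S.l0 (S.nd m x (j + 1)) m = m}) x * S.ent (S.nd m x (j + 1)) m x =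
      ∑ z ∈ S.PC j, (S.Rg z.2 z.1 m).indicator 1 x * g z.1 z.2 x := by
    intro x
    rw [← decomp_c]
    by_cases h1 : x ∈ S.OL (j + 1) m
    · rw [indicator_of_mem h1]
      simp only [hg]
      by_cases h2 : ¬ S.Leaf (S.nd m x (j + 1)) m ∧ S.l0 (S.nd m x (j + 1)) m = m
      · have h3 : x ∈ S.NL (j + 1) m ∩ S.OL (j + 1) m ∩ {x | S.l0 (S.nd m x (j + 1)) m = m} :=
          ⟨⟨h2.1, h1⟩, h2.2⟩
        unfold iw
        rw [indicator_of_mem h3, Pi.one_apply, one_mul]
        exact (if_pos h2).symm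
      · have h3 : x ∉ S.NL (j + 1) m ∩ S.OL (j + 1) m ∩ {x | S.l0 (S.nd m x (j + 1)) m = m} :=
          fun h => h2 ⟨h.1.1, h.2⟩
        unfold iw
        rw [indicator_of_notMem h3, zero_mul]
        exact (if_neg h2).symm
    · have h3 : x ∉ S.NL (j + 1) m ∩ S.OL (j + 1) m ∩ {x | S.l0 (S.nd m x (j + 1)) m = m} :=
        fun h => h1 h.1.2
      unfold iw
      rw [indicator_of_notMem h1, indicator_of_notMem h3, zero_mul]
  simp_rw [e1]
  have hmz : ∀ z ∈ S.PC j, Measurable fun x =>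
      (S.Rg z.2 z.1 m).indicator (1 : E → ℝ≥0∞) x * g z.1 z.2 x := fun z _ =>
    (measurable_one.indicator (measurableSet_Rg_c htm)).mul (hgm z.1 z.2)
  rw [lintegral_finset_sum _ hmz]
  refine Finset.sum_congr rfl fun z _ => ?_
  simp only [hg]
  by_cases h : ¬ S.Leaf (z.1 :: z.2) m ∧ S.l0 (z.1 :: z.2) m = m
  · simp only [h, not_false_eq_true, and_self, if_true]
  · simp only [h, if_false, mul_zero, lintegral_zero]

lemma Ut_eq_c (j : ℕ) : S.Ut j = ∑ z ∈ S.PC j, S.UtC z.2 z.1 := by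
  classical
  unfold Ut UtC
  rw [Finset.sum_comm]
  refine Finset.sum_congr rfl fun m hm => ?_
  rw [Finset.mem_range] at hm
  have htm := tm_lt_c hm
  set g : ℕ → List ℕ → E → ℝ≥0∞ := fun c p x =>
    if ¬ S.Leaf p m ∧ S.mv.sS (S.K.B p c) m = m then
      S.cstC p c m * (S.As S.th p m x * S.psiC p c m x) else 0 with hg
  have hgm : ∀ c p, Measurable (g c p) := by
    intro c p
    simp only [hg]
    by_cases h : ¬ S.Leaf p m ∧ S.mv.sS (S.K.B p c) m = m
    · simp only [h, not_false_eq_true, and_self, if_true]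
      exact ((measurable_As_c S.th p m).mul (measurable_psiC_c p c m)).const_mul _
    · simp only [h, if_false]
      exact measurable_const
  have hOL : ∀ x, x ∈ S.OL (j + 1) m ↔ x ∈ S.OL j m ∧ x ∈ S.om (S.nd m x j) m := by
    intro x
    constructor
    · intro h
      exact ⟨fun i hi => h i (by omega), h j (by omega)⟩
    · rintro ⟨h1, h2⟩ i hi
      rcases Nat.lt_succ_iff_lt_or_eq.mp hi with h | rfl
      · exact h1 i h
      · exact h2
  have e1 : ∀ x, iw (S.NL j m ∩ S.OL j m ∩ {x | x ∈ S.om (S.nd m x j) m ∧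
      S.bs (S.nd m x j) m x = m}) x * S.un (S.nd m x j) m x =
      ∑ z ∈ S.PC j, (S.Rg z.2 z.1 m).indicator 1 x * g z.1 z.2 x := by
    intro x
    rw [← decomp_c]
    by_cases h1 : x ∈ S.OL (j + 1) m
    · rw [indicator_of_mem h1]
      obtain ⟨h5, h6⟩ := (hOL x).mp h1
      simp only [hg]
      by_cases h2 : ¬ S.Leaf (S.nd m x j) m ∧
          S.mv.sS (S.K.B (S.nd m x j) (S.kl (S.nd m x j) m x)) m = m
      · have h3 : x ∈ S.NL j m ∩ S.OL j m ∩ {x | x ∈ S.om (S.nd m x j) m ∧
            S.bs (S.nd m x j) m x = m} := ⟨⟨h2.1, h5⟩, h6, h2.2⟩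
        unfold iw
        rw [indicator_of_mem h3, Pi.one_apply, one_mul, if_pos h2]
        unfold un
        rw [psi_eq_c rfl, mul_assoc]
        rfl
      · have h3 : x ∉ S.NL j m ∩ S.OL j m ∩ {x | x ∈ S.om (S.nd m x j) m ∧
            S.bs (S.nd m x j) m x = m} := fun h => h2 ⟨h.1.1, h.2.2⟩
        unfold iw
        rw [indicator_of_notMem h3, zero_mul, if_neg h2]
    · have h3 : x ∉ S.NL j m ∩ S.OL j m ∩ {x | x ∈ S.om (S.nd m x j) m ∧
          S.bs (S.nd m x j) m x = m} := fun h => h1 ((hOL x).mpr ⟨h.1.2, h.2.1⟩)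
      unfold iw
      rw [indicator_of_notMem h1, indicator_of_notMem h3, zero_mul]
  simp_rw [e1]
  have hmz : ∀ z ∈ S.PC j, Measurable fun x =>
      (S.Rg z.2 z.1 m).indicator (1 : E → ℝ≥0∞) x * g z.1 z.2 x := fun z _ =>
    (measurable_one.indicator (measurableSet_Rg_c htm)).mul (hgm z.1 z.2)
  rw [lintegral_finset_sum _ hmz]
  refine Finset.sum_congr rfl fun z _ => ?_
  simp only [hg]
  by_cases h : ¬ S.Leaf z.2 m ∧ S.mv.sS (S.K.B z.2 z.1) m = m
  · simp only [h, not_false_eq_true, and_self, if_true]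
    unfold Vc
    rw [← lintegral_const_mul]
    · refine lintegral_congr fun x => ?_
      ring
    · exact (measurable_one.indicator (measurableSet_Rg_c htm)).mul
        ((measurable_As_c S.th z.2 m).mul (measurable_psiC_c z.2 z.1 m))
  · simp only [h, if_false, mul_zero, lintegral_zero]

/-! ### one node -/

lemma n_lt_mT_c {a : ℕ} (ha : a < S.T) : S.mv.n a < S.mT := by
  have h1 := S.mv.n_succ a
  have h2 := S.mv.n_mono (Nat.succ_le_of_lt ha)
  rw [Nat.succ_eq_add_one] at h2
  unfold mT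
  omega

/-- a sum over the first states of the intervals of a partition -/
lemma sum_first_c {B : Set ℕ} (h0 : 0 ∈ B) (F : ℕ → ℝ≥0∞) (hF : ∀ m, S.mv.sS B m ≠ m → F m = 0) :
    ∑ m ∈ Finset.range S.mT, F m = ∑ a ∈ Finset.range S.T, B.indicator (fun a => F (S.mv.n a)) a := by
  classical
  have hinj : ∀ a ∈ Finset.range S.T, ∀ b ∈ Finset.range S.T, S.mv.n a = S.mv.n b → a = b :=
    fun a _ b _ h => S.mv.n_strictMono.injective h
  have e1 : ∑ a ∈ Finset.range S.T, B.indicator (fun a => F (S.mv.n a)) a =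
      ∑ a ∈ Finset.range S.T, F (S.mv.n a) := by
    refine Finset.sum_congr rfl fun a ha => ?_
    by_cases hB : a ∈ B
    · rw [indicator_of_mem hB]
    · rw [indicator_of_notMem hB]
      symm
      refine hF _ fun h => ?_
      unfold El2.sS at h
      rw [S.mv.tm_n] at h
      have h1 := S.mv.n_strictMono.injective h
      rw [← h1] at hB
      exact hB (st_mem h0 a)
  rw [e1, ← Finset.sum_image hinj]
  symm
  refine Finset.sum_subset ?_ ?_
  · intro m hm
    rw [Finset.mem_image] at hm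
    obtain ⟨a, ha, rfl⟩ := hm
    rw [Finset.mem_range] at ha ⊢
    exact n_lt_mT_c ha
  · intro m hm hm2
    rw [Finset.mem_range] at hm
    refine hF m fun h => hm2 ?_
    rw [Finset.mem_image]
    refine ⟨st B (S.mv.tm m), ?_, h⟩
    rw [Finset.mem_range]
    exact (st_le _).trans_lt (tm_lt_c hm)

/-- the constant of CONS -/
noncomputable def kC (S : Sys E) : ℝ := cCons * (S.kap ^ S.th / S.ρ)

/-- **CONS at one node** -/
theorem BtC_le (H : S.ConsC) (hkρ : S.kap ^ S.th ≤ S.ρ)
    (hroot : ∀ m, m < S.mT → ∀ x, S.kl [] m x ≠ 0) (p : List ℕ) (c : ℕ) :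
    S.BtC p c ≤ ENNReal.ofReal S.kC * S.UtC p c := by
  classical
  unfold BtC UtC
  rw [sum_first_c (zero_nw_c (S := S) (c :: p)) _ (fun m hm => by
    rw [if_neg]
    rintro ⟨_, h⟩
    exact hm h), sum_first_c (zero_B_c (S := S) p c) _ (fun m hm => by
    rw [if_neg]
    rintro ⟨_, h⟩
    exact hm h), sum_regroup_all (zero_B_c (S := S) p c) S.T, Finset.mul_sum]
  refine Finset.sum_le_sum fun s hs => ?_
  rw [Finset.mem_range] at hs
  by_cases hsB : s ∈ S.K.B p c
  swap
  · rw [indicator_of_notMem hsB]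
    exact bot_le
  rw [indicator_of_mem hsB, indicator_of_mem hsB]
  have hiv := iv_en hsB hs
  set e := en (S.K.B p c) S.T s with he
  have htn : S.mv.tm (S.mv.n s) = s := S.mv.tm_n s
  have hst : st (S.K.B p c) s = s := H118.st_eq_self hsB
  have hsS : S.mv.sS (S.K.B p c) (S.mv.n s) = S.mv.n s := by
    unfold El2.sS
    rw [htn, hst]
  -- states of the window
  have hIn : ∀ a, s ≤ a → a < e → S.In (S.K.B p c) (S.mv.n s) (S.mv.n a) := by
    intro a h1 h2
    refine ⟨?_, ?_⟩
    · rw [hsS]; exact S.mv.n_mono h1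
    · unfold El2.eS
      rw [htn, hst, ← he]
      have := S.mv.n_strictMono h2
      omega
  have htms : S.mv.tm (S.mv.n s) < S.T := by rw [htn]; exact hs
  by_cases hleaf : S.Leaf p (S.mv.n s)
  · -- all children are leaves
    have hz : ∀ a ∈ Finset.Ico s e, (S.K.nw (c :: p)).indicator (fun a =>
        if ¬ S.Leaf (c :: p) (S.mv.n a) ∧ S.l0 (c :: p) (S.mv.n a) = S.mv.n a then
          ∫⁻ x, (S.Rg p c (S.mv.n a)).indicator 1 x * S.ent (c :: p) (S.mv.n a) x
            ∂stdGaussian E else 0) a = 0 := by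
      intro a ha
      rw [Finset.mem_Ico] at ha
      by_cases hn : a ∈ S.K.nw (c :: p)
      · rw [indicator_of_mem hn, if_neg]
        rintro ⟨h, _⟩
        apply h
        have h1 : S.W p (S.mv.n a) = S.W p (S.mv.n s) :=
          W_In_c (S.K.nw_sub_B p c) htms (hIn a ha.1 ha.2)
        have h2 : S.W p (S.mv.n a) ≤ S.W (c :: p) (S.mv.n a) := S.K.W_le c p _
        unfold Leaf at hleaf ⊢
        rw [← h1] at hleaf
        exact (Submodule.finrank_mono (Submodule.orthogonal_le h2)).trans hleaf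
      · rw [indicator_of_notMem hn]
    rw [Finset.sum_eq_zero hz]
    exact bot_le
  · rw [if_pos ⟨hleaf, hsS⟩]
    have h2 : 2 ≤ Module.finrank ℝ (S.K.W p s)ᗮ := by
      unfold Leaf W at hleaf
      rw [htn] at hleaf
      omega
    have hcs := cons_sum S.K S.hv S.hδ S.hρ (kap := S.kap) (th := S.th) (CC := cCons) S.hkap hkρ
      cCons_pos.le h2 hiv (F := fun a =>
        if ¬ S.Leaf (c :: p) (S.mv.n a) ∧ S.l0 (c :: p) (S.mv.n a) = S.mv.n a then
          ∫⁻ x, (S.Rg p c (S.mv.n a)).indicator 1 x * S.ent (c :: p) (S.mv.n a) x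
            ∂stdGaussian E else 0) (U := S.Vc p c (S.mv.n s)) (by
        intro a _ ha1 ha2
        by_cases hcond : ¬ S.Leaf (c :: p) (S.mv.n a) ∧ S.l0 (c :: p) (S.mv.n a) = S.mv.n a
        · simp only [hcond, not_false_eq_true, and_self, if_true]
          have haT : a < S.T := lt_of_lt_of_le ha2 (en_le _ _ _)
          have hta : S.mv.tm (S.mv.n a) < S.T := by rw [S.mv.tm_n]; exact haT
          have h3 := cons_life H (hroot (S.mv.n a) (n_lt_mT_c haT)) hta hcond.1
          rw [Vc_In_c htms (hIn a ha1 ha2)] at h3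
          refine h3.trans (le_of_eq ?_)
          unfold W
          rw [S.mv.tm_n]
        · simp only [hcond, if_false]
          exact bot_le)
    refine hcs.trans (le_of_eq ?_)
    unfold cstC kC
    rw [htn, hst, ← he, ← mul_assoc, ← ENNReal.ofReal_mul (by
      have h1 := cCons_pos
      have h2 := S.hρ
      have h3 : 0 ≤ S.kap ^ S.th := Real.rpow_nonneg S.hkap.le _
      positivity)]

/-- **block CONS**: `B (j+1) ≤ κ U j`, `κ = cCons kap^θ / ρ`. -/
theorem cons (H : S.ConsC) (hkρ : S.kap ^ S.th ≤ S.ρ)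
    (hroot : ∀ m, m < S.mT → ∀ x, S.kl [] m x ≠ 0) (j : ℕ) :
    S.Bt (j + 1) ≤ ENNReal.ofReal S.kC * S.Ut j := by
  rw [Bt_eq_c, Ut_eq_c, Finset.mul_sum]
  exact Finset.sum_le_sum fun z _ => BtC_le H hkρ hroot z.2 z.1

end Vale.Agent.P262.M2.Sys
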