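import Vale.Agent.P262.H752.StarS1
import Vale.Agent.P262.H44.WKill

/-!
# P262, milestone 2: the weighted star inequality on a chain of bad labels (path arrays)
-/

set_option linter.all false

open MeasureTheory ProbabilityTheory Set
open scoped ENNReal RealInnerProductSpace

namespace Vale.Agent.P262.H395.ChU

open Vale.Agent.P262.H395 Vale.Agent.P262.H59
open Vale.Agent.P262.H395.KTree (Cyl Hea)
open Vale.Agent.P262.H44 (HKF FlatAt Weight)
open Vale.Agent.P262.H493 (star)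
open Vale.Agent.P262.H713 (im ktm kt Pa Lab Wd mem_im im_mono im_span fib_im fib_im_symm fib_fix)
open Vale.Agent.P262.H752 (kc Wl Bo)

variable {E : Type*} [NormedAddCommGroup E] [InnerProductSpace ℝ E] [FiniteDimensional ℝ E]
  [MeasurableSpace E] [BorelSpace E]

/-! ### transport under an isometry -/

lemma flatAt_im (R : E ≃ₗᵢ[ℝ] E) {ε : ℝ} {w : E → ℝ≥0∞} {W : Submodule ℝ E} (x : E) :
    FlatAt ε w (im R W) (R x) ↔ FlatAt ε (fun y => w (R y)) W x := by
  unfold FlatAt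
  simp only [fib_im]
  exact Iff.rfl

lemma flatAt_fix {R : E ≃ₗᵢ[ℝ] E} {W : Submodule ℝ E} (h : Fixes R W) {ε : ℝ} {w : E → ℝ≥0∞}
    (x : E) : FlatAt ε (fun y => w (R y)) W x ↔ FlatAt ε w W x := by
  have h1 : ∀ f : E → ℝ≥0∞, fib W f x = fib W (fun y => f (R y)) x := fun f =>
    (fib_fix h f x).symm
  unfold FlatAt
  constructor
  · rintro ⟨m, h2, h3⟩
    refine ⟨m, ?_, ?_⟩
    · rw [h1]; exact h2
    · rw [h1]; exact h3
  · rintro ⟨m, h2, h3⟩
    rw [h1] at h2 h3
    exact ⟨m, h2, h3⟩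

lemma hkf_mp (R : E ≃ₗᵢ[ℝ] E) {K : Set E} {v : E} {ε a : ℝ} {w : E → ℝ≥0∞} :
    ∀ {s : KTree E} {x : E} (_ : HKF ((fun y => R y) ⁻¹' K) v ε a (fun y => w (R y)) s x),
    HKF K (R v) ε a w (ktm R s) (R x)
  | KTree.leaf, _, _ => trivial
  | KTree.node W D Z cls sub, x, h => by
    intro hZ
    have hZ' : x ∉ Z := fun h' => hZ (by simpa using h')
    obtain ⟨p, q, r⟩ := h hZ'
    have ec : cls (R.symm (R x)) = cls x := by rw [LinearIsometryEquiv.symm_apply_apply]
    have eD : (R x ∈ R.symm ⁻¹' D) ↔ x ∈ D := by simp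
    refine ⟨fun hh => ?_, fun hD hc => ?_, fun hD => ?_⟩
    · have hh' : x ∈ D ∨ cls x ≠ 0 := by
        rcases hh with h1 | h1
        · exact Or.inl (eD.1 h1)
        · exact Or.inr (fun h2 => h1 (by show cls (R.symm (R x)) = 0; rw [ec]; exact h2))
      obtain ⟨p1, p2⟩ := p hh'
      refine ⟨?_, (flatAt_im R x).2 p2⟩
      rw [H713.frz_ktm, H752.hea_mp]
      exact p1
    · have hD' : x ∉ D := fun h' => hD (eD.2 h')
      have hc' : cls x ≠ 0 := fun h' => hc (by show cls (R.symm (R x)) = 0; rw [ec]; exact h')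
      have q1 := q hD' hc'
      show Hea K (R v) a (ktm R (sub (cls (R.symm (R x))))).frz (im R W) (R x)
      rw [H713.frz_ktm, H752.hea_mp, ec]
      exact q1
    · have hD' : x ∉ D := fun h' => hD (eD.2 h')
      show HKF K (R v) ε a w (ktm R (sub (cls (R.symm (R x))))) (R x)
      rw [ec]
      exact hkf_mp R (r hD')

/-! ### relative coordinates -/

section rel

variable (Q : Pa E)

lemma rl_cons_apply (c : ℕ) (q p : List ℕ) (y : E) :
    Q.rl (c :: q) p y = Q.rl q p (Q.P (c :: q) y) := rfl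

lemma rl_cons_apply' (c : ℕ) (a p : List ℕ) (y : E) :
    Q.rl a (c :: p) y = (Q.P (c :: p)).symm (Q.rl a p y) := rfl

lemma rl_rl (a p : List ℕ) (y : E) : Q.rl p a (Q.rl a p y) = y := by
  simp [Pa.rl]

lemma rl_symm (a p : List ℕ) : (Q.rl a p).symm = Q.rl p a := by
  ext y
  simp [Pa.rl]

lemma fixes_symm {R : E ≃ₗᵢ[ℝ] E} {W : Submodule ℝ E} (h : Fixes R W) : Fixes R.symm W := by
  intro x hx
  have := h x hx
  rw [← this, R.symm_apply_apply, this]

variable {Q}

lemma W_mono (hQ : Q.Ok) {a p : List ℕ} (h : a <:+ p) : Q.W a ≤ Q.W p := by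
  obtain ⟨r, rfl⟩ := h
  induction r with
  | nil => exact le_rfl
  | cons c r ih => exact ih.trans (hQ.le c _)

lemma fixes_rl (hQ : Q.Ok) {a p : List ℕ} (h : a <:+ p) : Fixes (Q.rl p a) (Q.W a) := by
  obtain ⟨r, rfl⟩ := h
  induction r with
  | nil =>
    intro x _
    simp [Pa.rl]
  | cons c r ih =>
    intro x hx
    have h1 : Q.P (c :: (r ++ a)) x = x :=
      hQ.fix c _ x (W_mono hQ (List.suffix_append r a) hx)
    show Q.rl (c :: (r ++ a)) a x = x
    rw [rl_cons_apply, h1]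
    exact ih x hx

lemma fixes_rl' (hQ : Q.Ok) {a p : List ℕ} (h : a <:+ p) : Fixes (Q.rl a p) (Q.W a) := by
  rw [← rl_symm]
  exact fixes_symm (fixes_rl hQ h)

lemma word_rl {w : List ℕ → E} (hw : Wd Q w) (a p : List ℕ) : Q.rl a p (w a) = w p := by
  have h : ∀ q, Q.S q (w q) = w [] := by
    intro q
    induction q with
    | nil => rfl
    | cons c q ih =>
      rw [Pa.S_cons]
      show Q.S q (Q.P (c :: q) (w (c :: q))) = w []
      rw [hw.eq, ih]
  show (Q.S p).symm (Q.S a (w a)) = w p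
  rw [h a, ← h p, LinearIsometryEquiv.symm_apply_apply]

lemma body_rl {K : List ℕ → Set E} (hK : Bo Q K) (a p : List ℕ) :
    (fun y => Q.rl a p y) ⁻¹' K p = K a := by
  have h : ∀ q, K q = (fun y => Q.S q y) ⁻¹' K [] := by
    intro q
    induction q with
    | nil => rfl
    | cons c q ih =>
      rw [hK.eq, ih]
      rfl
  rw [h p, h a]
  ext y
  simp [Pa.rl]

lemma mem_fix {R : E ≃ₗᵢ[ℝ] E} {W : Submodule ℝ E} (h : Fixes R W) {A : Set E} (hA : Cyl W A)
    (x : E) : R x ∈ A ↔ x ∈ A := hA.mem_iff (h.proj x)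

end rel

variable {Q : Pa E} {D Z : List ℕ → Set E} {cls : List ℕ → E → ℕ} {K : List ℕ → Set E}
  {wv : List ℕ → E} {w : E → ℝ≥0∞} {ε : ℝ} {N : ℕ} {a p : List ℕ} {c' : ℕ}

/-- conditions at the nodes of the chain -/
structure NodC (Q : Pa E) (D Z : List ℕ → Set E) (cls : List ℕ → E → ℕ) (K : List ℕ → Set E)
    (wv : List ℕ → E) (w : E → ℝ≥0∞) (ε : ℝ) (N : ℕ) (p : List ℕ) (Ch : List ℕ → Prop) :
    Prop where
  good : ∀ n q, Ch q → n + 1 + q.length = N → ∀ x, x ∉ Z q → x ∈ D q →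
    Hea (K q) (wv q) (4 / 5) (kc Q D Z cls n q 0).frz (Q.W q) x
  flat : ∀ q, Ch q → ∀ x, x ∉ Z q → x ∈ D q → FlatAt ε (fun y => w (Q.rl q p y)) (Q.W q) x
  bad : ∀ q, Ch q → ∀ x, x ∉ Z q → x ∉ D q → cls q x = 0
  step : ∀ q, Ch q → ¬ Q.lf q → Ch (0 :: q)

open Classical in
lemma hkf_kt {Ch : List ℕ → Prop} (hw : Wd Q wv) (hK : Bo Q K) {aa : ℝ}
    (h : NodC Q D Z cls K wv w ε N p Ch) : ∀ (n : ℕ) (q : List ℕ), Ch q → n + q.length = N →
    ∀ x, HKF (K q) (wv q) ε aa (fun y => w (Q.rl q p y)) (kt Q D Z cls n q) x := by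
  intro n
  induction n with
  | zero => intro q _ _ x; trivial
  | succ n ih =>
    intro q hq hN x
    rw [H752.kt_succ']
    intro hZ
    refine ⟨fun hh => ?_, fun hD hc => absurd (h.bad q hq x hZ hD) hc, fun hD => ?_⟩
    · have hD : x ∈ D q := by
        by_contra hD
        rcases hh with h1 | h1
        · exact hD h1
        · exact h1 (h.bad q hq x hZ hD)
      exact ⟨h.good n q hq (by omega) x hZ hD, h.flat q hq x hZ hD⟩
    · rw [h.bad q hq x hZ hD]
      unfold kc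
      by_cases hl : Q.lf q
      · rw [if_pos hl]; trivial
      · rw [if_neg hl]
        have h1 := ih (0 :: q) (h.step q hq hl) (by rw [List.length_cons]; omega)
          ((Q.P (0 :: q)).symm x)
        rw [hK.eq 0 q] at h1
        have h2 := hkf_mp (Q.P (0 :: q)) (K := K q) (v := wv (0 :: q)) (ε := ε) (a := aa)
          (w := fun y => w (Q.rl q p y)) h1
        rw [hw.eq, LinearIsometryEquiv.apply_symm_apply] at h2
        exact h2

open Classical in
lemma hkf_kc {Ch : List ℕ → Prop} (hw : Wd Q wv) (hK : Bo Q K) {aa : ℝ}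
    (h : NodC Q D Z cls K wv w ε N p Ch) {n k : ℕ} {q : List ℕ} (hq : Ch (k :: q))
    (hN : n + 1 + q.length = N) (x : E) :
    HKF (K q) (wv q) ε aa (fun y => w (Q.rl q p y)) (kc Q D Z cls n q k) x := by
  unfold kc
  by_cases hl : Q.lf q
  · rw [if_pos hl]; trivial
  · rw [if_neg hl]
    have h1 := hkf_kt (aa := aa) hw hK h n (k :: q) hq (by rw [List.length_cons]; omega)
      ((Q.P (k :: q)).symm x)
    rw [hK.eq k q] at h1
    have h2 := hkf_mp (Q.P (k :: q)) (K := K q) (v := wv (k :: q)) (ε := ε) (a := aa)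
      (w := fun y => w (Q.rl q p y)) h1
    rw [hw.eq, LinearIsometryEquiv.apply_symm_apply] at h2
    exact h2

/-! ### the ends of the lines -/

open Classical in
lemma online_kt (hw : Wl Q wv N) (hK : Bo Q K) {r s Lam : ℝ}
    (hr : ∀ q, Q.W q = Hp (wv q) → ∀ x, x ∉ Z q → x ∉ D q → OnLine (K q) (wv q) r s Lam x) :
    ∀ (n : ℕ) (q : List ℕ), n + 1 + q.length = N → ∀ x ∈ (kt Q D Z cls (n + 1) q).reg,
      OnLine (K q) (wv q) r s Lam x := by
  intro n
  induction n with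
  | zero =>
    intro q hN x hx
    have hl := hw.deep q (by omega)
    exact hr q (hw.leaf q hl) x hx.2.1 hx.1
  | succ n ih =>
    intro q hN x hx
    rw [H752.kt_succ'] at hx
    obtain ⟨hD, hZ, hx⟩ := hx
    by_cases hl : Q.lf q
    · exact hr q (hw.leaf q hl) x hZ hD
    · unfold kc at hx
      rw [if_neg hl, H713.reg_ktm] at hx
      have h1 := ih (cls q x :: q) (by rw [List.length_cons]; omega) _ hx
      rw [hK.eq, ← H752.onLine_mp, hw.eq, LinearIsometryEquiv.apply_symm_apply] at h1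
      exact h1

end Vale.Agent.P262.H395.ChU
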