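import Vale.Agent.P262.H395.ChU1

/-!
# P262, milestone 2: the weighted star inequality on a chain of bad labels (path arrays), part 2
-/

set_option linter.all false

open MeasureTheory ProbabilityTheory Set
open scoped ENNReal RealInnerProductSpace

namespace Vale.Agent.P262.H395.ChU

open Vale.Agent.P262.H395 Vale.Agent.P262.H59
open Vale.Agent.P262.H395.KTree (Cyl Hea)
open Vale.Agent.P262.H44 (HKF FlatAt Weight)
open Vale.Agent.P262.H493 (star)
open Vale.Agent.P262.H713 (im ktm kt Pa Lab Wd mem_im im_mono im_span fib_im fib_im_symm fib_fix)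
open Vale.Agent.P262.H752 (kc Wl Bo)

variable {E : Type*} [NormedAddCommGroup E] [InnerProductSpace ℝ E] [FiniteDimensional ℝ E]
  [MeasurableSpace E] [BorelSpace E]

variable {Q : Pa E} {D Z : List ℕ → Set E} {cls : List ℕ → E → ℕ} {K : List ℕ → Set E}
  {wv : List ℕ → E} {w : E → ℝ≥0∞} {ε : ℝ} {N : ℕ} {a p : List ℕ} {c' : ℕ}

/-- the chain between `a` and `p` -/
def ChnP (D Z : List ℕ → Set E) (a p : List ℕ) : Set E :=
  {y | ∀ r, a <:+ r → r ≠ a → r <:+ p → y ∉ D r ∧ y ∉ Z r}

lemma mem_ChnP_cons {c : ℕ} (h : a <:+ p) (z : E) :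
    z ∈ ChnP D Z a (c :: p) ↔ z ∈ ChnP D Z a p ∧ z ∉ D (c :: p) ∧ z ∉ Z (c :: p) := by
  constructor
  · intro hz
    refine ⟨fun r h1 h2 h3 => hz r h1 h2 (h3.trans (List.suffix_cons c p)), ?_⟩
    refine hz (c :: p) (h.trans (List.suffix_cons c p)) ?_ (List.suffix_refl _)
    intro he
    have h1 := h.length_le
    rw [← he] at h1
    simp at h1
  · rintro ⟨h1, h2⟩ r h3 h4 h5
    rcases List.suffix_cons_iff.1 h5 with h6 | h6
    · rw [h6]; exact h2
    · exact h1 r h3 h4 h6

lemma ChnP_self (z : E) : z ∈ ChnP D Z a a := by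
  intro r h1 h2 h3
  exact absurd (h3.eq_of_length (le_antisymm h3.length_le h1.length_le)) h2

lemma mem_ChnP_fix (hQ : Q.Ok) (hL : Lab Q D Z cls) {c : ℕ} (z : E) :
    Q.P (c :: p) z ∈ ChnP D Z a p ↔ z ∈ ChnP D Z a p := by
  unfold ChnP
  simp only [mem_setOf_eq]
  refine forall_congr' fun r => imp_congr_right fun h1 => imp_congr_right fun h2 => ?_
  refine imp_congr_right fun h3 => ?_
  have hf : Fixes (Q.P (c :: p)) (Q.W r) := fun x hx => hQ.fix c p x (W_mono hQ h3 hx)
  rw [mem_fix hf (hL.cD r), mem_fix hf (hL.cZ r)]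

open Classical in
lemma reg_chain (hQ : Q.Ok) (hL : Lab Q D Z cls)
    (hbad : ∀ q x, x ∉ Z q → x ∉ D q → cls q x = 0) (c' : ℕ) (a : List ℕ) :
    ∀ (i n : ℕ), (∀ r, a <:+ r → r <:+ List.replicate i 0 ++ c' :: a →
      r ≠ List.replicate i 0 ++ c' :: a → ¬ Q.lf r) → ∀ z : E,
      z ∈ (ktm (Q.rl a (List.replicate i 0 ++ c' :: a)) (kc Q D Z cls (n + i + 1) a c')).reg ↔
        z ∈ ChnP D Z a (List.replicate i 0 ++ c' :: a) ∧
          z ∈ (kc Q D Z cls n (List.replicate i 0 ++ c' :: a) 0).reg := by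
  intro i
  induction i with
  | zero =>
    intro n hnl z
    simp only [List.replicate_zero, List.nil_append, Nat.add_zero]
    have hla : ¬ Q.lf a := hnl a (List.suffix_refl a) (by simp) (by simp)
    have e : kc Q D Z cls (n + 1) a c' = ktm (Q.P (c' :: a)) (kt Q D Z cls (n + 1) (c' :: a)) := by
      unfold kc; rw [if_neg hla]
    rw [e, H713.reg_ktm, H713.reg_ktm, mem_preimage, mem_preimage]
    have e2 : (Q.P (c' :: a)).symm ((Q.rl a (c' :: a)).symm z) = z := by
      rw [rl_symm, rl_cons_apply]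
      simp [Pa.rl]
    rw [e2, H752.kt_succ', mem_ChnP_cons (List.suffix_refl a)]
    constructor
    · rintro ⟨h1, h2, h3⟩
      rw [hbad _ z h2 h1] at h3
      exact ⟨⟨ChnP_self z, h1, h2⟩, h3⟩
    · rintro ⟨⟨_, h1, h2⟩, h3⟩
      refine ⟨h1, h2, ?_⟩
      rw [hbad _ z h2 h1]
      exact h3
  | succ i ih =>
    intro n hnl z
    set p := List.replicate i 0 ++ c' :: a with hp
    have hp' : List.replicate (i + 1) 0 ++ c' :: a = 0 :: p := by
      rw [List.replicate_succ, List.cons_append]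
    rw [hp'] at hnl ⊢
    have hap : a <:+ p := by
      rw [hp]
      exact (List.suffix_cons c' a).trans (List.suffix_append _ _)
    have hlp : ¬ Q.lf p := hnl p hap (List.suffix_cons 0 p) (by simp)
    have h1 := ih (n + 1) (fun r h1 h2 h3 => hnl r h1 (h2.trans (List.suffix_cons 0 p))
      (fun he => by
        have h5 := h2.length_le
        rw [he] at h5
        simp at h5)) (Q.P (0 :: p) z)
    have e1 : kc Q D Z cls (n + (i + 1) + 1) a c' = kc Q D Z cls (n + 1 + i + 1) a c' := by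
      congr 1; omega
    rw [e1, H713.reg_ktm, mem_preimage, rl_symm, rl_cons_apply]
    rw [H713.reg_ktm, mem_preimage, rl_symm] at h1
    rw [h1, mem_ChnP_fix hQ hL, mem_ChnP_cons hap]
    have e : kc Q D Z cls (n + 1) p 0 = ktm (Q.P (0 :: p)) (kt Q D Z cls (n + 1) (0 :: p)) := by
      unfold kc; rw [if_neg hlp]
    rw [e, H713.reg_ktm, mem_preimage, LinearIsometryEquiv.symm_apply_apply, H752.kt_succ',
      and_assoc]
    refine and_congr_right fun _ => ?_
    constructor
    · rintro ⟨h1, h2, h3⟩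
      rw [hbad _ z h2 h1] at h3
      exact ⟨⟨h1, h2⟩, h3⟩
    · rintro ⟨⟨h1, h2⟩, h3⟩
      refine ⟨h1, h2, ?_⟩
      rw [hbad _ z h2 h1]
      exact h3

lemma flatAt_of_inv {W V : Submodule ℝ E} (hWV : W ≤ V) (hw : Inv W w) (hε : 0 ≤ ε) (x : E) :
    FlatAt ε w V x := by
  have h1 : ∀ z, w (mix V x z) = w x := fun z =>
    hw.eq_of (KTree.proj_eq_of_le hWV (starProjection_mix V x z))
  refine ⟨w x, ?_, ?_⟩
  · have e0 : fib V ({y | w y < w x}.indicator 1) x = 0 := by
      unfold fib
      rw [show (fun z => ({y | w y < w x}.indicator (1 : E → ℝ≥0∞)) (mix V x z)) = fun _ => 0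
        from ?_]
      · simp
      · funext z
        rw [indicator_of_notMem]
        simp only [mem_setOf_eq, h1 z, lt_self_iff_false, not_false_eq_true]
    rw [e0]
    exact zero_le
  · have e1 : fib V w x = w x := by
      unfold fib
      simp only [h1]
      simp
    rw [e1]
    calc w x = 1 * w x := (one_mul _).symm
      _ ≤ _ := by
        gcongr
        rw [← ENNReal.ofReal_one]
        exact ENNReal.ofReal_le_ofReal (by linarith)

open Classical in
/-- **gain and loss of a star on a chain of bad labels** -/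
theorem chain_star (hQ : Q.Ok) (hL : Lab Q D Z cls) (hw : Wl Q wv N) (hK : Bo Q K) {R : ℝ}
    (hKcl : IsClosed (K p)) (hKc : Convex ℝ (K p)) (hKR : K p ⊆ Metric.closedBall 0 R)
    (hv0 : wv p ≠ 0) (hv : ‖wv p‖ ≤ 1 / 160000) {c : ℝ} (hc0 : 0 ≤ c) (hc : c < 1 / 2)
    (hwt : Weight c w) (hwl : Inv (Hp (wv p)) w) (hwi : Inv (Q.W p) w)
    {i n : ℕ} (hp : p = List.replicate i 0 ++ c' :: a) (hnl : ∀ r, r <:+ p → ¬ Q.lf r)
    (hN : n + 1 + p.length = N)
    (hgood : ∀ n q, n + 1 + q.length = N → ∀ x, x ∉ Z q → x ∈ D q → ∀ k, k = 0 ∨ k = cls q x →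
      Hea (K q) (wv q) (4 / 5) (kc Q D Z cls n q k).frz (Q.W q) x)
    (hbad : ∀ q x, x ∉ Z q → x ∉ D q → cls q x = 0)
    {Lam : ℝ} (hLam : 1 ≤ Lam)
    (hrim : ∀ q, Q.W q = Hp (wv q) → ∀ x, x ∉ Z q → x ∉ D q →
      OnLine (K q) (wv q) R (1 / 8) Lam x)
    (hflat : ∀ q, a <:+ q → q <:+ p → ∀ x, FlatAt (1 / 40) w (Q.W q) x)
    (x0 : E) (hxZ : x0 ∉ Z a) (hxD : x0 ∈ D a) (hxc : cls a x0 = c') :
    8 * fib (Q.W a) (fun y => ((w y * (ChnP D Z a p).indicator 1 y) *
        (kc Q D Z cls n p 0).reg.indicator 1 y) *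
        (K p \ (star (K p) (wv p) ∩ Metric.closedBall 0 R)).indicator 1 y) x0 ≤
      fib (Q.W a) (fun y => ((w y * (ChnP D Z a p).indicator 1 y) *
        (kc Q D Z cls n p 0).reg.indicator 1 y) *
        ((star (K p) (wv p) ∩ Metric.closedBall 0 R) \ K p).indicator 1 y) x0 := by
  have hap : a <:+ p := by
    rw [hp]
    exact (List.suffix_cons c' a).trans (List.suffix_append _ _)
  have hlen : p.length = i + 1 + a.length := by
    rw [hp]; simp; omega
  set R' := Q.rl a p with hR'
  set T := ktm R' (kc Q D Z cls (n + i + 1) a c') with hT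
  have hfix : Fixes R' (Q.W a) := fixes_rl' hQ hap
  have hfix' : Fixes R'.symm (Q.W a) := fixes_symm hfix
  have him : im R' (Q.W a) = Q.W a := hfix.map_eq
  -- the conditions at the nodes
  have hnod : NodC Q D Z cls K wv w (1 / 40) N p
      (fun q => a <:+ q ∧ (q <:+ p ∨ p <:+ q) ∧ ∃ j, q = List.replicate j 0 ++ c' :: a) := by
    refine ⟨fun n q _ h1 x h2 h3 => hgood n q h1 x h2 h3 0 (Or.inl rfl), ?_, fun q _ => hbad q, ?_⟩
    · rintro q ⟨h1, h2 | h2, _⟩ x _ _
      · exact (flatAt_fix (fixes_rl' hQ h2) x).2 (hflat q h1 h2 x)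
      · have e : (fun y => w (Q.rl q p y)) = w := by
          funext y
          exact hwi.eq_of ((fixes_rl hQ h2).proj y)
        rw [e]
        exact flatAt_of_inv (W_mono hQ h2) hwi (by norm_num) x
    · rintro q ⟨h1, h2, j, hj⟩ hl
      refine ⟨h1.trans (List.suffix_cons 0 q), ?_, j + 1, ?_⟩
      · rw [hj, hp]
        rcases Nat.lt_or_ge j i with h3 | h3
        · left
          have : (0 :: (List.replicate j 0 ++ c' :: a)) = List.replicate (j + 1) 0 ++ c' :: a := by
            rw [List.replicate_succ, List.cons_append]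
          rw [this]
          obtain ⟨d, rfl⟩ := Nat.exists_eq_add_of_lt h3
          refine ⟨List.replicate d 0, ?_⟩
          rw [← List.append_assoc, ← List.replicate_add]
          congr 2
          omega
        · right
          have : (0 :: (List.replicate j 0 ++ c' :: a)) = List.replicate (j + 1) 0 ++ c' :: a := by
            rw [List.replicate_succ, List.cons_append]
          rw [this]
          obtain ⟨d, rfl⟩ := Nat.exists_eq_add_of_le h3
          refine ⟨List.replicate (d + 1) 0, ?_⟩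
          rw [← List.append_assoc, ← List.replicate_add]
          congr 2
          omega
      · rw [hj, List.replicate_succ, List.cons_append]
  have hCh : (fun q => a <:+ q ∧ (q <:+ p ∨ p <:+ q) ∧ ∃ j, q = List.replicate j 0 ++ c' :: a)
      (c' :: a) := by
    refine ⟨List.suffix_cons c' a, Or.inl ?_, 0, by simp⟩
    rw [hp]
    exact List.suffix_append _ _
  have hNa : (n + i + 1) + 1 + a.length = N := by omega
  have hvalid0 : (kc Q D Z cls (n + i + 1) a c').Valid (Q.W a) := by
    have := H713.valid_kt hQ hL (n + i + 1 + 1) a (Q.W a) le_rfl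
    rw [H752.kt_succ'] at this
    exact this.2.2.2.2.2.2.2.2 c'
  have hvalid : T.Valid (Q.W a) := by
    have := H713.ktm_valid (R := R') hvalid0
    rwa [him] at this
  have hword : R' (wv a) = wv p := word_rl hw.toWd a p
  have hbel0 : (kc Q D Z cls (n + i + 1) a c').Below (ℝ ∙ (wv a))ᗮ := by
    have := H713.below_kt (D := D) (Z := Z) (cls := cls) hw.toWd (n + i + 1 + 1) a
    rw [H752.kt_succ'] at this
    exact this.2 c'
  have hbel : T.Below (ℝ ∙ (wv p))ᗮ := by
    have := H713.ktm_below (R := R') hbel0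
    rwa [im_span, hword] at this
  have hWle : Q.W a ≤ (ℝ ∙ (wv p))ᗮ := (W_mono hQ hap).trans (H752.W_le_Hp hw.toWd p)
  have hbody : (fun y => R' y) ⁻¹' K p = K a := body_rl hK a p
  have hhkf : ∀ y, HKF (K p) (wv p) (1 / 40) (4 / 5) w T y := by
    intro y
    have h1 := hkf_kc (aa := 4 / 5) hw.toWd hK hnod (n := n + i + 1) (k := c') (q := a) hCh hNa
      (R'.symm y)
    rw [← hbody] at h1
    have h2 := hkf_mp R' (K := K p) (v := wv a) (ε := 1 / 40) (a := 4 / 5) (w := w) h1
    rw [hword, LinearIsometryEquiv.apply_symm_apply] at h2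
    exact h2
  have hroot : Hea (K p) (wv p) (4 / 5) T.frz (Q.W a) x0 := by
    have hxZ' : R'.symm x0 ∉ Z a := fun h => hxZ ((mem_fix hfix' (hL.cZ a) x0).1 h)
    have hxD' : R'.symm x0 ∈ D a := (mem_fix hfix' (hL.cD a) x0).2 hxD
    have hxc' : cls a (R'.symm x0) = c' := by
      rw [← hxc]
      exact (hL.ic a).eq_of (hfix'.proj x0)
    have h1 := hgood (n + i + 1) a hNa (R'.symm x0) hxZ' hxD' c' (Or.inr hxc'.symm)
    rw [← hbody, ← H752.hea_mp, LinearIsometryEquiv.apply_symm_apply, hword, him] at h1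
    rw [hT, H713.frz_ktm]
    exact h1
  have hflat0 : FlatAt (1 / 40) w (Q.W a) x0 := hflat a (List.suffix_refl a) hap x0
  have hregc := reg_chain (D := D) (Z := Z) (cls := cls) hQ hL hbad c' a i n
    (fun r h1 h2 h3 => hnl r (by rw [hp]; exact h2))
  rw [← hp] at hregc
  have hreg : ∀ z, z ∈ T.reg ↔ z ∈ ChnP D Z a p ∧ z ∈ (kc Q D Z cls n p 0).reg := hregc
  have hline : ∀ x ∈ T.reg, OnLine (K p) (wv p) R (1 / 8) Lam x := by
    intro x hx
    have hla : ¬ Q.lf a := hnl a hap
    have e : kc Q D Z cls (n + i + 1) a c'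
        = ktm (Q.P (c' :: a)) (kt Q D Z cls (n + i + 1) (c' :: a)) := by
      unfold kc; rw [if_neg hla]
    rw [hT, e, H713.reg_ktm, H713.reg_ktm] at hx
    have h1 := online_kt (D := D) (Z := Z) (cls := cls) hw hK hrim (n + i) (c' :: a)
      (by rw [List.length_cons]; omega) _ hx
    rw [hK.eq, ← H752.onLine_mp, hw.eq, LinearIsometryEquiv.apply_symm_apply, ← hbody,
      ← H752.onLine_mp, LinearIsometryEquiv.apply_symm_apply, hword] at h1
    exact h1
  have key := H44.star_kill_weighted_cut hc0 hc hwt hwl hv0 (by linarith) hKcl hKc hKR hWle hvalid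
    hbel (ε := 1 / 40) (by norm_num) le_rfl (a := 4 / 5) (by norm_num) x0 (fun y _ => hhkf y) hroot
    hflat0 (p := 1 / 8) (Lam := Lam) (by norm_num) (by norm_num) hLam hline
  have e : ∀ A : Set E, (fun y => ((w y * (ChnP D Z a p).indicator (1 : E → ℝ≥0∞) y) *
        (kc Q D Z cls n p 0).reg.indicator 1 y) * A.indicator 1 y)
      = fun y => (w y * T.reg.indicator 1 y) * A.indicator 1 y := by
    intro A
    funext y
    congr 1
    rw [mul_assoc]
    congr 1
    by_cases h1 : y ∈ ChnP D Z a p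
    · by_cases h2 : y ∈ (kc Q D Z cls n p 0).reg
      · rw [indicator_of_mem h1, indicator_of_mem h2, indicator_of_mem ((hreg y).2 ⟨h1, h2⟩)]
        simp
      · rw [indicator_of_notMem h2, indicator_of_notMem (fun h => h2 ((hreg y).1 h).2)]
        simp
    · rw [indicator_of_notMem h1, indicator_of_notMem (fun h => h1 ((hreg y).1 h).1)]
      simp
  rw [e, e]
  calc _ ≤ 8 * (ENNReal.ofReal (20000 * ‖wv p‖) *
        fib (Q.W a) (fun y => (w y * T.reg.indicator 1 y) *
          ((star (K p) (wv p) ∩ Metric.closedBall 0 R) \ K p).indicator 1 y) x0) := by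
        gcongr
    _ = (ENNReal.ofReal 8 * ENNReal.ofReal (20000 * ‖wv p‖)) *
        fib (Q.W a) (fun y => (w y * T.reg.indicator 1 y) *
          ((star (K p) (wv p) ∩ Metric.closedBall 0 R) \ K p).indicator 1 y) x0 := by
        rw [← mul_assoc]; norm_num
    _ ≤ 1 * _ := by
        gcongr
        rw [← ENNReal.ofReal_mul (by norm_num), ← ENNReal.ofReal_one]
        exact ENNReal.ofReal_le_ofReal (by linarith)
    _ = _ := one_mul _

end Vale.Agent.P262.H395.ChU
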