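import Vale.Agent.P262.H395.ChU2
import Vale.Agent.P262.H752.StarS2
import Vale.Agent.P262.H59.FlatAs

/-!
# P262, milestone 2: the chains of bad labels on `M2.Sys` (`Sys.ChainU`)
-/

set_option linter.all false

open MeasureTheory ProbabilityTheory Set
open scoped ENNReal RealInnerProductSpace
open Vale.Agent.P262.H395 (fib Inv)
open Vale.Agent.P262.H395.KTree (Hea)
open Vale.Agent.P262.H59 (OnLine Hp)
open Vale.Agent.P262.H752 (kc Wl Bo)
open Vale.Agent.P262.H493 (star)

namespace Vale.Agent.P262.M2.Sys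

variable {E : Type*} [NormedAddCommGroup E] [InnerProductSpace ℝ E] [FiniteDimensional ℝ E]
  [MeasurableSpace E] [BorelSpace E] (S : Sys E)

lemma wl_c {m : ℕ} (h : S.mv.IsStar m) (hm : m < S.mT) :
    Wl (S.pa m) (S.wX m) (Module.finrank ℝ E) where
  toWd := S.wd_X h hm
  leaf := fun p hl => (S.endOK_X h hm).leaf p hl
  deep := fun p hp => S.leaf_of_length_f hm.le hp

lemma bo_c (m : ℕ) : Bo (S.pa m) (fun p => S.X p m) := ⟨fun k p => rfl⟩

lemma leaf_mono_c {m : ℕ} {r p : List ℕ} (h : r <:+ p) (hl : S.Leaf r m) : S.Leaf p m := by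
  unfold Leaf at *
  have h1 := Submodule.orthogonal_le (S.W_mono h m)
  exact (Submodule.finrank_mono h1).trans hl

/-- **(CHAIN_U)** -/
theorem chainU {Lam : ℝ} (hLam : 1 ≤ Lam) (hd : S.δ ≤ 1 / 160000)
    (hq : 2 * (Real.sqrt 2 * Real.exp (-(S.qq / 4))) ≤ 1 / 41) : S.ChainU Lam := by
  intro m hm h D H i c' a p hp n hN hl x0 hxZ hxD hxc
  have ht : S.mv.tm m < S.T := S.tm_lt_X hm
  have hnl : ∀ r, r <:+ p → ¬ S.Leaf r m := fun r hr h1 => hl (S.leaf_mono_c hr h1)
  have hth := S.hth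
  have hth1 := S.hth1
  have key := H395.ChU.chain_star (Q := S.pa m) (D := D) (Z := fun p => S.Z p m)
    (cls := fun p => S.kl p m) (K := fun p => S.X p m) (wv := S.wX m) (w := S.As S.th p m)
    (N := Module.finrank ℝ E) (a := a) (p := p) (c' := c') (S.pa_ok m) H.lab (S.wl_c h hm)
    (S.bo_c m) (R := S.R) (S.isClosed_X p m) (S.convex_X p m) (S.X_subset_ball p m)
    (S.wX_ne hm p) (by rw [S.norm_wX hm]; exact hd) (c := S.th / 8) (by linarith) (by linarith)
    (weight_As hth.le (by linarith) p m) (As_invHp hm S.th p) (S.As_inv S.th p m) hp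
    (fun r hr => hnl r hr) hN
    (fun n q h1 x h2 h3 k hk => H.good n q h1 x h2 h3 k hk) (fun q x h2 h3 => H.bad q x h2 h3)
    hLam (fun q hq x h2 h3 => H.rim q hq x h2 h3)
    (fun q h1 h2 x => flatAt_As hq hth.le (by linarith) ht
      ⟨h2, fun r h3 h4 h5 => hnl r h4⟩ x) x0 hxZ hxD hxc
  have hX : S.X p (m + 1) = star (S.X p m) (S.wX m p) ∩ Metric.closedBall 0 S.R :=
    S.X_star h hm p
  rw [hX]
  exact key

end Vale.Agent.P262.M2.Sys
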