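import Vale.Agent.P262.H395.Moves

/-!
# P262, library NEST, part 4: change of all labels at once (garbling), dual form, ladders
-/

set_option linter.all false

open MeasureTheory ProbabilityTheory Set
open scoped ENNReal RealInnerProductSpace

namespace Vale.Agent.P262.H395

variable {E : Type*} [NormedAddCommGroup E] [InnerProductSpace ℝ E] [FiniteDimensional ℝ E]
  [MeasurableSpace E] [BorelSpace E]

/-! ### Garbling -/

/-- `Garb U L L'` : the labels of `L'` are garblings of the labels of `L`, level by level: given the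
label of level `j` of `L`, the label of level `j` of `L'` is independent of the next label of `L`
(of `P_U x` after the last level), and the new caps are at most the smoothed old caps. -/
def Garb (U : Submodule ℝ E) : Levels E → Levels E → Prop
  | [], [] => True
  | p :: L, p' :: L' =>
      (∀ x, p'.2 x ≤ fib p'.1 p.2 x) ∧
      (∀ u ∈ (match L with | [] => U | q :: _ => q.1),
        (p'.1 ⊔ p.1).starProjection u = p.1.starProjection u) ∧
      Garb U L L'
  | _, _ => False

lemma nest_garble {U : Submodule ℝ E} {f : E → ℝ≥0∞} (hfU : Inv U f) (hf : Measurable f) :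
    ∀ (L L' : Levels E) (_ : Good L) (_ : Good L') (_ : Garb U L L') (W' : Submodule ℝ E)
      (_ : ∀ p ∈ L', W' ≤ p.1) (x : E), fib W' (nest L' f) x ≤ fib W' (nest L f) x
  | [], [], _, _, _, _, _, x => le_rfl
  | p :: L, p' :: L', hL, hL', hG, W', hW', x => by
    obtain ⟨hcap, hmark, hrest⟩ := hG
    have hm : Measurable (nest L f) := measurable_nest hL.tail hf
    have ih := nest_garble hfU hf L L' hL.tail hL'.tail hrest p'.1 hL'.2.2.1
    -- the pointwise comparison at level `p'`
    have key : ∀ y, nest (p' :: L') f y ≤ fib p'.1 (nest (p :: L) f) y := by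
      intro y
      rw [nest_cons]
      refine max_le ((hcap y).trans (fib_mono (fun z => le_max_left _ _) y)) ?_
      refine (ih y).trans ?_
      have hmk : fib p'.1 (fib p.1 (nest L f)) y = fib p'.1 (nest L f) y := by
        cases L with
        | nil => exact fib_markov hfU hf hmark y
        | cons q L =>
          exact fib_markov (U := q.1) (inv_nest_cons hL.tail f) hm hmark y
      rw [← hmk]
      exact fib_mono (fun z => le_max_right _ _) y
    have hmp : Measurable (nest (p :: L) f) := measurable_nest hL hf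
    calc fib W' (nest (p' :: L') f) x ≤ fib W' (fib p'.1 (nest (p :: L) f)) x := fib_mono key x
      _ = fib W' (nest (p :: L) f) x := fib_tower (hW' p' List.mem_cons_self) hmp x

/-- **all labels are replaced by garblings, all caps by smoothed caps: the value decreases** -/
theorem val_garble {U : Submodule ℝ E} {f : E → ℝ≥0∞} (hfU : Inv U f) (hf : Measurable f)
    {L L' : Levels E} (hL : Good L) (hL' : Good L') (hG : Garb U L L') : val L' f ≤ val L f := by
  have := nest_garble hfU hf L L' hL hL' hG ⊥ (fun _ _ => bot_le) 0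
  rwa [fib_bot, fib_bot] at this

/-! ### Dual form: supremum over policies -/

/-- admissible policies for a system of labels -/
def Pol : Levels E → List (E → ℝ≥0∞) → Prop
  | [], [] => True
  | p :: L, q :: Q => Measurable q ∧ Inv p.1 q ∧ (∀ x, q x ≤ 1) ∧ Pol L Q
  | _, _ => False

/-- weight of a policy (probability to reach the payoff) -/
noncomputable def wt : List (E → ℝ≥0∞) → E → ℝ≥0∞
  | [], _ => 1
  | q :: Q, x => q x * wt Q x

/-- reward of a policy collected from the caps -/
noncomputable def rew : Levels E → List (E → ℝ≥0∞) → E → ℝ≥0∞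
  | p :: L, q :: Q, x => (1 - q x) * p.2 x + q x * rew L Q x
  | _, _, _ => 0

lemma measurable_wt : ∀ {L : Levels E} {Q : List (E → ℝ≥0∞)} (_ : Pol L Q), Measurable (wt Q)
  | [], [], _ => measurable_const
  | p :: L, q :: Q, h => h.1.mul (measurable_wt h.2.2.2)

lemma measurable_rew : ∀ {L : Levels E} {Q : List (E → ℝ≥0∞)} (_ : Good L) (_ : Pol L Q),
    Measurable (rew L Q)
  | [], [], _, _ => measurable_const
  | p :: L, q :: Q, hL, h =>
    ((measurable_const.sub h.1).mul hL.1).add (h.1.mul (measurable_rew hL.tail h.2.2.2))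

lemma wt_le_one : ∀ {L : Levels E} {Q : List (E → ℝ≥0∞)} (_ : Pol L Q) (x : E), wt Q x ≤ 1
  | [], [], _, x => le_rfl
  | p :: L, q :: Q, h, x => by
    calc q x * wt Q x ≤ 1 * 1 := mul_le_mul' (h.2.2.1 x) (wt_le_one h.2.2.2 x)
      _ = 1 := one_mul _

lemma pol_thr_pol {L : Levels E} (hL : Good L) {f : E → ℝ≥0∞} (hf : Measurable f) :
    Pol L (thr L f) := by
  induction L with
  | nil => trivial
  | cons p L ih =>
    refine ⟨?_, ?_, ?_, ih hL.tail⟩
    · exact Measurable.ite (measurableSet_lt hL.1 (measurable_fib (measurable_nest hL.tail hf)))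
        measurable_const measurable_const
    · exact hL.2.1.ite (inv_fib _ _)
    · intro x
      simp only
      split_ifs <;> simp

lemma wt_thr (L : Levels E) (f : E → ℝ≥0∞) (x : E) : wt (thr L f) x = vis L f x := by
  induction L with
  | nil => rfl
  | cons p L ih => simp only [thr, wt, vis_cons, ih]

lemma measurable_pol : ∀ {L : Levels E} {Q : List (E → ℝ≥0∞)} (_ : Good L) (_ : Pol L Q)
    {f : E → ℝ≥0∞} (_ : Measurable f), Measurable (pol L Q f)
  | [], [], _, _, f, hf => hf
  | p :: L, q :: Q, hL, h, f, hf =>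
    ((measurable_const.sub h.1).mul hL.1).add
      (h.1.mul (measurable_fib (measurable_pol hL.tail h.2.2.2 hf)))

/-- integrated value of a policy = reward + weighted payoff, conditional form -/
lemma pol_eq_aux : ∀ {L : Levels E} {Q : List (E → ℝ≥0∞)} (_ : Good L) (_ : Pol L Q)
    {f : E → ℝ≥0∞} (_ : Measurable f) {W : Submodule ℝ E} (_ : ∀ p ∈ L, W ≤ p.1)
    {g : E → ℝ≥0∞} (_ : Measurable g) (_ : Inv W g),
    ∫⁻ x, g x * pol L Q f x ∂stdGaussian E
      = ∫⁻ x, g x * rew L Q x ∂stdGaussian E + ∫⁻ x, g x * (wt Q x * f x) ∂stdGaussian E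
  | [], [], _, _, f, hf, W, _, g, hg, hgW => by simp [pol, rew, wt]
  | p :: L, q :: Q, hL, h, f, hf, W, hW, g, hg, hgW => by
    have hgp : Inv p.1 g := hgW.mono (hW p List.mem_cons_self)
    have hqm := h.1
    have hqi := h.2.1
    have hpm := measurable_pol hL.tail h.2.2.2 hf
    have e1 : ∫⁻ x, g x * q x * fib p.1 (pol L Q f) x ∂stdGaussian E
        = ∫⁻ x, g x * q x * pol L Q f x ∂stdGaussian E :=
      lintegral_mul_fib (hgp.mul hqi) (hg.mul hqm) hpm
    have e2 := pol_eq_aux hL.tail h.2.2.2 hf (W := p.1) hL.2.2.1 (g := fun x => g x * q x)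
      (hg.mul hqm) (hgp.mul hqi)
    have hrm := measurable_rew hL.tail h.2.2.2
    calc ∫⁻ x, g x * pol (p :: L) (q :: Q) f x ∂stdGaussian E
        = ∫⁻ x, (g x * ((1 - q x) * p.2 x) + g x * q x * fib p.1 (pol L Q f) x)
            ∂stdGaussian E := by
          apply lintegral_congr; intro x
          rw [pol_cons]; ring
      _ = ∫⁻ x, g x * ((1 - q x) * p.2 x) ∂stdGaussian E
          + ∫⁻ x, g x * q x * fib p.1 (pol L Q f) x ∂stdGaussian E :=
          lintegral_add_left (f := fun x => g x * ((1 - q x) * p.2 x))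
            (hg.mul ((measurable_const.sub hqm).mul hL.1)) _
      _ = ∫⁻ x, g x * ((1 - q x) * p.2 x) ∂stdGaussian E
          + (∫⁻ x, g x * q x * rew L Q x ∂stdGaussian E
            + ∫⁻ x, g x * q x * (wt Q x * f x) ∂stdGaussian E) := by rw [e1, e2]
      _ = (∫⁻ x, g x * ((1 - q x) * p.2 x) ∂stdGaussian E
          + ∫⁻ x, g x * q x * rew L Q x ∂stdGaussian E)
            + ∫⁻ x, g x * q x * (wt Q x * f x) ∂stdGaussian E := by rw [add_assoc]
      _ = _ := by
          rw [← lintegral_add_left (f := fun x => g x * ((1 - q x) * p.2 x))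
            (hg.mul ((measurable_const.sub hqm).mul hL.1))]
          congr 1
          · apply lintegral_congr; intro x
            simp only [rew]; ring
          · apply lintegral_congr; intro x
            simp only [wt]; ring

/-- **value of a policy** -/
theorem lintegral_pol {L : Levels E} {Q : List (E → ℝ≥0∞)} (hL : Good L) (hQ : Pol L Q)
    {f : E → ℝ≥0∞} (hf : Measurable f) :
    ∫⁻ x, pol L Q f x ∂stdGaussian E
      = ∫⁻ x, rew L Q x ∂stdGaussian E + ∫⁻ x, wt Q x * f x ∂stdGaussian E := by
  have := pol_eq_aux hL hQ hf (W := ⊥) (fun _ _ => bot_le) (g := fun _ => 1) measurable_const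
    (inv_const _ _)
  simpa only [one_mul] using this

lemma Pol.length : ∀ {L : Levels E} {Q : List (E → ℝ≥0∞)} (_ : Pol L Q), L.length = Q.length
  | [], [], _ => rfl
  | p :: L, q :: Q, h => by simp [Pol.length h.2.2.2]

lemma Pol.le_one : ∀ {L : Levels E} {Q : List (E → ℝ≥0∞)} (_ : Pol L Q), ∀ q ∈ Q, ∀ x, q x ≤ 1
  | [], [], _ => by simp
  | p :: L, q :: Q, h => by
    intro r hr
    rcases List.mem_cons.mp hr with rfl | hr
    · exact h.2.2.1
    · exact Pol.le_one h.2.2.2 r hr

/-- every policy is below the value -/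
theorem pol_le_val {L : Levels E} {Q : List (E → ℝ≥0∞)} (hL : Good L) (hQ : Pol L Q)
    {f : E → ℝ≥0∞} (hf : Measurable f) :
    ∫⁻ x, rew L Q x ∂stdGaussian E + ∫⁻ x, wt Q x * f x ∂stdGaussian E ≤ val L f := by
  rw [← lintegral_pol hL hQ hf]
  exact lintegral_mono fun x => pol_le_nest L Q hQ.length hQ.le_one f x

/-- the threshold policy attains the value -/
theorem val_eq_thr {L : Levels E} (hL : Good L) {f : E → ℝ≥0∞} (hf : Measurable f) :
    val L f = ∫⁻ x, rew L (thr L f) x ∂stdGaussian E
      + ∫⁻ x, vis L f x * f x ∂stdGaussian E := by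
  have h := lintegral_pol hL (pol_thr_pol hL hf) hf
  rw [pol_thr] at h
  unfold val
  rw [h]
  simp only [wt_thr]

/-- the value as a supremum over policies -/
theorem val_eq_iSup {L : Levels E} (hL : Good L) {f : E → ℝ≥0∞} (hf : Measurable f) :
    val L f = ⨆ Q : {Q : List (E → ℝ≥0∞) // Pol L Q},
      (∫⁻ x, rew L Q.1 x ∂stdGaussian E + ∫⁻ x, wt Q.1 x * f x ∂stdGaussian E) := by
  apply le_antisymm
  · refine le_trans (le_of_eq ?_) (le_iSup _ ⟨thr L f, pol_thr_pol hL hf⟩)
    rw [val_eq_thr hL hf]
    simp only [wt_thr]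
  · exact iSup_le fun Q => pol_le_val hL Q.2 hf

end Vale.Agent.P262.H395
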