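import Vale.Agent.P262.H395.Nest

/-!
# P262, library NEST, part 3: moves (open / close / re-anchor), policies
-/

set_option linter.all false

open MeasureTheory ProbabilityTheory Set
open scoped ENNReal RealInnerProductSpace

namespace Vale.Agent.P262.H395

variable {E : Type*} [NormedAddCommGroup E] [InnerProductSpace ℝ E] [FiniteDimensional ℝ E]
  [MeasurableSpace E] [BorelSpace E]

lemma val_mono (L : Levels E) {f g : E → ℝ≥0∞} (h : ∀ x, f x ≤ g x) : val L f ≤ val L g :=
  lintegral_mono (nest_mono L h)

lemma val_append (L M : Levels E) (f : E → ℝ≥0∞) : val (L ++ M) f = val L (nest M f) := by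
  unfold val
  rw [nest_append]

/-- one level on top of a payoff -/
lemma nest_single (W : Submodule ℝ E) (a : E → ℝ≥0∞) (f : E → ℝ≥0∞) (x : E) :
    nest [(W, a)] f x = max (a x) (fib W f x) := rfl

/-- **closing the innermost level is free** -/
theorem val_close {L : Levels E} {W : Submodule ℝ E} (hW : ∀ p ∈ L, p.1 ≤ W) (a : E → ℝ≥0∞)
    {f : E → ℝ≥0∞} (hf : Measurable f) : val L f ≤ val (L ++ [(W, a)]) f := by
  rw [val_append, ← val_fib hW hf]
  exact val_mono L fun x => le_max_right _ _

/-- **opening a level**: the cost is the visible part of `(a - fib f)₊`; the visibility is the one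
of the new system -/
theorem val_open {L : Levels E} (hL : Good L) {W : Submodule ℝ E} (hW : ∀ p ∈ L, p.1 ≤ W)
    {a : E → ℝ≥0∞} (ha : Measurable a) {f : E → ℝ≥0∞} (hf : Measurable f)
    (hfin : ∫⁻ x, f x ∂stdGaussian E ≠ ∞) :
    val (L ++ [(W, a)]) f ≤ val L f
      + ∫⁻ x, vis L (nest [(W, a)] f) x * (a x - fib W f x) ∂stdGaussian E := by
  rw [val_append, ← val_fib hW hf]
  have h1 : Measurable (nest [(W, a)] f) := ha.max (measurable_fib hf)
  refine (val_le_add hL (measurable_fib (W := W) hf) h1
    (by rwa [lintegral_fib (W := W) hf])).trans_eq ?_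
  congr 1
  apply lintegral_congr
  intro x
  congr 1
  rw [nest_single]
  rcases le_total (a x) (fib W f x) with h | h
  · rw [max_eq_right h, tsub_self, tsub_eq_zero_of_le h]
  · rw [max_eq_left h]

/-- **re-anchoring the innermost level** (garbling of the label, Jensen): the old label `W`, the
new label `W'` with `E[f | W'] = E[E[f | W] | W']`, cap `a' ≤ E[a | W']`. -/
theorem nest_reanchor {W W' : Submodule ℝ E} {a a' f : E → ℝ≥0∞} (x : E)
    (ha : a' x ≤ fib W' a x) (hf : fib W' f x = fib W' (fib W f) x) :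
    nest [(W', a')] f x ≤ fib W' (nest [(W, a)] f) x := by
  rw [nest_single]
  refine max_le (ha.trans (fib_mono (fun y => le_max_left _ _) x)) ?_
  rw [hf]
  exact fib_mono (fun y => le_max_right _ _) x

theorem val_reanchor {L : Levels E} {W W' : Submodule ℝ E} (hW' : ∀ p ∈ L, p.1 ≤ W')
    {a a' f : E → ℝ≥0∞} (ham : Measurable a) (hfm : Measurable f)
    (ha : ∀ x, a' x ≤ fib W' a x) (hf : ∀ x, fib W' f x = fib W' (fib W f) x) :
    val (L ++ [(W', a')]) f ≤ val (L ++ [(W, a)]) f := by
  rw [val_append, val_append]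
  have h1 : Measurable (nest [(W, a)] f) := ham.max (measurable_fib hfm)
  rw [← val_fib hW' h1]
  exact val_mono L fun x => nest_reanchor x (ha x) (hf x)

/-- re-anchoring with the Jensen gap kept: `V' + ∫ vis' · (E[max(a, E[f|W]) | W'] - max(a', E[f|W']))
≤ V`, in additive form -/
theorem val_reanchor_gap {L : Levels E} (hL : Good L) {W W' : Submodule ℝ E}
    (hW' : ∀ p ∈ L, p.1 ≤ W')
    {a a' f : E → ℝ≥0∞} (ham : Measurable a) (ham' : Measurable a') (hfm : Measurable f) :
    val (L ++ [(W', a')]) f
        + ∫⁻ x, vis L (nest [(W', a')] f) x * nest [(W, a)] f x ∂stdGaussian E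
      ≤ val (L ++ [(W, a)]) f
        + ∫⁻ x, vis L (nest [(W', a')] f) x * nest [(W', a')] f x ∂stdGaussian E := by
  rw [val_append, val_append]
  exact first_variation hL (ham.max (measurable_fib hfm)) (ham'.max (measurable_fib hfm))

/-! ### Policies -/

/-- the value of a policy: at each level continue with probability `q_j` (a function of the label) -/
noncomputable def pol : Levels E → List (E → ℝ≥0∞) → (E → ℝ≥0∞) → E → ℝ≥0∞
  | p :: L, q :: Q, f => fun x => (1 - q x) * p.2 x + q x * fib p.1 (pol L Q f) x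
  | _, _, f => f

@[simp] lemma pol_cons (p : Submodule ℝ E × (E → ℝ≥0∞)) (L : Levels E) (q : E → ℝ≥0∞)
    (Q : List (E → ℝ≥0∞)) (f : E → ℝ≥0∞) (x : E) :
    pol (p :: L) (q :: Q) f x = (1 - q x) * p.2 x + q x * fib p.1 (pol L Q f) x := rfl

lemma pol_le_nest : ∀ (L : Levels E) (Q : List (E → ℝ≥0∞)) (_ : L.length = Q.length)
    (_ : ∀ q ∈ Q, ∀ x, q x ≤ 1) (f : E → ℝ≥0∞) (x : E), pol L Q f x ≤ nest L f x
  | [], [], _, _, f, x => le_rfl
  | p :: L, q :: Q, hl, hq, f, x => by
    have h1 := hq q List.mem_cons_self x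
    have h2 : fib p.1 (pol L Q f) x ≤ fib p.1 (nest L f) x :=
      fib_mono (fun y => pol_le_nest L Q (by simpa using hl)
        (fun q' hq' => hq q' (List.mem_cons_of_mem _ hq')) f y) x
    rw [pol_cons, nest_cons]
    calc (1 - q x) * p.2 x + q x * fib p.1 (pol L Q f) x
        ≤ (1 - q x) * max (p.2 x) (fib p.1 (nest L f) x)
          + q x * max (p.2 x) (fib p.1 (nest L f) x) := by
          gcongr
          · exact le_max_left _ _
          · exact h2.trans (le_max_right _ _)
      _ = max (p.2 x) (fib p.1 (nest L f) x) := by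
          rw [← add_mul, tsub_add_cancel_of_le h1, one_mul]

/-- the threshold policy -/
noncomputable def thr : Levels E → (E → ℝ≥0∞) → List (E → ℝ≥0∞)
  | [], _ => []
  | p :: L, f => (fun x => if p.2 x < fib p.1 (nest L f) x then 1 else 0) :: thr L f

lemma pol_thr (L : Levels E) (f : E → ℝ≥0∞) : pol L (thr L f) f = nest L f := by
  induction L with
  | nil => rfl
  | cons p L ih =>
    funext x
    simp only [thr, pol_cons, nest_cons, ih]
    by_cases h : p.2 x < fib p.1 (nest L f) x
    · rw [if_pos h, max_eq_right h.le]; simp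
    · rw [if_neg h, max_eq_left (not_lt.mp h)]; simp

/-- comparison of caps: if `a_j ≤ b_j` on all levels the value is monotone -/
lemma nest_mono_caps : ∀ (L M : Levels E) (_ : L.length = M.length)
    (_ : ∀ pq ∈ L.zip M, pq.1.1 = pq.2.1 ∧ ∀ x, pq.1.2 x ≤ pq.2.2 x)
    (f : E → ℝ≥0∞) (x : E), nest L f x ≤ nest M f x
  | [], [], _, _, f, x => le_rfl
  | p :: L, q :: M, hl, h, f, x => by
    have h1 := h (p, q) (by simp)
    rw [nest_cons, nest_cons]
    refine max_le_max (h1.2 x) ?_
    simp only at h1
    rw [h1.1]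
    exact fib_mono (fun y => nest_mono_caps L M (by simpa using hl)
      (fun pq hpq => h pq (by simp only [List.zip_cons_cons, List.mem_cons]; exact Or.inr hpq)) f y) x

/-- Scaling all caps and the payoff. -/
lemma nest_smul {L : Levels E} (hL : Good L) (c : ℝ≥0∞) {f : E → ℝ≥0∞} (hf : Measurable f)
    (x : E) : nest (L.map fun p => (p.1, fun y => c * p.2 y)) (fun y => c * f y) x
      = c * nest L f x := by
  induction L generalizing x with
  | nil => rfl
  | cons p L ih =>
    simp only [List.map_cons, nest_cons]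
    have : nest (L.map fun p => (p.1, fun y => c * p.2 y)) (fun y => c * f y)
        = fun y => c * nest L f y := by
      funext y
      exact ih hL.tail y
    rw [this, fib_mul (inv_const _ _) (measurable_nest hL.tail hf)]
    have hmono : Monotone fun t : ℝ≥0∞ => c * t := fun s t h => by
      simp only
      gcongr
    exact (hmono.map_max (a := p.2 x) (b := fib p.1 (nest L f) x)).symm

end Vale.Agent.P262.H395
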