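import Vale.Agent.P262.H395.Fib

/-!
# P262, library NEST, part 2: the nested optimal stopping functional

A system of labels is a list `[(W₁,a₁),…,(W_r,a_r)]` of subspaces `W₁ ≤ … ≤ W_r` (the label of
level `j` is the projection on `W_j`) with caps `a_j` which are functions of the label. The nested
value of a payoff `f` is `max a₁ (E[max a₂ (… E[f | W_r]) | W₁])`.
-/

set_option linter.all false

open MeasureTheory ProbabilityTheory Set
open scoped ENNReal RealInnerProductSpace

namespace Vale.Agent.P262.H395

variable {E : Type*} [NormedAddCommGroup E] [InnerProductSpace ℝ E] [FiniteDimensional ℝ E]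
  [MeasurableSpace E] [BorelSpace E]

/-- a list of levels -/
abbrev Levels (E : Type*) [NormedAddCommGroup E] [InnerProductSpace ℝ E] :=
  List (Submodule ℝ E × (E → ℝ≥0∞))

/-- the nested value, as a function of the first label -/
noncomputable def nest : Levels E → (E → ℝ≥0∞) → E → ℝ≥0∞
  | [], f => f
  | p :: L, f => fun x => max (p.2 x) (fib p.1 (nest L f) x)

/-- the visible weight of a point: `1` if no level stops, `0` otherwise (threshold rule, stop iff
`a_j ≥` continuation value) -/
noncomputable def vis : Levels E → (E → ℝ≥0∞) → E → ℝ≥0∞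
  | [], _ => fun _ => 1
  | p :: L, f => fun x => (if p.2 x < fib p.1 (nest L f) x then 1 else 0) * vis L f x

/-- the value -/
noncomputable def val (L : Levels E) (f : E → ℝ≥0∞) : ℝ≥0∞ := ∫⁻ x, nest L f x ∂stdGaussian E

/-- admissible systems of labels: increasing subspaces, measurable caps depending on the label -/
def Good : Levels E → Prop
  | [] => True
  | p :: L => Measurable p.2 ∧ Inv p.1 p.2 ∧ (∀ q ∈ L, p.1 ≤ q.1) ∧ Good L

@[simp] lemma nest_nil (f : E → ℝ≥0∞) : nest ([] : Levels E) f = f := rfl

@[simp] lemma nest_cons (p : Submodule ℝ E × (E → ℝ≥0∞)) (L : Levels E) (f : E → ℝ≥0∞) (x : E) :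
    nest (p :: L) f x = max (p.2 x) (fib p.1 (nest L f) x) := rfl

@[simp] lemma vis_nil (f : E → ℝ≥0∞) (x : E) : vis ([] : Levels E) f x = 1 := rfl

@[simp] lemma vis_cons (p : Submodule ℝ E × (E → ℝ≥0∞)) (L : Levels E) (f : E → ℝ≥0∞) (x : E) :
    vis (p :: L) f x = (if p.2 x < fib p.1 (nest L f) x then 1 else 0) * vis L f x := rfl

lemma nest_append (L M : Levels E) (f : E → ℝ≥0∞) : nest (L ++ M) f = nest L (nest M f) := by
  induction L with
  | nil => rfl
  | cons p L ih =>
    funext x
    simp only [List.cons_append, nest_cons, ih]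

lemma Good.tail {p : Submodule ℝ E × (E → ℝ≥0∞)} {L : Levels E} (h : Good (p :: L)) : Good L :=
  h.2.2.2

lemma good_append {L M : Levels E} :
    Good (L ++ M) ↔ Good L ∧ Good M ∧ ∀ p ∈ L, ∀ q ∈ M, p.1 ≤ q.1 := by
  induction L with
  | nil => simp [Good]
  | cons p L ih =>
    simp only [List.cons_append, Good, ih, List.mem_append, List.mem_cons]
    constructor
    · rintro ⟨h1, h2, h3, h4, h5, h6⟩
      refine ⟨⟨h1, h2, fun q hq => h3 q (Or.inl hq), h4⟩, h5, ?_⟩
      rintro r (rfl | hr) q hq
      · exact h3 q (Or.inr hq)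
      · exact h6 r hr q hq
    · rintro ⟨⟨h1, h2, h3, h4⟩, h5, h6⟩
      refine ⟨h1, h2, ?_, h4, h5, fun r hr q hq => h6 r (Or.inr hr) q hq⟩
      rintro q (hq | hq)
      · exact h3 q hq
      · exact h6 p (Or.inl rfl) q hq

lemma measurable_nest {L : Levels E} (hL : Good L) {f : E → ℝ≥0∞} (hf : Measurable f) :
    Measurable (nest L f) := by
  induction L with
  | nil => exact hf
  | cons p L ih => exact hL.1.max (measurable_fib (ih hL.tail))

lemma inv_nest_cons {p : Submodule ℝ E × (E → ℝ≥0∞)} {L : Levels E} (hL : Good (p :: L))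
    (f : E → ℝ≥0∞) : Inv p.1 (nest (p :: L) f) := hL.2.1.max (inv_fib _ _)

lemma measurable_vis {L : Levels E} (hL : Good L) {f : E → ℝ≥0∞} (hf : Measurable f) :
    Measurable (vis L f) := by
  induction L with
  | nil => exact measurable_const
  | cons p L ih =>
    refine Measurable.mul ?_ (ih hL.tail)
    exact Measurable.ite (measurableSet_lt hL.1 (measurable_fib (measurable_nest hL.tail hf)))
      measurable_const measurable_const

lemma vis_le_one (L : Levels E) (f : E → ℝ≥0∞) (x : E) : vis L f x ≤ 1 := by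
  induction L with
  | nil => exact le_refl _
  | cons p L ih =>
    simp only [vis_cons]
    split_ifs
    · simpa using ih
    · simp

lemma vis_zero_or_one (L : Levels E) (f : E → ℝ≥0∞) (x : E) : vis L f x = 0 ∨ vis L f x = 1 := by
  induction L with
  | nil => exact Or.inr rfl
  | cons p L ih =>
    simp only [vis_cons]
    split_ifs
    · simpa using ih
    · simp

/-- `W`-measurability of the visible weight -/
lemma inv_vis {L : Levels E} (hL : Good L) {W : Submodule ℝ E} (hW : ∀ p ∈ L, p.1 ≤ W)
    (f : E → ℝ≥0∞) : Inv W (vis L f) := by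
  induction L with
  | nil => exact inv_const W 1
  | cons p L ih =>
    have h1 : Inv W fun x => if p.2 x < fib p.1 (nest L f) x then (1 : ℝ≥0∞) else 0 :=
      ((hL.2.1).ite (inv_fib _ _)).mono (hW p List.mem_cons_self)
    exact h1.mul (ih hL.tail fun q hq => hW q (List.mem_cons_of_mem _ hq))

lemma nest_mono (L : Levels E) {f g : E → ℝ≥0∞} (h : ∀ x, f x ≤ g x) (x : E) :
    nest L f x ≤ nest L g x := by
  induction L generalizing x with
  | nil => exact h x
  | cons p L ih => exact max_le_max le_rfl (fib_mono (fun y => ih y) x)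

/-- the nested value is at least the plain expectation, conditionally on the last label -/
lemma le_nest_cons (p : Submodule ℝ E × (E → ℝ≥0∞)) (L : Levels E) (f : E → ℝ≥0∞) (x : E) :
    fib p.1 (nest L f) x ≤ nest (p :: L) f x := le_max_right _ _

lemma nest_le {L : Levels E} {f : E → ℝ≥0∞} {c : ℝ≥0∞} (hL : ∀ p ∈ L, ∀ x, p.2 x ≤ c)
    (hf : ∀ x, f x ≤ c) (x : E) : nest L f x ≤ c := by
  induction L generalizing x with
  | nil => exact hf x
  | cons p L ih =>
    refine max_le (hL p List.mem_cons_self x) ?_
    exact (fib_mono (fun y => ih (fun q hq => hL q (List.mem_cons_of_mem _ hq)) y) x).trans_eq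
      (fib_const _ _ _)

/-- plain expectations are below the nested value (every level of information) -/
lemma fib_le_nest {L : Levels E} (hL : Good L) {W : Submodule ℝ E} (hW : ∀ p ∈ L, W ≤ p.1)
    {f : E → ℝ≥0∞} (hf : Measurable f) (x : E) : fib W f x ≤ fib W (nest L f) x := by
  induction L generalizing W x with
  | nil => exact le_rfl
  | cons p L ih =>
    have h1 : W ≤ p.1 := hW p List.mem_cons_self
    rw [← fib_tower h1 hf]
    refine fib_mono (fun y => ?_) x
    refine le_trans ?_ (le_nest_cons p L f y)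
    exact ih hL.tail (fun q hq => hL.2.2.1 q hq) y

lemma lintegral_le_val {L : Levels E} (hL : Good L) {f : E → ℝ≥0∞} (hf : Measurable f) :
    ∫⁻ x, f x ∂stdGaussian E ≤ val L f := by
  have := fib_le_nest hL (W := ⊥) (fun _ _ => bot_le) hf 0
  rw [fib_bot, fib_bot] at this
  exact this

/-- replacing the payoff by its average given the finest label does not change anything -/
lemma nest_fib {L : Levels E} (hne : L ≠ []) {W : Submodule ℝ E} (hW : ∀ p ∈ L, p.1 ≤ W)
    {f : E → ℝ≥0∞} (hf : Measurable f) : nest L (fib W f) = nest L f := by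
  induction L with
  | nil => exact absurd rfl hne
  | cons p L ih =>
    funext x
    simp only [nest_cons]
    by_cases hL : L = []
    · subst hL
      simp only [nest_nil]
      rw [fib_tower (hW p List.mem_cons_self) hf]
    · rw [ih hL (fun q hq => hW q (List.mem_cons_of_mem _ hq))]

lemma val_fib {L : Levels E} {W : Submodule ℝ E} (hW : ∀ p ∈ L, p.1 ≤ W)
    {f : E → ℝ≥0∞} (hf : Measurable f) : val L (fib W f) = val L f := by
  by_cases hL : L = []
  · subst hL
    exact lintegral_fib hf
  · unfold val
    rw [nest_fib hL hW hf]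

/-- **First variation, conditional form.** For payoffs `f`, `f'` and every outer weight `g`:
`∫ g nest f' + ∫ g vis_{f'} f ≤ ∫ g nest f + ∫ g vis_{f'} f'`. -/
theorem first_variation_aux {L : Levels E} (hL : Good L) {f f' : E → ℝ≥0∞} (hf : Measurable f)
    (hf' : Measurable f') :
    ∀ {W : Submodule ℝ E} (_ : ∀ p ∈ L, W ≤ p.1) {g : E → ℝ≥0∞} (_ : Measurable g) (_ : Inv W g),
    ∫⁻ x, g x * nest L f' x ∂stdGaussian E + ∫⁻ x, g x * (vis L f' x * f x) ∂stdGaussian E
      ≤ ∫⁻ x, g x * nest L f x ∂stdGaussian E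
        + ∫⁻ x, g x * (vis L f' x * f' x) ∂stdGaussian E := by
  induction L with
  | nil =>
    intro W _ g hg _
    simp only [nest_nil, vis_nil, one_mul]
    rw [add_comm]
  | cons p L ih =>
    intro W hW g hg hgW
    obtain ⟨ha, haW, hle, hL'⟩ := hL
    set h' := nest L f' with hh'
    set h := nest L f with hh
    have hm' : Measurable h' := measurable_nest hL' hf'
    have hm : Measurable h := measurable_nest hL' hf
    set s : E → ℝ≥0∞ := fun x => if p.2 x < fib p.1 h' x then 1 else 0 with hs
    have hsm : Measurable s := Measurable.ite (measurableSet_lt ha (measurable_fib hm'))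
      measurable_const measurable_const
    have hsW : Inv p.1 s := haW.ite (inv_fib _ _)
    set t : E → ℝ≥0∞ := fun x => if p.2 x < fib p.1 h' x then 0 else 1 with ht
    have htm : Measurable t := Measurable.ite (measurableSet_lt ha (measurable_fib hm'))
      measurable_const measurable_const
    have hgp : Inv p.1 g := hgW.mono (hW p List.mem_cons_self)
    have hvm : Measurable (vis L f') := measurable_vis hL' hf'
    -- the nested value of `f'`
    have e1 : ∫⁻ x, g x * nest (p :: L) f' x ∂stdGaussian E
        = ∫⁻ x, g x * t x * p.2 x ∂stdGaussian E + ∫⁻ x, g x * s x * h' x ∂stdGaussian E := by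
      have : ∫⁻ x, g x * s x * h' x ∂stdGaussian E
          = ∫⁻ x, g x * s x * fib p.1 h' x ∂stdGaussian E :=
        (lintegral_mul_fib (hgp.mul hsW) (hg.mul hsm) hm').symm
      rw [this, ← lintegral_add_left (f := fun x => g x * t x * p.2 x) ((hg.mul htm).mul ha)]
      apply lintegral_congr
      intro x
      simp only [nest_cons, hs, ht]
      by_cases hx : p.2 x < fib p.1 h' x
      · rw [if_pos hx, if_pos hx, max_eq_right hx.le]; ring
      · rw [if_neg hx, if_neg hx, max_eq_left (not_lt.mp hx)]; ring
    -- lower bound for the nested value of `f`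
    have e2 : ∫⁻ x, g x * t x * p.2 x ∂stdGaussian E + ∫⁻ x, g x * s x * h x ∂stdGaussian E
        ≤ ∫⁻ x, g x * nest (p :: L) f x ∂stdGaussian E := by
      have : ∫⁻ x, g x * s x * h x ∂stdGaussian E
          = ∫⁻ x, g x * s x * fib p.1 h x ∂stdGaussian E :=
        (lintegral_mul_fib (hgp.mul hsW) (hg.mul hsm) hm).symm
      rw [this, ← lintegral_add_left (f := fun x => g x * t x * p.2 x) ((hg.mul htm).mul ha)]
      apply lintegral_mono
      intro x
      simp only [nest_cons, hs, ht]
      by_cases hx : p.2 x < fib p.1 h' x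
      · simp only [if_pos hx, mul_zero, zero_mul, zero_add, mul_one]
        gcongr
        exact le_max_right _ _
      · simp only [if_neg hx, mul_zero, zero_mul, add_zero, mul_one]
        gcongr
        exact le_max_left _ _
    have e3 : ∀ φ : E → ℝ≥0∞, ∫⁻ x, g x * (vis (p :: L) f' x * φ x) ∂stdGaussian E
        = ∫⁻ x, g x * s x * (vis L f' x * φ x) ∂stdGaussian E := by
      intro φ
      apply lintegral_congr
      intro x
      simp only [vis_cons, hs, ← hh']
      ring
    rw [e1, e3, e3]
    have e4 := ih hL' (W := p.1) hle (g := fun x => g x * s x) (hg.mul hsm) (hgp.mul hsW)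
    calc ∫⁻ x, g x * t x * p.2 x ∂stdGaussian E + ∫⁻ x, g x * s x * h' x ∂stdGaussian E
        + ∫⁻ x, g x * s x * (vis L f' x * f x) ∂stdGaussian E
        = ∫⁻ x, g x * t x * p.2 x ∂stdGaussian E + (∫⁻ x, g x * s x * h' x ∂stdGaussian E
        + ∫⁻ x, g x * s x * (vis L f' x * f x) ∂stdGaussian E) := by rw [add_assoc]
      _ ≤ ∫⁻ x, g x * t x * p.2 x ∂stdGaussian E + (∫⁻ x, g x * s x * h x ∂stdGaussian E
        + ∫⁻ x, g x * s x * (vis L f' x * f' x) ∂stdGaussian E) := by gcongr
      _ = (∫⁻ x, g x * t x * p.2 x ∂stdGaussian E + ∫⁻ x, g x * s x * h x ∂stdGaussian E)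
        + ∫⁻ x, g x * s x * (vis L f' x * f' x) ∂stdGaussian E := by rw [add_assoc]
      _ ≤ _ := by gcongr

/-- **First variation** -/
theorem first_variation {L : Levels E} (hL : Good L) {f f' : E → ℝ≥0∞} (hf : Measurable f)
    (hf' : Measurable f') :
    val L f' + ∫⁻ x, vis L f' x * f x ∂stdGaussian E
      ≤ val L f + ∫⁻ x, vis L f' x * f' x ∂stdGaussian E := by
  have := first_variation_aux hL hf hf' (W := ⊥) (fun _ _ => bot_le) (g := fun _ => 1)
    measurable_const (inv_const _ _)
  unfold val
  simpa only [one_mul] using this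

/-- `L¹`-Lipschitz -/
theorem val_le_add {L : Levels E} (hL : Good L) {f f' : E → ℝ≥0∞} (hf : Measurable f)
    (hf' : Measurable f') (hfin : ∫⁻ x, f x ∂stdGaussian E ≠ ∞) :
    val L f' ≤ val L f + ∫⁻ x, vis L f' x * (f' x - f x) ∂stdGaussian E := by
  have h1 := first_variation hL hf hf'
  have hvm := measurable_vis hL hf'
  have h2 : ∫⁻ x, vis L f' x * f' x ∂stdGaussian E
      ≤ ∫⁻ x, vis L f' x * (f' x - f x) ∂stdGaussian E
        + ∫⁻ x, vis L f' x * f x ∂stdGaussian E := by
    rw [← lintegral_add_right (g := fun x => vis L f' x * f x) _ (hvm.mul hf)]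
    apply lintegral_mono
    intro x
    simp only
    rw [← mul_add]
    gcongr
    exact le_tsub_add
  have h3 : ∫⁻ x, vis L f' x * f x ∂stdGaussian E ≠ ∞ := by
    apply ne_top_of_le_ne_top hfin
    apply lintegral_mono
    intro x
    exact (mul_le_mul' (vis_le_one L f' x) le_rfl).trans_eq (one_mul _)
  have h4 : val L f' + ∫⁻ x, vis L f' x * f x ∂stdGaussian E
      ≤ val L f + ∫⁻ x, vis L f' x * (f' x - f x) ∂stdGaussian E
        + ∫⁻ x, vis L f' x * f x ∂stdGaussian E := by
    calc _ ≤ val L f + ∫⁻ x, vis L f' x * f' x ∂stdGaussian E := h1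
      _ ≤ val L f + (∫⁻ x, vis L f' x * (f' x - f x) ∂stdGaussian E
        + ∫⁻ x, vis L f' x * f x ∂stdGaussian E) := by gcongr
      _ = _ := by rw [add_assoc]
  exact (ENNReal.add_le_add_iff_right h3).mp h4

end Vale.Agent.P262.H395
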