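import Vale.Agent.P262.H395.Total
import Vale.Agent.P262.H395.Iso
import Vale.Agent.P262.H118.Elem2

/-!
# P262, milestone 1: the total ledger on the elementary moves of the time axis
-/

set_option linter.all false

open MeasureTheory ProbabilityTheory Set Finset Module
open scoped ENNReal

namespace Vale.Agent.P262.H395

open Vale.Agent.P262.H136 Vale.Agent.P262.H118

variable {E : Type*} [NormedAddCommGroup E] [InnerProductSpace ℝ E] [FiniteDimensional ℝ E]
  [MeasurableSpace E] [BorelSpace E]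
  {v : ℕ → E} {T : ℕ} {N δ : ℝ} {f : ℕ → E} {d : ℕ}

/-- body at state `m` (not pulled back) -/
noncomputable def Kb (n : ℕ → ℕ) (B : ℕ → Set E) (m : ℕ) : Set E :=
  if n (tau n m) = m then B (tau n m) else B (tau n m + 1)

section

variable {K : K1 v T N δ f d} (M : Elem K)

omit [MeasurableSpace E] [BorelSpace E] in
lemma kb_start (B : ℕ → Set E) (t : ℕ) : Kb M.n B (M.n t) = B t := by
  have h : tau M.n (M.n t) = t := tau_eq M.n_zero M.n_lt le_rfl (M.n_lt t)
  unfold Kb
  rw [h, if_pos rfl]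

omit [MeasurableSpace E] [BorelSpace E] in
lemma kb_in (B : ℕ → Set E) {t m : ℕ} (h1 : M.n t < m) (h2 : m < M.n (t + 1)) :
    Kb M.n B m = B (t + 1) := by
  have h : tau M.n m = t := tau_eq M.n_zero M.n_lt h1.le h2
  unfold Kb
  rw [h, if_neg (by omega)]

/-- payoff at state `m`: indicator of the complement of the body, in leaf coordinates -/
noncomputable def pf (B : ℕ → Set E) (m : ℕ) : E → ℝ≥0∞ :=
  fun x => (Kb M.n B m)ᶜ.indicator 1 (M.U (d - 1) m x)

omit [MeasurableSpace E] [BorelSpace E] in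
/-- change of coordinates below level `i` fixes the labels of level `i` -/
lemma U_factor {i i' : ℕ} (h : i ≤ i') (m : ℕ) :
    ∃ R : E ≃ₗᵢ[ℝ] E, M.U i' m = R.trans (M.U i m) ∧ Fixes R (L f i) := by
  induction i', h using Nat.le_induction with
  | base => exact ⟨LinearIsometryEquiv.refl ℝ E, by ext x; rfl, Fixes.refl _⟩
  | succ i' h ih =>
    obtain ⟨R, h1, h2⟩ := ih
    refine ⟨(M.Q m i').trans R, ?_, ?_⟩
    · rw [M.U_succ, h1]; ext x; rfl
    · intro x hx
      rw [LinearIsometryEquiv.trans_apply, M.fix m i' x (L_mono f h hx), h2 x hx]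

/-- the level `i` mass does not depend on the coordinates used, among those of levels `≥ i` -/
lemma fib_coord {i i' : ℕ} (h : i ≤ i') (m : ℕ) {φ : E → ℝ≥0∞} (hφ : Measurable φ) (x : E) :
    fib (L f i) (fun y => φ (M.U i' m y)) x = fib (L f i) (fun y => φ (M.U i m y)) x := by
  obtain ⟨R, h1, h2⟩ := U_factor M h m
  rw [h1]
  exact fib_fixes h2 (f := fun y => φ (M.U i m y))
    (hφ.comp (M.U i m).continuous.measurable) x

variable {B : ℕ → Set E} (hB : ∀ t, MeasurableSet (B t))
include hB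

lemma kb_meas (m : ℕ) : MeasurableSet (Kb M.n B m) := by
  unfold Kb
  split_ifs
  exacts [hB _, hB _]

lemma pf_meas (m : ℕ) : Measurable (pf M B m) :=
  (measurable_one.indicator (kb_meas M hB m).compl).comp (M.U (d - 1) m).continuous.measurable

omit [MeasurableSpace E] [BorelSpace E] hB in
lemma pf_le (m : ℕ) (x : E) : pf M B m x ≤ 1 := by
  unfold pf
  by_cases h : M.U (d - 1) m x ∈ (Kb M.n B m)ᶜ
  · rw [indicator_of_mem h]; exact le_rfl
  · rw [indicator_of_notMem h]; exact zero_le_one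

/-- the mass at level `i` read in the coordinates of level `i` -/
lemma fib_pf {i : ℕ} (hi : i < d) (m : ℕ) (x : E) :
    fib (L f i) (pf M B m) x = fib (L f i) (fun y => (Kb M.n B m)ᶜ.indicator 1 (M.U i m y)) x :=
  fib_coord M (by omega) m (measurable_one.indicator (kb_meas M hB m).compl) x

/-- the levels `i ≤ jj m` do not see the rotation -/
lemma fib_rot_le {t m : ℕ} (h1 : M.n t < m) (h2 : m + 1 < M.n (t + 1)) {i : ℕ} (hid : i < d)
    (hi : i ≤ M.jj m) (x : E) : fib (L f i) (pf M B (m + 1)) x = fib (L f i) (pf M B m) x := by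
  rw [fib_pf M hB hid, fib_pf M hB hid, M.U_rot_le h1 h2 hi, kb_in M B h1 (by omega),
    kb_in M B (h1.trans (Nat.lt_succ_self m)) h2]

/-- the surviving levels do not see the reopening -/
lemma fib_reopen {t : ℕ} (ht : t + 1 < T) {i : ℕ} (hi : i < d) (h : t + 1 ∉ K.nw i) (x : E) :
    fib (L f i) (pf M B (M.n (t + 1))) x = fib (L f i) (pf M B (M.n (t + 1) - 1)) x := by
  have h3 := M.n_succ t
  rw [fib_pf M hB hi, fib_pf M hB hi, M.U_reopen ht hi h, kb_start M B (t + 1),
    kb_in M B (t := t) (m := M.n (t + 1) - 1) (by omega) (by omega)]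

lemma mean_pf (m : ℕ) : mean (pf M B m) = (stdGaussian E (Kb M.n B m)ᶜ).toReal := by
  unfold mean pf
  rw [lintegral_isometry (M.U (d - 1) m) (measurable_one.indicator (kb_meas M hB m).compl),
    lintegral_indicator_one (kb_meas M hB m).compl]

end

/-! ### the ledger -/

open Classical in
/-- end state of a block `[s, e)` of level `i` -/
noncomputable def est {K : K1 v T N δ f d} (M : Elem K) (i e : ℕ) : ℕ :=
  if e ∈ K.nw i ∨ e = T then M.n (e - 1) + 1 else M.n e

/-- rules and caps on the time axis -/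
structure Rules {K : K1 v T N δ f d} (M : Elem K) (B : ℕ → Set E) (om : ℕ → ℕ → E → ℝ≥0∞)
    (a : ℕ → E → ℝ≥0∞) : Prop where
  omm : ∀ i t, Measurable (om i t)
  om1 : ∀ i t x, om i t x ≤ 1
  omi : ∀ i t, Inv (L f i) (om i t)
  omb : ∀ i t, t + 1 ∉ K.nb i → om i (t + 1) = om i t
  am : ∀ i, Measurable (a i)
  a1 : ∀ i x, a i x ≤ 1
  rule : ∀ i < d, ∀ s e, Iv (K.nb i) T s e → ∀ y, om i s y = 1 ∨
    fib (L f i) (pf M B (est M i e)) y ≤ a i y

omit [FiniteDimensional ℝ E] [MeasurableSpace E] [BorelSpace E] in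
lemma mem_nb_leaf [FiniteDimensional ℝ E] (K : K1 v T N δ f d) (hf : ONB f d)
    (hd : finrank ℝ E = d) (hd1 : 1 ≤ d) (hNδ : N < δ) (hv : ∀ t, t < T → ‖v t‖ = δ) :
    ∀ t, t < T → t ∈ K.nb (d - 1) := by
  intro t
  induction t with
  | zero => exact fun _ => K.zero_mem_nb _
  | succ t ih =>
    intro ht
    have h1 := iv_en (ih (by omega)) (by omega : t < T)
    have h2 := K.leaf_block hf hd hd1 hNδ hv h1
    rcases h1.2.2.2.1 with h3 | h3
    · rw [h2] at h3; exact h3
    · omega

lemma st_of_iv {S : Set ℕ} {s e t : ℕ} (h0 : 0 ∈ S) (h : Iv S T s e) (h1 : s ≤ t) (h2 : t < e) :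
    st S t = s := (h.st_eq h0 h1 h2).1

section

variable {K : K1 v T N δ f d} {M : Elem K} {B : ℕ → Set E} {om : ℕ → ℕ → E → ℝ≥0∞}
  {a : ℕ → E → ℝ≥0∞}

/-- the rules are constant on blocks -/
lemma Rules.om_eq (H : Rules M B om a) {i s t : ℕ} (hst : s ≤ t)
    (hb : ∀ r, s < r → r ≤ t → r ∉ K.nb i) : om i t = om i s := by
  induction t, hst using Nat.le_induction with
  | base => rfl
  | succ t hst ih =>
    rw [H.omb i t (hb (t + 1) (by omega) le_rfl), ih fun r h1 h2 => hb r h1 (by omega)]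

lemma Rules.om_iv (H : Rules M B om a) {i s e t : ℕ} (h : Iv (K.nb i) T s e) (h1 : s ≤ t)
    (h2 : t < e) : om i t = om i s :=
  H.om_eq h1 fun r h3 h4 => h.2.2.2.2 r h3 (by omega)

omit [MeasurableSpace E] [BorelSpace E] in
lemma nb_mono' (K : K1 v T N δ f d) : Monotone K.nb :=
  monotone_nat_of_le_succ fun i => (K.nb_subset_nw i).trans (K.nw_subset_nb (i + 1))

lemma Rules.omp_iv (H : Rules M B om a) {i j s e t : ℕ} (hj : j ≤ i + 1) (h : Iv (K.nb i) T s e)
    (h1 : s ≤ t) (h2 : t < e) : Omp om j t = Omp om j s := by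
  funext x
  unfold Omp
  refine Finset.prod_congr rfl fun k hk => ?_
  rw [Finset.mem_range] at hk
  rw [H.om_eq (i := k) h1 fun r h3 h4 h5 => h.2.2.2.2 r h3 (by omega)
    (nb_mono' K (by omega) h5)]

/-- the abstract ledger data -/
theorem Rules.bk (H : Rules M B om a) (hf : ONB f d) (hd : finrank ℝ E = d) (hd1 : 1 ≤ d)
    (hNδ : N < δ) (hv : ∀ t, t < T → ‖v t‖ = δ) (hB : ∀ t, MeasurableSet (B t)) :
    Bk (L f) K.nw K.nb (d - 1) T (fun t => pf M B (M.n t)) (fun t => pf M B (M.n t + 1)) om a where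
  mono := L_mono f
  nw_nb := K.nw_subset_nb
  nb_nw := K.nb_subset_nw
  leaf := mem_nb_leaf K hf hd hd1 hNδ hv
  gm := fun t => pf_meas M hB _
  hm := fun t => pf_meas M hB _
  g1 := fun t x => pf_le M _ x
  h1 := fun t x => pf_le M _ x
  omm := H.omm
  om1 := H.om1
  omi := H.omi
  omb := H.omb
  am := H.am
  a1 := H.a1
  rule := by
    intro i hi t ht hend y
    have hiv := iv_st (B := K.nb i) (K.zero_mem_nb i) ht
    obtain ⟨h1, h2, h3⟩ := hiv
    have hen : en (K.nb i) T (st (K.nb i) t) = t + 1 := by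
      by_contra hcon
      rcases hend with h4 | h4
      · exact h1.2.2.2.2 (t + 1) (by omega) (by omega) h4
      · have := h1.2.2.1; omega
    rw [hen] at h1
    have h5 := H.rule i (by omega) _ _ h1 y
    rw [H.om_iv h1 h2 (Nat.lt_succ_self t)]
    rcases h5 with h5 | h5
    · exact Or.inl h5
    · right
      unfold est at h5
      rw [Nat.add_sub_cancel] at h5
      unfold Bk.fin
      by_cases h6 : t + 1 ∈ K.nw i ∨ t + 1 = T
      · rw [if_pos h6] at h5 ⊢; exact h5
      · rw [if_neg h6] at h5 ⊢; exact h5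

/-- opening price of the life of level `i` starting at `s` -/
noncomputable def opK (M : Elem K) (B : ℕ → Set E) (om : ℕ → ℕ → E → ℝ≥0∞) (a : ℕ → E → ℝ≥0∞)
    (i s : ℕ) : ℝ :=
  mean (fun y => Omp om i s y * (a i y - fib (L f i) (pf M B (M.n s)) y))

/-- price of the block of level `i` starting at `s` -/
noncomputable def pzK (M : Elem K) (B : ℕ → Set E) (om : ℕ → ℕ → E → ℝ≥0∞) (a : ℕ → E → ℝ≥0∞)
    (i s : ℕ) : ℝ :=
  mean (fun y => Omp om i s y * om i s y *
    (a i y - fib (L f i) (pf M B (est M i (en (K.nb i) T s))) y))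

open Classical in
/-- price of the rotation move `m` of step `t` at level `i` -/
noncomputable def rcK (M : Elem K) (B : ℕ → Set E) (om : ℕ → ℕ → E → ℝ≥0∞) (i t m : ℕ) : ℝ :=
  if t + 1 ∉ K.nw i ∧ M.jj m < i then
    mean (fun y => Omp om i t y * (1 - om i t y)
      * (fib (L f i) (pf M B m) y - fib (L f i) (pf M B (m + 1)) y)) else 0

/-- counted gain of step `t` -/
noncomputable def gaK (M : Elem K) (B : ℕ → Set E) (om : ℕ → ℕ → E → ℝ≥0∞) (t : ℕ) : ℝ :=
  mean (fun y => Omp om d t y * ((M.U (d - 1) (M.n t)) ⁻¹' (B (t + 1) \ B t)).indicator 1 y)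

/-- counted loss of step `t` -/
noncomputable def loK (M : Elem K) (B : ℕ → Set E) (om : ℕ → ℕ → E → ℝ≥0∞) (t : ℕ) : ℝ :=
  mean (fun y => Omp om d t y * ((M.U (d - 1) (M.n t)) ⁻¹' (B t \ B (t + 1))).indicator 1 y)

omit [NormedAddCommGroup E] [InnerProductSpace ℝ E] [FiniteDimensional ℝ E]
  [MeasurableSpace E] [BorelSpace E] in
lemma tele_tsub (D : ℕ → ℝ≥0∞) {m0 m1 : ℕ} (h : m0 ≤ m1) :
    D m0 - D m1 ≤ ∑ m ∈ Ico m0 m1, (D m - D (m + 1)) := by
  induction m1, h using Nat.le_induction with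
  | base => simp
  | succ m1 h ih =>
    rw [Finset.sum_Ico_succ_top h]
    exact (tsub_le_tsub_add_tsub (b := D m1)).trans (add_le_add ih le_rfl)

lemma mean_sum_le {ι : Type*} (s : Finset ι) {F : ι → E → ℝ≥0∞} (hF : ∀ i ∈ s, Measurable (F i))
    (hF1 : ∀ i ∈ s, ∀ x, F i x ≤ 1) {φ : E → ℝ≥0∞} (hφ : ∀ x, φ x ≤ ∑ i ∈ s, F i x) :
    mean φ ≤ ∑ i ∈ s, mean (F i) := by
  have h1 : ∀ i ∈ s, ∫⁻ x, F i x ∂stdGaussian E ≠ ∞ := fun i hi =>
    lintegral_ne_top_of_le_one (hF1 i hi)
  unfold mean
  rw [← ENNReal.toReal_sum h1, ← lintegral_finset_sum' _ fun i hi => (hF i hi).aemeasurable]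
  refine ENNReal.toReal_mono ?_ (lintegral_mono hφ)
  rw [lintegral_finset_sum' _ fun i hi => (hF i hi).aemeasurable]
  exact ENNReal.sum_ne_top.2 h1

/-- the value cost of the changes of frame of step `t` at level `i` -/
theorem rotS_le (H : Rules M B om a) (hB : ∀ t, MeasurableSet (B t)) {i t : ℕ} (hi : i < d) :
    Bk.rotS (L f) K.nw T (fun t => pf M B (M.n t)) (fun t => pf M B (M.n t + 1)) om i t
      ≤ ∑ m ∈ Ico (M.n t + 1) (M.n (t + 1) - 1), rcK M B om i t m := by
  unfold Bk.rotS
  split_ifs with hc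
  swap
  · refine Finset.sum_nonneg fun m _ => ?_
    unfold rcK
    split_ifs
    exacts [mean_nonneg _, le_rfl]
  obtain ⟨hc1, hc2⟩ := hc
  have hn := M.n_succ t
  have hwm : Measurable fun y => Omp om i t y * (1 - om i t y) := by
    refine Measurable.mul ?_ (measurable_const.sub (H.omm i t))
    unfold Omp
    exact Finset.measurable_prod _ fun k _ => H.omm k t
  have hOmp1 : ∀ y, Omp om i t y ≤ 1 := fun y =>
    Finset.prod_le_one' fun k _ => H.om1 k t y
  have hw1 : ∀ y, Omp om i t y * (1 - om i t y) ≤ 1 := fun y =>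
    mul_le_one'' (hOmp1 y) tsub_le_self
  have hstep : ∀ m ∈ Finset.Ico (M.n t + 1) (M.n (t + 1) - 1), mean (fun y => Omp om i t y
      * (1 - om i t y) * (fib (L f i) (pf M B m) y - fib (L f i) (pf M B (m + 1)) y))
      ≤ rcK M B om i t m := by
    intro m hm
    rw [Finset.mem_Ico] at hm
    unfold rcK
    by_cases hj : M.jj m < i
    · rw [if_pos ⟨hc1, hj⟩]
    · rw [if_neg (fun h => hj h.2)]
      have : (fun y => Omp om i t y * (1 - om i t y)
          * (fib (L f i) (pf M B m) y - fib (L f i) (pf M B (m + 1)) y)) = fun _ => 0 := by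
        funext y
        rw [fib_rot_le M hB (t := t) (by omega) (by omega) hi (by omega), tsub_self, mul_zero]
      rw [this, mean_zero]
  refine le_trans ?_ (Finset.sum_le_sum hstep)
  refine mean_sum_le _ (fun m _ => hwm.mul ((measurable_fib (pf_meas M hB m)).sub
    (measurable_fib (pf_meas M hB (m + 1))))) (fun m _ y => mul_le_one'' (hw1 y)
    (tsub_le_self.trans (fib_le_one (pf_le M m) y))) fun y => ?_
  simp only [Pi.mul_apply, Pi.sub_apply]
  rw [← Finset.mul_sum]
  refine mul_le_mul' le_rfl ?_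
  have h1 := tele_tsub (fun m => fib (L f i) (pf M B m) y)
    (by omega : M.n t + 1 ≤ M.n (t + 1) - 1)
  rw [fib_reopen M hB hc2 hi hc1]
  exact h1

lemma gain_loss (hB : ∀ t, MeasurableSet (B t)) (H : Rules M B om a) (t : ℕ) :
    mean (fun y => Omp om d t y * pf M B (M.n t) y) + loK M B om t
      = mean (fun y => Omp om d t y * pf M B (M.n t + 1) y) + gaK M B om t := by
  have hOm : Measurable (Omp om d t) := by
    unfold Omp
    exact Finset.measurable_prod _ fun k _ => H.omm k t
  have hOmp1 : ∀ y, Omp om d t y ≤ 1 := fun y =>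
    Finset.prod_le_one' fun k _ => H.om1 k t y
  have hi1 : ∀ (S : Set E) (y : E), S.indicator (1 : E → ℝ≥0∞) y ≤ 1 := fun S y => by
    by_cases h : y ∈ S
    · rw [indicator_of_mem h]; exact le_rfl
    · rw [indicator_of_notMem h]; exact zero_le_one
  unfold gaK loK
  have hadd : ∀ (m : ℕ) (S : Set E), mean (fun y => Omp om d t y * pf M B m y)
      + mean (fun y => Omp om d t y * S.indicator 1 y)
      = mean (fun y => Omp om d t y * pf M B m y + Omp om d t y * S.indicator 1 y) := fun m S =>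
    (mean_add (f := fun y => Omp om d t y * pf M B m y) (hOm.mul (pf_meas M hB _))
      (fun y => mul_le_one'' (hOmp1 y) (pf_le M _ y))
      (fun y => mul_le_one'' (hOmp1 y) (hi1 S y))).symm
  rw [hadd, hadd]
  congr 1
  funext y
  rw [← mul_add, ← mul_add]
  congr 1
  have hn := M.n_succ t
  unfold pf
  rw [M.U_star, kb_start M B t, kb_in M B (t := t) (m := M.n t + 1) (by omega) (by omega)]
  by_cases h1 : M.U (d - 1) (M.n t) y ∈ B t
  · by_cases h2 : M.U (d - 1) (M.n t) y ∈ B (t + 1)
    · simp [indicator, h1, h2]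
    · simp [indicator, h1, h2]
  · by_cases h2 : M.U (d - 1) (M.n t) y ∈ B (t + 1)
    · simp [indicator, h1, h2]
    · simp [indicator, h1, h2]

open Classical in
/-- **TOTAL LEDGER on the elementary moves.** -/
theorem total_K1 (H : Rules M B om a) (hf : ONB f d) (hd : finrank ℝ E = d) (hd1 : 1 ≤ d)
    (hNδ : N < δ) (hv : ∀ t, t < T → ‖v t‖ = δ) (hB : ∀ t, MeasurableSet (B t)) (hT : 0 < T) :
    (stdGaussian E (B T)ᶜ).toReal + ∑ t ∈ range T, gaK M B om t
      ≤ (stdGaussian E (B 0)ᶜ).toReal + ∑ t ∈ range T, loK M B om t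
        + ∑ i ∈ range d, ∑ s ∈ range T with s ∈ K.nw i, opK M B om a i s
        + ∑ i ∈ range d, ∑ s ∈ range T with s ∈ K.nb i, pzK M B om a i s
        + ∑ i ∈ range d, ∑ t ∈ range T, ∑ m ∈ Ico (M.n t + 1) (M.n (t + 1) - 1),
            rcK M B om i t m := by
  have hbk := H.bk hf hd hd1 hNδ hv hB
  have hmean : ∀ t, t + 1 < T → mean (pf M B (M.n t + 1)) = mean (pf M B (M.n (t + 1))) := by
    intro t _
    have hn := M.n_succ t
    rw [mean_pf M hB, mean_pf M hB, kb_start M B (t + 1),
      kb_in M B (t := t) (m := M.n t + 1) (by omega) (by omega)]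
  have h1 := hbk.total hT K.nw_zero hmean
  have hend : mean (pf M B (M.n (T - 1) + 1)) = (stdGaussian E (B T)ᶜ).toReal := by
    have hn := M.n_succ (T - 1)
    rw [mean_pf M hB, kb_in M B (t := T - 1) (m := M.n (T - 1) + 1) (by omega) (by omega),
      Nat.sub_add_cancel hT]
  have hstart : mean (pf M B (M.n 0)) = (stdGaussian E (B 0)ᶜ).toReal := by
    rw [mean_pf M hB, kb_start M B 0]
  have hdd : d - 1 + 1 = d := by omega
  rw [hdd, hend, hstart] at h1
  have h2 : ∀ t ∈ range T, mean (fun y => Omp om d t y * pf M B (M.n t) y)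
      = mean (fun y => Omp om d t y * pf M B (M.n t + 1) y) + gaK M B om t - loK M B om t :=
    fun t _ => by have := gain_loss (M := M) hB H t; linarith
  rw [Finset.sum_congr rfl h2, Finset.sum_sub_distrib, Finset.sum_add_distrib] at h1
  rw [Finset.sum_comm (s := range T) (t := range d)] at h1
  have h3 : ∀ i ∈ range d, ∑ t ∈ range T,
      (Bk.opn (L f) K.nw (fun t => pf M B (M.n t)) a i t (Omp om i t)
        + Bk.cls (L f) K.nw K.nb T (fun t => pf M B (M.n t)) (fun t => pf M B (M.n t + 1)) om a i t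
          (Omp om i t)
        + Bk.rotS (L f) K.nw T (fun t => pf M B (M.n t)) (fun t => pf M B (M.n t + 1)) om i t)
      ≤ ∑ s ∈ range T with s ∈ K.nw i, opK M B om a i s
        + ∑ s ∈ range T with s ∈ K.nb i, pzK M B om a i s
        + ∑ t ∈ range T, ∑ m ∈ Ico (M.n t + 1) (M.n (t + 1) - 1), rcK M B om i t m := by
    intro i hi
    rw [Finset.mem_range] at hi
    rw [Finset.sum_add_distrib, Finset.sum_add_distrib]
    refine add_le_add (add_le_add (le_of_eq ?_) (le_of_eq ?_))
      (Finset.sum_le_sum fun t _ => rotS_le H hB hi)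
    · rw [Finset.sum_filter]
      refine Finset.sum_congr rfl fun t _ => ?_
      unfold Bk.opn opK
      rfl
    · -- blocks: from the ends to the starts
      have e1 : ∑ t ∈ range T, Bk.cls (L f) K.nw K.nb T (fun t => pf M B (M.n t))
          (fun t => pf M B (M.n t + 1)) om a i t (Omp om i t)
          = ∑ t ∈ range T with (t + 1 ∈ K.nb i ∨ t + 1 = T),
            Bk.cls (L f) K.nw K.nb T (fun t => pf M B (M.n t))
              (fun t => pf M B (M.n t + 1)) om a i t (Omp om i t) := by
        rw [Finset.sum_filter]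
        refine Finset.sum_congr rfl fun t _ => ?_
        by_cases hc : t + 1 ∈ K.nb i ∨ t + 1 = T
        · rw [if_pos hc]
        · rw [if_neg hc]
          unfold Bk.cls
          rw [if_neg hc]
      rw [e1]
      refine Finset.sum_nbij' (fun t => st (K.nb i) t) (fun s => en (K.nb i) T s - 1) ?_ ?_ ?_ ?_ ?_
      · intro t ht
        rw [Finset.mem_filter, Finset.mem_range] at ht ⊢
        exact ⟨(st_le t).trans_lt ht.1, st_mem (K.zero_mem_nb i) t⟩
      · intro s hs
        rw [Finset.mem_filter, Finset.mem_range] at hs ⊢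
        have h4 := iv_en hs.2 hs.1
        obtain ⟨g1, g2, g3, g4, g5⟩ := h4
        refine ⟨by omega, ?_⟩
        have : en (K.nb i) T s - 1 + 1 = en (K.nb i) T s := by omega
        rw [this]; exact g4
      · intro t ht
        rw [Finset.mem_filter, Finset.mem_range] at ht
        have h4 := iv_st (K.zero_mem_nb i) ht.1
        obtain ⟨g1, g2, g3⟩ := h4
        have hen : en (K.nb i) T (st (K.nb i) t) = t + 1 := by
          by_contra hcon
          rcases ht.2 with h5 | h5
          · exact g1.2.2.2.2 (t + 1) (by omega) (by omega) h5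
          · have := g1.2.2.1; omega
        rw [hen, Nat.add_sub_cancel]
      · intro s hs
        rw [Finset.mem_filter, Finset.mem_range] at hs
        have h4 := iv_en hs.2 hs.1
        have h5 := h4.2.1
        exact (h4.st_eq (K.zero_mem_nb i) (by omega) (by omega)).1
      · intro t ht
        rw [Finset.mem_filter, Finset.mem_range] at ht
        have h4 := iv_st (K.zero_mem_nb i) ht.1
        obtain ⟨g1, g2, g3⟩ := h4
        have hen : en (K.nb i) T (st (K.nb i) t) = t + 1 := by
          by_contra hcon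
          rcases ht.2 with h5 | h5
          · exact g1.2.2.2.2 (t + 1) (by omega) (by omega) h5
          · have := g1.2.2.1; omega
        unfold Bk.cls pzK
        rw [if_pos ht.2, hen]
        have h6 : Omp om i t = Omp om i (st (K.nb i) t) := H.omp_iv (Nat.le_succ i) g1 g2 g3
        have h7 : om i t = om i (st (K.nb i) t) := H.om_iv g1 g2 g3
        rw [h6, h7]
        have h8 : Bk.fin K.nw T (fun t => pf M B (M.n t)) (fun t => pf M B (M.n t + 1)) i t
            = pf M B (est M i (t + 1)) := by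
          unfold Bk.fin est
          rw [Nat.add_sub_cancel]
          by_cases h9 : t + 1 ∈ K.nw i ∨ t + 1 = T
          · rw [if_pos h9, if_pos h9]
          · rw [if_neg h9, if_neg h9]
        rw [h8]
  have h5 := Finset.sum_le_sum h3
  rw [Finset.sum_add_distrib, Finset.sum_add_distrib] at h5
  linarith

end

end Vale.Agent.P262.H395
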