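import Vale.Agent.P262.M1.Blocks
import Vale.Agent.P262.H395.TotalK1

/-!
# P262, milestone 1: block TEL, the telescoping of the root potential (part 1)

Doubled time: step `2t` is the star of step `t`, step `2t+1` all rotations of step `t`; the
reopening comes between `2t+1` and `2t+2`.
-/

set_option linter.all false

open MeasureTheory ProbabilityTheory Set Finset Module
open scoped ENNReal

namespace Vale.Agent.P262.H395

open Vale.Agent.P262.H136 Vale.Agent.P262.H118 Vale.Agent.P262.M1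

variable {E : Type*} [NormedAddCommGroup E] [InnerProductSpace ℝ E] [FiniteDimensional ℝ E]
  [MeasurableSpace E] [BorelSpace E]

omit [MeasurableSpace E] [BorelSpace E] in
lemma isCompact_body (v : ℕ → E) (R : ℝ) (t : ℕ) : IsCompact (body v R t) := by
  induction t with
  | zero => exact isCompact_closedBall _ _
  | succ t ih =>
    have h1 : IsClosed (H493.star (body v R t) (v t)) := by
      by_cases hv : v t = 0
      · have : H493.star (body v R t) (0 : E) = body v R t := by
          ext x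
          constructor
          · rintro ⟨a, b, h1, -⟩
            simpa using h1
          · intro h
            exact ⟨-1, 1, by simpa using h, by simpa using h, by norm_num, by norm_num,
              by norm_num⟩
        rw [hv, this]
        exact ih.isClosed
      · exact (H59.isCompact_star ih hv).isClosed
    exact (isCompact_closedBall (0 : E) R).inter_left h1

lemma measurableSet_body (v : ℕ → E) (R : ℝ) (t : ℕ) : MeasurableSet (body v R t) :=
  (isCompact_body v R t).isClosed.measurableSet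

namespace Tel

variable (S : Sys E)

lemma tm_eq {t m : ℕ} (h1 : S.el.n t ≤ m) (h2 : m < S.el.n (t + 1)) : S.tm m = t :=
  tau_eq S.el.n_zero S.el.n_lt h1 h2

lemma tm_n (t : ℕ) : S.tm (S.el.n t) = t := tm_eq S le_rfl (S.el.n_lt t)

lemma tm_n1 (t : ℕ) : S.tm (S.el.n t + 1) = t :=
  tm_eq S (by omega) (by have := S.el.n_succ t; omega)

lemma isStar_n (t : ℕ) : S.IsStar (S.el.n t) := by
  unfold Sys.IsStar
  rw [tm_n]

lemma not_isStar {t m : ℕ} (h1 : S.el.n t < m) (h2 : m < S.el.n (t + 1)) : ¬ S.IsStar m := by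
  unfold Sys.IsStar
  rw [tm_eq S h1.le h2]
  omega

lemma Kb_eq (m : ℕ) : S.Kb m = Kb S.el.n (body S.v S.R) m := by
  unfold Sys.Kb Sys.cnt Kb
  by_cases h : m = S.el.n (S.tm m)
  · rw [if_pos (show S.IsStar m from h), if_pos (show S.el.n (tau S.el.n m) = m from h.symm)]
    rfl
  · rw [if_neg (show ¬ S.IsStar m from h),
      if_neg (show ¬ S.el.n (tau S.el.n m) = m from fun h' => h h'.symm)]
    rfl

/-- leaf payoff of state `m` -/
noncomputable def P (m : ℕ) : E → ℝ≥0∞ := pf S.el (body S.v S.R) m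

lemma P_eq (m : ℕ) : P S m = (S.X S.lf m)ᶜ.indicator 1 := by
  funext x
  unfold P pf Sys.X Sys.lf
  rw [← Kb_eq]
  rfl

lemma P_meas (m : ℕ) : Measurable (P S m) := pf_meas S.el (measurableSet_body S.v S.R) m

lemma P_le (m : ℕ) (x : E) : P S m x ≤ 1 := pf_le S.el m x

lemma X_meas (i m : ℕ) : MeasurableSet (S.X i m) := by
  unfold Sys.X
  rw [Kb_eq]
  exact (S.el.U i m).continuous.measurable (kb_meas S.el (measurableSet_body S.v S.R) m)

lemma lf_lt : S.lf < S.d := by
  unfold Sys.lf
  have := S.hd2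
  omega

lemma lf_succ : S.lf + 1 = S.d := by
  unfold Sys.lf
  have := S.hd2
  omega

lemma De_eq {i : ℕ} (hi : i < S.d) (m : ℕ) (x : E) :
    S.De i m x = fib (L S.f i) (P S m) x := by
  have h := fib_pf S.el (measurableSet_body S.v S.R) hi m x
  unfold Sys.De P
  rw [h, ← Kb_eq]
  rfl

lemma De_meas (i m : ℕ) : Measurable (S.De i m) :=
  measurable_fib (measurable_one.indicator (X_meas S i m).compl)

lemma De_reopen {t : ℕ} (ht : t + 1 < S.T) {i : ℕ} (hi : i < S.d) (h : t + 1 ∉ S.K.nw i) (x : E) :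
    fib (L S.f i) (P S (S.el.n (t + 1))) x = fib (L S.f i) (P S (S.el.n (t + 1) - 1)) x :=
  fib_reopen S.el (measurableSet_body S.v S.R) ht hi h x

lemma ind_le (s : Set E) (x : E) : s.indicator (1 : E → ℝ≥0∞) x ≤ 1 := by
  by_cases h : x ∈ s
  · rw [indicator_of_mem h]; exact le_rfl
  · rw [indicator_of_notMem h]; exact zero_le_one

lemma De_le (i m : ℕ) (x : E) : S.De i m x ≤ 1 := fib_le_one (fun y => ind_le _ y) x

lemma Dc_le (i m : ℕ) (x : E) : S.Dc i m x ≤ 1 := fib_le_one (fun y => ind_le _ y) x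

lemma Dl_le_Dc (i m : ℕ) (x : E) : S.Dl i m x ≤ S.Dc i m x := by
  unfold Sys.Dl Sys.Dc
  refine fib_mono (fun y => ?_) x
  by_cases h : y ∈ symmDiff (S.X i m) (S.X i (m + 1))
  · have h' : y ∈ (S.X i m ∩ S.X i (m + 1))ᶜ := by
      rintro ⟨h1, h2⟩
      rcases h with ⟨_, h3⟩ | ⟨_, h3⟩
      · exact h3 h2
      · exact h3 h1
    rw [indicator_of_mem h, indicator_of_mem h']
  · rw [indicator_of_notMem h]; exact zero_le

lemma De_sub_le (i m : ℕ) (x : E) : S.De i m x - S.De i (m + 1) x ≤ S.Dl i m x := by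
  rw [tsub_le_iff_left]
  unfold Sys.De Sys.Dl
  rw [← fib_add (measurable_one.indicator (X_meas S i (m + 1)).compl)]
  refine fib_mono (fun y => ?_) x
  by_cases h : y ∈ (S.X i m)ᶜ
  · by_cases h' : y ∈ (S.X i (m + 1))ᶜ
    · rw [indicator_of_mem h, indicator_of_mem h']; exact le_add_right le_rfl
    · have h2 : y ∈ symmDiff (S.X i m) (S.X i (m + 1)) := Or.inr ⟨not_not.1 h', h⟩
      rw [indicator_of_mem h, indicator_of_mem h2]; exact le_add_left le_rfl
  · rw [indicator_of_notMem h]; exact zero_le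

/-! ### the rules -/

lemma om_congr {i m m' : ℕ} (h1 : S.sB i m = S.sB i m') (h2 : S.eB i m = S.eB i m') :
    S.om i m = S.om i m' := by
  unfold Sys.om
  rw [h1, h2]

lemma om_congr_st {i m m' : ℕ} (hi : i ≠ S.lf)
    (h : st (S.K.nb i) (S.tm m) = st (S.K.nb i) (S.tm m')) : S.om i m = S.om i m' := by
  refine om_congr S ?_ ?_
  · unfold Sys.sB Sys.sT
    rw [if_neg hi, if_neg hi, h]
  · unfold Sys.eB Sys.eT Sys.sT
    rw [if_neg hi, if_neg hi, h]

lemma om_leaf {t m : ℕ} (h1 : S.el.n t < m) (h2 : m < S.el.n (t + 1)) :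
    S.om S.lf m = S.om S.lf (S.el.n t + 1) := by
  have hn := S.el.n_succ t
  have e1 : ∀ m', S.el.n t < m' → m' < S.el.n (t + 1) →
      S.sB S.lf m' = S.el.n t + 1 ∧ S.eB S.lf m' = S.el.n (t + 1) - 1 := by
    intro m' h3 h4
    unfold Sys.sB Sys.eB
    rw [if_pos rfl, if_pos rfl, if_neg (not_isStar S h3 h4), if_neg (not_isStar S h3 h4),
      tm_eq S h3.le h4]
    exact ⟨rfl, rfl⟩
  obtain ⟨a1, a2⟩ := e1 m h1 h2
  obtain ⟨b1, b2⟩ := e1 (S.el.n t + 1) (by omega) (by omega)
  exact om_congr S (a1.trans b1.symm) (a2.trans b2.symm)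

/-- inside a time step (after the star) the rules do not change -/
lemma om_step {t m i : ℕ} (h1 : S.el.n t < m) (h2 : m < S.el.n (t + 1)) :
    S.om i m = S.om i (S.el.n t + 1) := by
  by_cases hi : i = S.lf
  · subst hi
    exact om_leaf S h1 h2
  · refine om_congr_st S hi ?_
    rw [tm_eq S h1.le h2, tm_n1]

lemma Z_meas (i : ℕ) : MeasurableSet (S.cp.Z i) := by
  simpa using (S.cp.Z_closed i).measurableSet.compl

lemma om_meas (i m : ℕ) : MeasurableSet (S.om i m) := by
  have hA : Measurable fun x => ENNReal.ofReal (S.cp.A i x) := (S.cp.A_meas i).ennreal_ofReal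
  have hMA : Measurable fun x => ENNReal.ofReal (S.M * S.cp.A i x) :=
    ((S.cp.A_meas i).const_mul _).ennreal_ofReal
  have hDc : ∀ k, Measurable (S.Dc i k) := fun k =>
    measurable_fib (measurable_one.indicator ((X_meas S i k).inter (X_meas S i (k + 1))).compl)
  have h1 : S.om i m = (S.cp.Z i)ᶜ ∩ ({x | ENNReal.ofReal (S.cp.A i x) ≤ S.De i (S.eB i m) x} ∪
      ⋃ k, ⋃ (_ : S.sB i m ≤ k), ⋃ (_ : k < S.eB i m),
        {x | ENNReal.ofReal (S.M * S.cp.A i x) ≤ S.Dc i k x}) := by
    ext x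
    simp only [Sys.om, mem_setOf_eq, mem_inter_iff, mem_compl_iff, mem_union, mem_iUnion,
      exists_prop]
  rw [h1]
  refine (Z_meas S i).compl.inter ((measurableSet_le hA (De_meas S i _)).union ?_)
  exact MeasurableSet.iUnion fun k => MeasurableSet.iUnion fun _ => MeasurableSet.iUnion fun _ =>
    measurableSet_le hMA (hDc k)

lemma om_cyl (i m : ℕ) (x w : E) (hw : w ∈ (L S.f i)ᗮ) : x + w ∈ S.om i m ↔ x ∈ S.om i m := by
  simp only [Sys.om, mem_setOf_eq]
  rw [S.cp.Z_cyl i x w hw, S.cp.A_cyl i x w hw]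
  have h1 : ∀ k, S.De i k (x + w) = S.De i k x := fun k => inv_fib _ _ x w hw
  have h2 : ∀ k, S.Dc i k (x + w) = S.Dc i k x := fun k => inv_fib _ _ x w hw
  rw [h1]
  simp only [h2]

lemma iw_inv {W : Submodule ℝ E} {s : Set E} (h : ∀ x, ∀ w ∈ Wᗮ, x + w ∈ s ↔ x ∈ s) :
    Inv W (Sys.iw s) := by
  intro x w hw
  unfold Sys.iw
  by_cases hx : x ∈ s
  · rw [indicator_of_mem hx, indicator_of_mem ((h x w hw).2 hx)]; rfl
  · rw [indicator_of_notMem hx, indicator_of_notMem (fun h' => hx ((h x w hw).1 h'))]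

/-! ### doubled time -/

/-- state before the step `τ` -/
noncomputable def gs (τ : ℕ) : ℕ := if τ % 2 = 0 then S.el.n (τ / 2) else S.el.n (τ / 2) + 1

/-- state after the step `τ` -/
noncomputable def hs (τ : ℕ) : ℕ :=
  if τ % 2 = 0 then S.el.n (τ / 2) + 1 else S.el.n (τ / 2 + 1) - 1

/-- starts of lives in doubled time -/
def nw2 (i : ℕ) : Set ℕ := {τ | S.lf < i ∨ (τ % 2 = 0 ∧ τ / 2 ∈ S.K.nw i)}

/-- starts of blocks in doubled time -/
def nb2 (i : ℕ) : Set ℕ := {τ | S.lf ≤ i ∨ (τ % 2 = 0 ∧ τ / 2 ∈ S.K.nb i)}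

/-- rules in doubled time -/
noncomputable def om2 (i τ : ℕ) : E → ℝ≥0∞ := Sys.iw (S.om i (gs S τ))

/-- caps in doubled time -/
noncomputable def a2 (i : ℕ) (x : E) : ℝ≥0∞ := min (S.a i x) 1

lemma gs_even (t : ℕ) : gs S (2 * t) = S.el.n t := by
  unfold gs
  rw [if_pos (by omega), show 2 * t / 2 = t by omega]

lemma gs_odd (t : ℕ) : gs S (2 * t + 1) = S.el.n t + 1 := by
  unfold gs
  rw [if_neg (by omega), show (2 * t + 1) / 2 = t by omega]

lemma hs_even (t : ℕ) : hs S (2 * t) = S.el.n t + 1 := by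
  unfold hs
  rw [if_pos (by omega), show 2 * t / 2 = t by omega]

lemma hs_odd (t : ℕ) : hs S (2 * t + 1) = S.el.n (t + 1) - 1 := by
  unfold hs
  rw [if_neg (by omega), show (2 * t + 1) / 2 = t by omega]

lemma a_meas (i : ℕ) : Measurable (S.a i) := by
  unfold Sys.a
  exact Measurable.ite (Z_meas S i) measurable_const (S.cp.A_meas i).ennreal_ofReal

lemma a_inv (i : ℕ) : Inv (L S.f i) (S.a i) := by
  intro x w hw
  unfold Sys.a
  by_cases hx : x ∈ S.cp.Z i
  · rw [if_pos hx, if_pos ((S.cp.Z_cyl i x w hw).2 hx)]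
  · rw [if_neg hx, if_neg (fun h' => hx ((S.cp.Z_cyl i x w hw).1 h')), S.cp.A_cyl i x w hw]

lemma tm_gs (τ : ℕ) : S.tm (gs S τ) = τ / 2 := by
  rcases Nat.even_or_odd' τ with ⟨t, rfl | rfl⟩
  · rw [gs_even, tm_n]; omega
  · rw [gs_odd, tm_n1]; omega

/-- last state of the block, levels above the leaf -/
lemma eB_of_ne {i m : ℕ} (hi : i ≠ S.lf) : S.eB i m = S.el.n (S.eT i m) - 1 := by
  unfold Sys.eB
  rw [if_neg hi]

lemma not_om {i m : ℕ} {x : E} (hx : x ∉ S.om i m) (hZ : x ∉ S.cp.Z i) :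
    S.De i (S.eB i m) x < ENNReal.ofReal (S.cp.A i x) ∧
      ∀ k, S.sB i m ≤ k → k < S.eB i m → S.Dc i k x < ENNReal.ofReal (S.M * S.cp.A i x) := by
  simp only [Sys.om, mem_setOf_eq] at hx
  push Not at hx
  obtain ⟨h1, h2⟩ := hx hZ
  exact ⟨h1, h2⟩

/-- the mass at the end state of a block -/
lemma fin_eq {i τ : ℕ} (hi : i ≤ S.lf) (hτ : τ < 2 * S.T - 1)
    (hend : τ + 1 ∈ nb2 S i ∨ τ + 1 = 2 * S.T - 1) (y : E) :
    fib (L S.f i) (Bk.fin (nw2 S) (2 * S.T - 1) (fun τ => P S (gs S τ))
        (fun τ => P S (hs S τ)) i τ) y = S.De i (S.eB i (gs S τ)) y := by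
  have hid : i < S.d := lt_of_le_of_lt hi (lf_lt S)
  have hT := S.hT
  rw [De_eq S hid]
  rcases hi.eq_or_lt with rfl | hlt
  · -- leaf level
    rcases Nat.even_or_odd' τ with ⟨t, rfl | rfl⟩
    · -- star block
      have e1 : S.eB S.lf (gs S (2 * t)) = S.el.n t + 1 := by
        unfold Sys.eB
        rw [if_pos rfl, gs_even, if_pos (isStar_n S t)]
      rw [e1]
      unfold Bk.fin
      split_ifs
      · simp only [hs_even]
      · simp only [gs_odd]
    · have hn := S.el.n_succ t
      have e1 : S.eB S.lf (gs S (2 * t + 1)) = S.el.n (t + 1) - 1 := by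
        unfold Sys.eB
        rw [if_pos rfl, gs_odd, if_neg (not_isStar S (t := t) (by omega) (by omega)), tm_n1]
      rw [e1]
      unfold Bk.fin
      split_ifs with hc
      · simp only [hs_odd]
      · push Not at hc
        have e2 : 2 * t + 1 + 1 = 2 * (t + 1) := by ring
        simp only [e2, gs_even]
        refine De_reopen S (by omega) hid ?_ y
        intro h3
        apply hc.1
        exact Or.inr ⟨by omega, by rw [show (2 * t + 1 + 1) / 2 = t + 1 by omega]; exact h3⟩
  · -- levels above the leaf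
    rw [eB_of_ne S hlt.ne]
    rcases hend with (h1 | ⟨h1, h2⟩) | h1
    · omega
    · -- `τ + 1 = 2 (t + 1)`
      obtain ⟨t, rfl⟩ : ∃ t, τ = 2 * t + 1 := ⟨τ / 2, by omega⟩
      have e3 : (2 * t + 1 + 1) / 2 = t + 1 := by omega
      rw [e3] at h2
      have ht : t + 1 < S.T := by omega
      have hiv := iv_st (B := S.K.nb i) (S.K.zero_mem_nb i) (by omega : t < S.T)
      have e4 : S.eT i (gs S (2 * t + 1)) = t + 1 := by
        unfold Sys.eT Sys.sT
        rw [tm_gs, show (2 * t + 1) / 2 = t by omega]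
        obtain ⟨g1, g2, g3⟩ := hiv
        by_contra hcon
        exact g1.2.2.2.2 (t + 1) (by omega) (by omega) h2
      rw [e4]
      unfold Bk.fin
      split_ifs with hc
      · simp only [hs_odd]
      · push Not at hc
        have e2 : 2 * t + 1 + 1 = 2 * (t + 1) := by ring
        simp only [e2, gs_even]
        refine De_reopen S ht hid ?_ y
        intro h3
        apply hc.1
        exact Or.inr ⟨by omega, by rw [e3]; exact h3⟩
    · -- the last step
      obtain rfl : τ = 2 * (S.T - 1) := by omega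
      have hiv := iv_st (B := S.K.nb i) (S.K.zero_mem_nb i) (by omega : S.T - 1 < S.T)
      have e4 : S.eT i (gs S (2 * (S.T - 1))) = S.T := by
        unfold Sys.eT Sys.sT
        rw [tm_gs, show 2 * (S.T - 1) / 2 = S.T - 1 by omega]
        obtain ⟨g1, g2, g3⟩ := hiv
        have := g1.2.2.1
        omega
      rw [e4]
      unfold Bk.fin
      rw [if_pos (Or.inr h1)]
      simp only [hs_even]
      -- no rotations in the last step
      have hlast : S.el.n S.T = S.el.n (S.T - 1) + 2 := by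
        have hn := S.el.n_succ (S.T - 1)
        rw [Nat.sub_add_cancel hT] at hn
        by_contra hcon
        have := S.el.rot (S.T - 1) (S.el.n (S.T - 1) + 1) (by omega)
          (by rw [Nat.sub_add_cancel hT]; omega)
        have := this.2.1
        omega
      rw [hlast]
      rfl

/-- the data of `Bk` in doubled time -/
theorem bk : Bk (L S.f) (nw2 S) (nb2 S) S.lf (2 * S.T - 1) (fun τ => P S (gs S τ))
    (fun τ => P S (hs S τ)) (om2 S) (a2 S) where
  mono := L_mono S.f
  nw_nb := by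
    rintro i τ (h | ⟨h1, h2⟩)
    · exact Or.inl h.le
    · exact Or.inr ⟨h1, S.K.nw_subset_nb i h2⟩
  nb_nw := by
    rintro i τ (h | ⟨h1, h2⟩)
    · exact Or.inl (by omega)
    · exact Or.inr ⟨h1, S.K.nb_subset_nw i h2⟩
  leaf := fun τ _ => Or.inl le_rfl
  gm := fun τ => P_meas S _
  hm := fun τ => P_meas S _
  g1 := fun τ x => P_le S _ x
  h1 := fun τ x => P_le S _ x
  omm := fun i τ => measurable_one.indicator (om_meas S i _)
  om1 := fun i τ x => ind_le _ x
  omi := fun i τ => iw_inv (fun x w hw => om_cyl S i _ x w hw)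
  omb := by
    intro i τ h
    have hi : i < S.lf := by
      by_contra hcon
      exact h (Or.inl (by omega))
    unfold om2
    congr 1
    refine om_congr_st S hi.ne ?_
    rw [tm_gs, tm_gs]
    rcases Nat.even_or_odd' τ with ⟨t, rfl | rfl⟩
    · congr 1; omega
    · have e1 : (2 * t + 1 + 1) / 2 = t + 1 := by omega
      have e2 : (2 * t + 1) / 2 = t := by omega
      rw [e1, e2]
      have h3 : t + 1 ∉ S.K.nb i := by
        intro h3
        apply h
        exact Or.inr ⟨by omega, by rw [e1]; exact h3⟩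
      classical
      unfold st
      rw [Nat.findGreatest_of_not h3]
  am := fun i => (a_meas S i).min measurable_const
  a1 := fun i x => min_le_right _ _
  rule := by
    intro i hi τ hτ hend y
    rw [fin_eq S hi hτ hend y]
    by_cases hy : y ∈ S.om i (gs S τ)
    · left
      unfold om2 Sys.iw
      rw [indicator_of_mem hy]; rfl
    · right
      refine le_min ?_ (De_le S _ _ _)
      unfold Sys.a
      by_cases hZ : y ∈ S.cp.Z i
      · rw [if_pos hZ]; exact De_le S _ _ _
      · rw [if_neg hZ]; exact (not_om S hy hZ).1.le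

end Tel

end Vale.Agent.P262.H395
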