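import Vale.Agent.P262.H395.Tel

/-!
# P262, milestone 1: block TEL, the telescoping of the root potential (part 2)
-/

set_option linter.all false

open MeasureTheory ProbabilityTheory Set Finset Module
open scoped ENNReal

namespace Vale.Agent.P262.H395.Tel

open Vale.Agent.P262.H136 Vale.Agent.P262.H118 Vale.Agent.P262.M1

variable {E : Type*} [NormedAddCommGroup E] [InnerProductSpace ℝ E] [FiniteDimensional ℝ E]
  [MeasurableSpace E] [BorelSpace E]

lemma ofReal_mean_le (f : E → ℝ≥0∞) : ENNReal.ofReal (mean f) ≤ ∫⁻ x, f x ∂stdGaussian E :=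
  ENNReal.ofReal_toReal_le

lemma ofReal_mean {f : E → ℝ≥0∞} (h : ∀ x, f x ≤ 1) :
    ENNReal.ofReal (mean f) = ∫⁻ x, f x ∂stdGaussian E :=
  ENNReal.ofReal_toReal (lintegral_ne_top_of_le_one h)

variable (S : Sys E)

lemma n_last : S.el.n S.T = S.el.n (S.T - 1) + 2 := by
  have hT := S.hT
  have hn := S.el.n_succ (S.T - 1)
  rw [Nat.sub_add_cancel hT] at hn
  by_contra hcon
  have := S.el.rot (S.T - 1) (S.el.n (S.T - 1) + 1) (by omega)
    (by rw [Nat.sub_add_cancel hT]; omega)
  have := this.2.1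
  omega

lemma mT_eq : S.mT = S.el.n (S.T - 1) + 1 := by
  unfold Sys.mT
  rw [n_last]
  rfl

lemma n_mono : StrictMono S.el.n := strictMono_nat_of_lt_succ S.el.n_lt

lemma nw2_zero : nw2 S 0 = {0} := by
  ext τ
  simp only [nw2, mem_setOf_eq, S.K.nw_zero, Set.mem_singleton_iff]
  constructor
  · rintro (h | ⟨h1, h2⟩)
    · omega
    · omega
  · rintro rfl
    exact Or.inr ⟨rfl, rfl⟩

lemma mean_P (m : ℕ) : mean (P S m) = (stdGaussian E (S.Kb m)ᶜ).toReal := by
  unfold P
  rw [mean_pf S.el (measurableSet_body S.v S.R), Kb_eq]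

lemma Kb_n (t : ℕ) : S.Kb (S.el.n t) = body S.v S.R t := by
  rw [Kb_eq, kb_start S.el (body S.v S.R) t]

lemma Kb_in {t m : ℕ} (h1 : S.el.n t < m) (h2 : m < S.el.n (t + 1)) :
    S.Kb m = body S.v S.R (t + 1) := by
  rw [Kb_eq, kb_in S.el (body S.v S.R) h1 h2]

lemma hmean (τ : ℕ) (_ : τ + 1 < 2 * S.T - 1) :
    mean (P S (hs S τ)) = mean (P S (gs S (τ + 1))) := by
  rcases Nat.even_or_odd' τ with ⟨t, rfl | rfl⟩
  · rw [hs_even, gs_odd]
  · have hn := S.el.n_succ t
    rw [hs_odd, show 2 * t + 1 + 1 = 2 * (t + 1) by ring, gs_even, mean_P, mean_P, Kb_n,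
      Kb_in S (t := t) (by omega) (by omega)]

lemma rotS_zero {i : ℕ} (hi : i ≤ S.lf) (τ : ℕ) :
    Bk.rotS (L S.f) (nw2 S) (2 * S.T - 1) (fun τ => P S (gs S τ)) (fun τ => P S (hs S τ))
      (om2 S) i τ = 0 := by
  unfold Bk.rotS
  split_ifs with hc
  swap
  · rfl
  have hid : i < S.d := lt_of_le_of_lt hi (lf_lt S)
  have hz : (fun y => Omp (om2 S) i τ y * (1 - om2 S i τ y)
      * (fib (L S.f i) ((fun τ => P S (hs S τ)) τ) y
        - fib (L S.f i) ((fun τ => P S (gs S τ)) (τ + 1)) y)) = fun _ => 0 := by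
    funext y
    have : fib (L S.f i) ((fun τ => P S (hs S τ)) τ) y
        = fib (L S.f i) ((fun τ => P S (gs S τ)) (τ + 1)) y := by
      simp only
      rcases Nat.even_or_odd' τ with ⟨t, rfl | rfl⟩
      · rw [hs_even, gs_odd]
      · rw [hs_odd, show 2 * t + 1 + 1 = 2 * (t + 1) by ring, gs_even]
        refine (De_reopen S (by omega) hid ?_ y).symm
        intro h3
        apply hc.1
        exact Or.inr ⟨by omega, by rw [show (2 * t + 1 + 1) / 2 = t + 1 by omega]; exact h3⟩
    rw [this, tsub_self, mul_zero]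
  rw [hz, mean_zero]

/-! ### weights -/

lemma iw_mul (s t : Set E) (x : E) : Sys.iw s x * Sys.iw t x = Sys.iw (s ∩ t) x := by
  unfold Sys.iw
  by_cases hs : x ∈ s
  · by_cases ht : x ∈ t
    · rw [indicator_of_mem hs, indicator_of_mem ht,
        indicator_of_mem (show x ∈ s ∩ t from ⟨hs, ht⟩)]; simp
    · rw [indicator_of_notMem ht, indicator_of_notMem (show x ∉ s ∩ t from fun h => ht h.2),
        mul_zero]
  · rw [indicator_of_notMem hs, indicator_of_notMem (show x ∉ s ∩ t from fun h => hs h.1),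
      zero_mul]

lemma iw_mono {s t : Set E} (h : s ⊆ t) (x : E) : Sys.iw s x ≤ Sys.iw t x := by
  unfold Sys.iw
  by_cases hs : x ∈ s
  · rw [indicator_of_mem hs, indicator_of_mem (h hs)]
  · rw [indicator_of_notMem hs]; exact zero_le

lemma iw_le (s : Set E) (x : E) : Sys.iw s x ≤ 1 := ind_le s x

lemma omp_eq (r τ : ℕ) : Omp (om2 S) (r + 1) τ = Sys.iw (S.OM r (gs S τ)) := by
  induction r with
  | zero =>
    rw [Omp_succ]
    funext x
    rw [Omp_zero, one_mul]
    unfold om2
    congr 1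
    ext y
    simp [Sys.OM]
  | succ r ih =>
    rw [Omp_succ, ih]
    funext x
    unfold om2
    rw [iw_mul]
    congr 1
    ext y
    simp only [Sys.OM, mem_inter_iff, mem_setOf_eq]
    constructor
    · rintro ⟨h1, h2⟩ i hi
      rcases hi.eq_or_lt with rfl | h
      · exact h2
      · exact h1 i (by omega)
    · intro h
      exact ⟨fun i hi => h i (by omega), h (r + 1) le_rfl⟩

lemma omp_le' (i τ : ℕ) (x : E) : Omp (om2 S) i τ x ≤ 1 :=
  Finset.prod_le_one' fun k _ => ind_le _ x

lemma omp_meas' (i τ : ℕ) : Measurable (Omp (om2 S) i τ) := by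
  unfold Omp
  exact Finset.measurable_prod _ fun k _ => measurable_one.indicator (om_meas S k _)

/-! ### (A) the star -/

lemma star_part (t : ℕ) :
    mean (fun y => Omp (om2 S) (S.lf + 1) (2 * t) y * P S (S.el.n t) y)
        + (S.loss (S.el.n t)).toReal
      = mean (fun y => Omp (om2 S) (S.lf + 1) (2 * t) y * P S (S.el.n t + 1) y)
        + (S.gain (S.el.n t)).toReal := by
  rw [omp_eq, gs_even]
  set m := S.el.n t with hm
  have hOm : Measurable (Sys.iw (S.OM S.lf m)) := by
    rw [hm, ← gs_even S t, ← omp_eq]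
    exact omp_meas' S _ _
  have hadd : ∀ (m' : ℕ) (s : Set E), mean (fun y => Sys.iw (S.OM S.lf m) y * P S m' y)
      + mean (fun y => Sys.iw (S.OM S.lf m) y * Sys.iw s y)
      = mean (fun y => Sys.iw (S.OM S.lf m) y * P S m' y + Sys.iw (S.OM S.lf m) y * Sys.iw s y) :=
    fun m' s => (mean_add (f := fun y => Sys.iw (S.OM S.lf m) y * P S m' y)
      (hOm.mul (P_meas S _)) (fun y => mul_le_one'' (iw_le _ y) (P_le S _ y))
      (fun y => mul_le_one'' (iw_le _ y) (iw_le s y))).symm
  change _ + mean (fun y => Sys.iw (S.OM S.lf m) y * Sys.iw (S.X S.lf m \ S.X S.lf (m + 1)) y)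
    = _ + mean (fun y => Sys.iw (S.OM S.lf m) y * Sys.iw (S.X S.lf (m + 1) \ S.X S.lf m) y)
  rw [hadd, hadd]
  congr 1
  funext y
  rw [← mul_add, ← mul_add]
  congr 1
  rw [P_eq, P_eq]
  unfold Sys.iw
  by_cases h1 : y ∈ S.X S.lf m
  · by_cases h2 : y ∈ S.X S.lf (m + 1)
    · simp [indicator, h1, h2]
    · simp [indicator, h1, h2]
  · by_cases h2 : y ∈ S.X S.lf (m + 1)
    · simp [indicator, h1, h2]
    · simp [indicator, h1, h2]

/-! ### (B) rotations -/

/-- price of one rotation -/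
noncomputable def rB (t m : ℕ) : ℝ := ∑ i ∈ range (S.lf + 1),
  mean (fun y => Omp (om2 S) i (2 * t + 1) y * (1 - om2 S i (2 * t + 1) y)
    * (fib (L S.f i) (P S m) y - fib (L S.f i) (P S (m + 1)) y))

lemma rB_nonneg (t m : ℕ) : 0 ≤ rB S t m := Finset.sum_nonneg fun _ _ => mean_nonneg _

lemma rot_one {t m : ℕ} (h1 : S.el.n t < m) (h2 : m + 1 < S.el.n (t + 1)) :
    mean (fun y => Omp (om2 S) (S.lf + 1) (2 * t + 1) y * P S (m + 1) y)
      - mean (fun y => Omp (om2 S) (S.lf + 1) (2 * t + 1) y * P S m y) ≤ rB S t m := by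
  have H := bk S
  have e1 := H.mean_split (2 * t + 1) (P_meas S (m + 1)) (P_le S (m + 1)) (S.lf + 1)
  have e2 := H.mean_split (2 * t + 1) (P_meas S m) (P_le S m) (S.lf + 1)
  have e3 : mean (P S (m + 1)) = mean (P S m) := by
    rw [mean_P, mean_P, Kb_in S h1 (by omega), Kb_in S (h1.trans (Nat.lt_succ_self m)) h2]
  rw [e3] at e1
  have h3 : ∀ j ∈ range (S.lf + 1),
      mean (fun y => Omp (om2 S) j (2 * t + 1) y * (1 - om2 S j (2 * t + 1) y)
          * fib (L S.f j) (P S m) y)
        - mean (fun y => Omp (om2 S) j (2 * t + 1) y * (1 - om2 S j (2 * t + 1) y)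
          * fib (L S.f j) (P S (m + 1)) y)
        ≤ mean (fun y => Omp (om2 S) j (2 * t + 1) y * (1 - om2 S j (2 * t + 1) y)
          * (fib (L S.f j) (P S m) y - fib (L S.f j) (P S (m + 1)) y)) := by
    intro j _
    rw [sub_le_iff_le_add]
    have hw : Measurable fun y => Omp (om2 S) j (2 * t + 1) y * (1 - om2 S j (2 * t + 1) y) :=
      (omp_meas' S j _).mul (measurable_const.sub (H.omm j _))
    have hw1 : ∀ y, Omp (om2 S) j (2 * t + 1) y * (1 - om2 S j (2 * t + 1) y) ≤ 1 := fun y =>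
      mul_le_one'' (omp_le' S _ _ y) tsub_le_self
    refine mean_le_add ?_ ?_ ?_ (fun y => ?_)
    · exact hw.mul ((measurable_fib (P_meas S m)).sub (measurable_fib (P_meas S (m + 1))))
    · exact fun y => mul_le_one'' (hw1 y) (tsub_le_self.trans (fib_le_one (P_le S m) y))
    · exact fun y => mul_le_one'' (hw1 y) (fib_le_one (P_le S (m + 1)) y)
    · rw [← mul_add]
      exact mul_le_mul' le_rfl le_tsub_add
  calc _ = ∑ j ∈ range (S.lf + 1),
        (mean (fun y => Omp (om2 S) j (2 * t + 1) y * (1 - om2 S j (2 * t + 1) y)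
          * fib (L S.f j) (P S m) y)
        - mean (fun y => Omp (om2 S) j (2 * t + 1) y * (1 - om2 S j (2 * t + 1) y)
          * fib (L S.f j) (P S (m + 1)) y)) := by
        rw [Finset.sum_sub_distrib]; linarith
    _ ≤ _ := Finset.sum_le_sum h3

lemma rot_part (t : ℕ) :
    mean (fun y => Omp (om2 S) (S.lf + 1) (2 * t + 1) y * P S (S.el.n (t + 1) - 1) y)
      - mean (fun y => Omp (om2 S) (S.lf + 1) (2 * t + 1) y * P S (S.el.n t + 1) y)
      ≤ ∑ m ∈ Finset.Ico (S.el.n t + 1) (S.el.n (t + 1) - 1), rB S t m := by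
  have hn := S.el.n_succ t
  have key : ∀ k, S.el.n t + 1 ≤ k → k ≤ S.el.n (t + 1) - 1 →
      mean (fun y => Omp (om2 S) (S.lf + 1) (2 * t + 1) y * P S k y)
        - mean (fun y => Omp (om2 S) (S.lf + 1) (2 * t + 1) y * P S (S.el.n t + 1) y)
        ≤ ∑ m ∈ Finset.Ico (S.el.n t + 1) k, rB S t m := by
    intro k hk
    induction k, hk using Nat.le_induction with
    | base => intro _; simp
    | succ k hk ih =>
      intro hk2
      rw [Finset.sum_Ico_succ_top hk]
      have := ih (by omega)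
      have := rot_one S (t := t) (m := k) (by omega) (by omega)
      linarith
  exact key _ (by omega) le_rfl

/-- the pointwise bound at the stopped labels of a rotation -/
lemma rot_point (hM : 1 / 4 ≤ S.M) {t m i : ℕ} (h1 : S.el.n t < m) (h2 : m + 1 < S.el.n (t + 1))
    (hi : i ≤ S.lf) (y : E) :
    (1 - om2 S i (2 * t + 1) y) * (fib (L S.f i) (P S m) y - fib (L S.f i) (P S (m + 1)) y)
      ≤ ENNReal.ofReal (4 * S.M) * S.Xr i m y := by
  have hid : i < S.d := lt_of_le_of_lt hi (lf_lt S)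
  have hom : S.om i (gs S (2 * t + 1)) = S.om i m := by
    rw [gs_odd]
    exact (om_step S h1 (by omega)).symm
  unfold om2
  rw [hom]
  by_cases hy : y ∈ S.om i m
  · unfold Sys.iw
    rw [indicator_of_mem hy]
    simp
  · unfold Sys.iw
    rw [indicator_of_notMem hy, tsub_zero, one_mul, ← De_eq S hid, ← De_eq S hid]
    refine (De_sub_le S i m y).trans ?_
    have hq : S.Dl i m y = S.Dl i m y / S.Dc i m y * S.Dc i m y := by
      by_cases h0 : S.Dc i m y = 0
      · have : S.Dl i m y = 0 := le_antisymm ((Dl_le_Dc S i m y).trans h0.le) zero_le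
        rw [this, h0]; simp
      · rw [ENNReal.div_mul_cancel h0 (ne_of_lt (lt_of_le_of_lt (Dc_le S i m y)
          ENNReal.one_lt_top))]
    unfold Sys.Xr Sys.a
    by_cases hZ : y ∈ S.cp.Z i
    · rw [if_pos hZ, one_mul]
      calc S.Dl i m y = S.Dl i m y / S.Dc i m y * S.Dc i m y := hq
        _ ≤ S.Dl i m y / S.Dc i m y * 1 := mul_le_mul' le_rfl (Dc_le S i m y)
        _ = 1 * (S.Dl i m y / S.Dc i m y) := by rw [mul_one, one_mul]
        _ ≤ _ := by
          refine mul_le_mul' ?_ le_rfl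
          rw [← ENNReal.ofReal_one]
          exact ENNReal.ofReal_le_ofReal (by linarith)
    · rw [if_neg hZ]
      have hb : S.sB i m ≤ m ∧ m < S.eB i m := by
        have htm : S.tm m = t := tm_eq S h1.le (by omega)
        rcases hi.eq_or_lt with rfl | hlt
        · unfold Sys.sB Sys.eB
          rw [if_pos rfl, if_pos rfl, if_neg (not_isStar S h1 (by omega)),
            if_neg (not_isStar S h1 (by omega)), htm]
          omega
        · unfold Sys.sB Sys.eB Sys.eT Sys.sT
          rw [if_neg hlt.ne, if_neg hlt.ne, htm]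
          have hT : t + 1 < S.T := (S.el.rot t m h1 h2).2.1
          have hiv := iv_st (B := S.K.nb i) (S.K.zero_mem_nb i) (by omega : t < S.T)
          have g1 := (n_mono S).monotone hiv.2.1
          have g2 := (n_mono S).monotone (Nat.succ_le_of_lt hiv.2.2)
          have g3 : t.succ = t + 1 := rfl
          rw [g3] at g2
          omega
      have hlt := ((not_om S hy hZ).2 m hb.1 hb.2).le
      calc S.Dl i m y = S.Dl i m y / S.Dc i m y * S.Dc i m y := hq
        _ ≤ S.Dl i m y / S.Dc i m y * ENNReal.ofReal (S.M * S.cp.A i y) :=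
          mul_le_mul' le_rfl hlt
        _ ≤ S.Dl i m y / S.Dc i m y * (ENNReal.ofReal (4 * S.M) * ENNReal.ofReal (S.cp.A i y)) := by
          refine mul_le_mul' le_rfl ?_
          rw [← ENNReal.ofReal_mul (by linarith)]
          refine ENNReal.ofReal_le_ofReal ?_
          have := (S.cp.A_pos i y).le
          nlinarith
        _ = _ := by ring

lemma rB_le (hM : 1 / 4 ≤ S.M) {t m : ℕ} (h1 : S.el.n t < m) (h2 : m + 1 < S.el.n (t + 1)) :
    ENNReal.ofReal (rB S t m) ≤ S.Vp m := by
  have htm : S.tm m = t := tm_eq S h1.le (by omega)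
  have hre : ¬ S.IsRe m := by
    unfold Sys.IsRe
    rw [htm]
    omega
  have hrot : S.IsRot m := by
    unfold Sys.IsRot
    rw [htm]
    exact ⟨h1, h2⟩
  unfold Sys.Vp rB
  rw [if_neg hre, if_pos hrot, ENNReal.ofReal_sum_of_nonneg fun i _ => mean_nonneg _]
  have hjj : S.el.jj m + 1 < S.d := (S.el.rot t m h1 h2).2.2.1
  -- split the sum
  have hsplit : ∑ i ∈ range (S.lf + 1), ENNReal.ofReal (mean (fun y =>
      Omp (om2 S) i (2 * t + 1) y * (1 - om2 S i (2 * t + 1) y)
        * (fib (L S.f i) (P S m) y - fib (L S.f i) (P S (m + 1)) y)))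
      = ∑ i ∈ Finset.Ioc (S.el.jj m) S.lf, ENNReal.ofReal (mean (fun y =>
      Omp (om2 S) i (2 * t + 1) y * (1 - om2 S i (2 * t + 1) y)
        * (fib (L S.f i) (P S m) y - fib (L S.f i) (P S (m + 1)) y))) := by
    symm
    refine Finset.sum_subset ?_ ?_
    · intro i hi
      rw [Finset.mem_Ioc] at hi
      rw [Finset.mem_range]
      omega
    · intro i hi hni
      rw [Finset.mem_range] at hi
      rw [Finset.mem_Ioc] at hni
      have hij : i ≤ S.el.jj m := by omega
      have hz : (fun y => Omp (om2 S) i (2 * t + 1) y * (1 - om2 S i (2 * t + 1) y)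
          * (fib (L S.f i) (P S m) y - fib (L S.f i) (P S (m + 1)) y)) = fun _ => 0 := by
        funext y
        have := fib_rot_le S.el (measurableSet_body S.v S.R) h1 h2 (by omega : i < S.d) hij y
        unfold P
        rw [this, tsub_self, mul_zero]
      rw [hz, mean_zero, ENNReal.ofReal_zero]
  rw [hsplit, Finset.mul_sum]
  refine Finset.sum_le_sum fun i hi => ?_
  rw [Finset.mem_Ioc] at hi
  refine (ofReal_mean_le _).trans ?_
  have hXr : Measurable (S.Xr i m) := by
    unfold Sys.Xr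
    exact (a_meas S i).mul ((measurable_fib (measurable_one.indicator
      ((X_meas S i m).symmDiff (X_meas S i (m + 1))))).div (measurable_fib
      (measurable_one.indicator ((X_meas S i m).inter (X_meas S i (m + 1))).compl)))
  rw [← lintegral_const_mul' _ _ ENNReal.ofReal_ne_top]
  refine lintegral_mono fun y => ?_
  obtain ⟨i', rfl⟩ : ∃ i', i = i' + 1 := ⟨i - 1, by omega⟩
  have hO : Omp (om2 S) (i' + 1) (2 * t + 1) y ≤ Sys.iw (S.OM (S.el.jj m) m) y := by
    rw [omp_eq, gs_odd]
    refine iw_mono ?_ y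
    intro z hz k hk
    rw [om_step S h1 (by omega)]
    exact hz k (by omega)
  calc _ = Omp (om2 S) (i' + 1) (2 * t + 1) y * ((1 - om2 S (i' + 1) (2 * t + 1) y)
        * (fib (L S.f (i' + 1)) (P S m) y - fib (L S.f (i' + 1)) (P S (m + 1)) y)) := by ring
    _ ≤ Sys.iw (S.OM (S.el.jj m) m) y * (ENNReal.ofReal (4 * S.M) * S.Xr (i' + 1) m y) :=
      mul_le_mul' hO (rot_point S hM h1 h2 hi.2 y)
    _ = _ := by ring

end Vale.Agent.P262.H395.Tel
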