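import Vale.Agent.P262.H136.Frozen
import Vale.Agent.P262.H118.K1a

/-!
# P262, milestone 1: the total ledger over nested lives and blocks

Times `t < T`; `g t` payoff before the move at time `t`, `h t` payoff after it (same frame); from
`h t` to `g (t+1)` the frame changes.  Level `i ≤ n`: label space `W i`, lives start at `nw i`,
blocks start at `nb i`; rules `om i t` (constant on blocks), caps `a i`.
-/

set_option linter.all false

open MeasureTheory ProbabilityTheory Set Finset
open scoped ENNReal

namespace Vale.Agent.P262.H395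

open Vale.Agent.P262.H136 Vale.Agent.P262.H118

variable {E : Type*} [NormedAddCommGroup E] [InnerProductSpace ℝ E] [FiniteDimensional ℝ E]
  [MeasurableSpace E] [BorelSpace E]

/-- real Gaussian mean -/
noncomputable def mean (f : E → ℝ≥0∞) : ℝ := (∫⁻ x, f x ∂stdGaussian E).toReal

lemma lintegral_ne_top_of_le_one {f : E → ℝ≥0∞} (h : ∀ x, f x ≤ 1) :
    ∫⁻ x, f x ∂stdGaussian E ≠ ∞ := by
  refine ne_of_lt (lt_of_le_of_lt (lintegral_mono h) ?_)
  simp

lemma mean_nonneg (f : E → ℝ≥0∞) : 0 ≤ mean f := ENNReal.toReal_nonneg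

lemma mean_mono {f g : E → ℝ≥0∞} (h : ∀ x, f x ≤ g x) (hg : ∀ x, g x ≤ 1) : mean f ≤ mean g :=
  ENNReal.toReal_mono (lintegral_ne_top_of_le_one hg) (lintegral_mono h)

lemma mean_mono' {f g : E → ℝ≥0∞} (h : ∀ x, f x ≤ g x) (hg : ∫⁻ x, g x ∂stdGaussian E ≠ ∞) :
    mean f ≤ mean g := ENNReal.toReal_mono hg (lintegral_mono h)

lemma mean_zero : mean (fun _ : E => 0) = 0 := by simp [mean]

lemma mean_add {f g : E → ℝ≥0∞} (hf : Measurable f) (hf1 : ∀ x, f x ≤ 1) (hg1 : ∀ x, g x ≤ 1) :
    mean (fun x => f x + g x) = mean f + mean g := by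
  unfold mean
  rw [lintegral_add_left hf, ENNReal.toReal_add (lintegral_ne_top_of_le_one hf1)
    (lintegral_ne_top_of_le_one hg1)]

lemma mean_le_add {f g k : E → ℝ≥0∞} (hf : Measurable f) (hf1 : ∀ x, f x ≤ 1)
    (hg1 : ∀ x, g x ≤ 1) (hk : ∀ x, k x ≤ f x + g x) : mean k ≤ mean f + mean g := by
  rw [← mean_add hf hf1 hg1]
  refine mean_mono' hk ?_
  rw [lintegral_add_left hf]
  exact ENNReal.add_ne_top.2 ⟨lintegral_ne_top_of_le_one hf1, lintegral_ne_top_of_le_one hg1⟩

lemma mean_mul_fib {W : Submodule ℝ E} {f w : E → ℝ≥0∞} (hw : Inv W w)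
    (hwm : Measurable w) (hf : Measurable f) :
    mean (fun x => w x * fib W f x) = mean (fun x => w x * f x) := by
  unfold mean
  rw [lintegral_mul_fib hw hwm hf]

lemma mul_le_one'' {a b : ℝ≥0∞} (ha : a ≤ 1) (hb : b ≤ 1) : a * b ≤ 1 :=
  (mul_le_mul' ha hb).trans_eq (one_mul 1)

open Classical in
/-- state at the end of a block of level `i` whose last step is `t` -/
noncomputable def Bk.fin (nw : ℕ → Set ℕ) (T : ℕ) (g h : ℕ → E → ℝ≥0∞) (i t : ℕ) : E → ℝ≥0∞ :=
  if t + 1 ∈ nw i ∨ t + 1 = T then h t else g (t + 1)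

/-- the data of the ledger -/
structure Bk (W : ℕ → Submodule ℝ E) (nw nb : ℕ → Set ℕ) (n T : ℕ) (g h : ℕ → E → ℝ≥0∞)
    (om : ℕ → ℕ → E → ℝ≥0∞) (a : ℕ → E → ℝ≥0∞) : Prop where
  mono : Monotone W
  nw_nb : ∀ i, nw i ⊆ nb i
  nb_nw : ∀ i, nb i ⊆ nw (i + 1)
  leaf : ∀ t, t < T → t ∈ nb n
  gm : ∀ t, Measurable (g t)
  hm : ∀ t, Measurable (h t)
  g1 : ∀ t x, g t x ≤ 1
  h1 : ∀ t x, h t x ≤ 1
  omm : ∀ i t, Measurable (om i t)
  om1 : ∀ i t x, om i t x ≤ 1
  omi : ∀ i t, Inv (W i) (om i t)
  omb : ∀ i t, t + 1 ∉ nb i → om i (t + 1) = om i t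
  am : ∀ i, Measurable (a i)
  a1 : ∀ i x, a i x ≤ 1
  rule : ∀ i ≤ n, ∀ t < T, (t + 1 ∈ nb i ∨ t + 1 = T) → ∀ y, om i t y = 1 ∨
    fib (W i) (Bk.fin nw T g h i t) y ≤ a i y

namespace Bk

variable {W : ℕ → Submodule ℝ E} {nw nb : ℕ → Set ℕ} {n T : ℕ} {g h : ℕ → E → ℝ≥0∞}
  {om : ℕ → ℕ → E → ℝ≥0∞} {a : ℕ → E → ℝ≥0∞}

open Classical in
/-- price of opening -/
noncomputable def opn (W : ℕ → Submodule ℝ E) (nw : ℕ → Set ℕ) (g : ℕ → E → ℝ≥0∞)
    (a : ℕ → E → ℝ≥0∞) (i t : ℕ) (w : E → ℝ≥0∞) : ℝ :=
  if t ∈ nw i then mean (fun y => w y * (a i y - fib (W i) (g t) y)) else 0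

open Classical in
/-- price of the end of a block -/
noncomputable def cls (W : ℕ → Submodule ℝ E) (nw nb : ℕ → Set ℕ) (T : ℕ) (g h : ℕ → E → ℝ≥0∞)
    (om : ℕ → ℕ → E → ℝ≥0∞) (a : ℕ → E → ℝ≥0∞) (i t : ℕ) (w : E → ℝ≥0∞) : ℝ :=
  if t + 1 ∈ nb i ∨ t + 1 = T then
    mean (fun y => w y * om i t y * (a i y - fib (W i) (fin nw T g h i t) y)) else 0

open Classical in
/-- change of frame with exactly the levels up to `i` open -/
noncomputable def rot (nw : ℕ → Set ℕ) (T : ℕ) (g h : ℕ → E → ℝ≥0∞)
    (om : ℕ → ℕ → E → ℝ≥0∞) (i t : ℕ) (w : E → ℝ≥0∞) : ℝ :=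
  if t + 1 ∈ nw (i + 1) ∧ t + 1 ∉ nw i ∧ t + 1 < T then
    mean (fun y => w y * om i t y * g (t + 1) y) - mean (fun y => w y * om i t y * h t y) else 0

/-- all prices at time `t` of the levels `≥ i`, with outer weight `w` -/
noncomputable def cost (W : ℕ → Submodule ℝ E) (nw nb : ℕ → Set ℕ) (T : ℕ) (g h : ℕ → E → ℝ≥0∞)
    (om : ℕ → ℕ → E → ℝ≥0∞) (a : ℕ → E → ℝ≥0∞) : ℕ → ℕ → ℕ → (E → ℝ≥0∞) → ℝ
  | 0, _, t, w => mean (fun y => w y * h t y) - mean (fun y => w y * g t y)
  | k + 1, i, t, w => opn W nw g a i t w + cls W nw nb T g h om a i t w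
      + rot nw T g h om i t w + cost W nw nb T g h om a k (i + 1) t (fun y => w y * om i t y)

variable (H : Bk W nw nb n T g h om a)
include H

lemma fin_meas (i t : ℕ) : Measurable (fin nw T g h i t) := by
  unfold fin
  split_ifs
  exacts [H.hm t, H.gm _]

lemma fin_le (i t : ℕ) (x : E) : fin nw T g h i t x ≤ 1 := by
  unfold fin
  split_ifs
  exacts [H.h1 t x, H.g1 _ x]

lemma om_eq {i s t : ℕ} (hst : s ≤ t) (hb : ∀ r, s < r → r ≤ t → r ∉ nb i) : om i t = om i s := by
  induction t, hst using Nat.le_induction with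
  | base => rfl
  | succ t hst ih =>
    rw [H.omb i t (hb (t + 1) (by omega) le_rfl), ih fun r h1 h2 => hb r h1 (by omega)]

/-- one block of level `i`, given the lives of level `i + 1` -/
lemma block_aux {k i : ℕ} (hi : i ≤ n)
    (hlife : ∀ s e, Iv (nw (i + 1)) T s e → ∀ w : E → ℝ≥0∞, Inv (W (i + 1)) w → Measurable w →
      (∀ y, w y ≤ 1) → mean (fun y => w y * h (e - 1) y) - mean (fun y => w y * g s y)
        ≤ ∑ t ∈ Ico s e, cost W nw nb T g h om a k (i + 1) t w)
    {b e : ℕ} (hb : Iv (nb i) T b e) {w : E → ℝ≥0∞} (hw : Inv (W i) w) (hwm : Measurable w)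
    (hw1 : ∀ y, w y ≤ 1) :
    ∀ m s, e - s ≤ m → b ≤ s → s < e → s ∈ nw (i + 1) →
      mean (fun y => w y * om i b y * fin nw T g h i (e - 1) y)
        - mean (fun y => w y * om i b y * g s y)
        ≤ ∑ t ∈ Ico s e, (rot nw T g h om i t w
          + cost W nw nb T g h om a k (i + 1) t (fun y => w y * om i t y)) := by
  obtain ⟨hb1, hbe, heT, heb, hbr⟩ := hb
  have hom : ∀ t, b ≤ t → t < e → om i t = om i b := fun t h1 h2 =>
    H.om_eq h1 fun r h3 h4 => hbr r h3 (by omega)
  intro m
  induction m with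
  | zero => intro s h1 _ h2; omega
  | succ m ih =>
    intro s hm hbs hse hs
    -- the life of level `i + 1` starting at `s`
    have hsT : s < T := by omega
    have hiv := iv_en (B := nw (i + 1)) hs hsT
    set e' := en (nw (i + 1)) T s with he'
    have hse' : s < e' := hiv.2.1
    have he'e : e' ≤ e := by
      by_contra hcon
      push Not at hcon
      rcases heb with h1 | h1
      · exact hiv.2.2.2.2 e hse hcon (H.nb_nw i h1)
      · have := hiv.2.2.1; omega
    have h1 := hlife s e' hiv (fun y => w y * om i b y) ((hw.mul (H.omi i b)).mono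
      (H.mono (Nat.le_succ i))) (hwm.mul (H.omm i b)) (fun y => mul_le_one'' (hw1 y) (H.om1 i b y))
    have hsplit : ∑ t ∈ Ico s e, (rot nw T g h om i t w
          + cost W nw nb T g h om a k (i + 1) t (fun y => w y * om i t y))
        = ∑ t ∈ Ico s e', (rot nw T g h om i t w
          + cost W nw nb T g h om a k (i + 1) t (fun y => w y * om i t y))
          + ∑ t ∈ Ico e' e, (rot nw T g h om i t w
          + cost W nw nb T g h om a k (i + 1) t (fun y => w y * om i t y)) :=
      (Finset.sum_Ico_consecutive _ hse'.le he'e).symm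
    have hc : ∑ t ∈ Ico s e', cost W nw nb T g h om a k (i + 1) t (fun y => w y * om i t y)
        = ∑ t ∈ Ico s e', cost W nw nb T g h om a k (i + 1) t (fun y => w y * om i b y) := by
      refine Finset.sum_congr rfl fun t ht => ?_
      rw [Finset.mem_Ico] at ht
      rw [hom t (by omega) (by omega)]
    -- the changes of frame inside the life of level `i + 1`
    have hr : ∑ t ∈ Ico s e', rot nw T g h om i t w = rot nw T g h om i (e' - 1) w := by
      refine Finset.sum_eq_single_of_mem (e' - 1) (Finset.mem_Ico.2 ⟨by omega, by omega⟩) ?_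
      intro t ht hte
      rw [Finset.mem_Ico] at ht
      unfold rot
      rw [if_neg]
      rintro ⟨h2, -, -⟩
      exact hiv.2.2.2.2 (t + 1) (by omega) (by omega) h2
    rw [hsplit, Finset.sum_add_distrib, hr, hc]
    -- the value of this change of frame
    rcases he'e.eq_or_lt with hee | hlt
    · -- last life of the block
      rw [hee, Finset.Ico_self, Finset.sum_empty, add_zero]
      rw [hee] at h1
      have hr2 : rot nw T g h om i (e - 1) w
          = mean (fun y => w y * om i b y * fin nw T g h i (e - 1) y)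
            - mean (fun y => w y * om i b y * h (e - 1) y) := by
        have h5 : e - 1 + 1 = e := by omega
        unfold rot fin
        rw [h5, hom (e - 1) (by omega) (by omega)]
        by_cases h6 : e ∈ nw i ∨ e = T
        · rw [if_neg (c := e ∈ nw (i + 1) ∧ e ∉ nw i ∧ e < T)
            (by rintro ⟨-, h7, h8⟩; rcases h6 with h6 | h6; exact h7 h6; omega),
            if_pos (c := e ∈ nw i ∨ e = T) h6]
          simp
        · have h8 : e ∉ nw i ∧ e ≠ T := by
            push Not at h6
            exact h6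
          have h9 : e ∈ nw (i + 1) := by
            rcases heb with h7 | h7
            · exact H.nb_nw i h7
            · exact absurd h7 h8.2
          have h10 : e < T := by have := h8.2; omega
          rw [if_pos (c := e ∈ nw (i + 1) ∧ e ∉ nw i ∧ e < T) ⟨h9, h8.1, h10⟩,
            if_neg (c := e ∈ nw i ∨ e = T) h6]
      rw [hr2]
      linarith
    · have he'nw : e' ∈ nw (i + 1) := by
        rcases hiv.2.2.2.1 with h2 | h2
        · exact h2
        · omega
      have h2 := ih e' (by omega) (by omega) hlt he'nw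
      have hr2 : rot nw T g h om i (e' - 1) w
          = mean (fun y => w y * om i b y * g e' y)
            - mean (fun y => w y * om i b y * h (e' - 1) y) := by
        have h5 : e' - 1 + 1 = e' := by omega
        unfold rot
        have h6 : e' ∉ nw i := fun h6 => hbr e' (by omega) hlt (H.nw_nb i h6)
        have h7 : e' < T := by omega
        rw [h5, hom (e' - 1) (by omega) (by omega), if_pos ⟨he'nw, h6, h7⟩]
      rw [hr2]
      linarith

/-- one life of level `i`, given the lives of level `i + 1` -/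
lemma life_aux {k i : ℕ} (hi : i ≤ n)
    (hlife : ∀ s e, Iv (nw (i + 1)) T s e → ∀ w : E → ℝ≥0∞, Inv (W (i + 1)) w → Measurable w →
      (∀ y, w y ≤ 1) → mean (fun y => w y * h (e - 1) y) - mean (fun y => w y * g s y)
        ≤ ∑ t ∈ Ico s e, cost W nw nb T g h om a k (i + 1) t w)
    {b e : ℕ} (hb : Iv (nw i) T b e) {w : E → ℝ≥0∞} (hw : Inv (W i) w) (hwm : Measurable w)
    (hw1 : ∀ y, w y ≤ 1) :
    ∀ m s, e - s ≤ m → b ≤ s → s < e → s ∈ nb i →
      mean (fun y => w y * max (a i y) (fib (W i) (h (e - 1)) y))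
        - mean (fun y => w y * max (a i y) (fib (W i) (g s) y))
        ≤ ∑ t ∈ Ico s e, (cls W nw nb T g h om a i t w + rot nw T g h om i t w
          + cost W nw nb T g h om a k (i + 1) t (fun y => w y * om i t y)) := by
  obtain ⟨hb1, hbe, heT, heb, hbr⟩ := hb
  intro m
  induction m with
  | zero => intro s h1 _ h2; omega
  | succ m ih =>
    intro s hm hbs hse hs
    have hsT : s < T := by omega
    have hiv := iv_en (B := nb i) hs hsT
    set e' := en (nb i) T s with he'
    have hse' : s < e' := hiv.2.1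
    have he'e : e' ≤ e := by
      by_contra hcon
      push Not at hcon
      rcases heb with h1 | h1
      · exact hiv.2.2.2.2 e hse hcon (H.nw_nb i h1)
      · have := hiv.2.2.1; omega
    have h5 : e' - 1 + 1 = e' := by omega
    have hblk := H.block_aux hi hlife hiv hw hwm hw1 (e' - s) s le_rfl le_rfl hse'
      (H.nb_nw i hs)
    -- (*)
    have hfr := frozen_block (W := ⊥) (W' := W i) bot_le (a := a i) (om := om i s) (g := g s)
      (g' := fin nw T g h i (e' - 1)) (H.am i) (H.omi i s) (H.omm i s) (H.om1 i s) (H.gm s)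
      (H.fin_meas i _) (by
        have h6 := H.rule i hi (e' - 1) (by have := hiv.2.2.1; omega) (by
          rw [h5]; exact hiv.2.2.2.1)
        have h7 : om i (e' - 1) = om i s := H.om_eq (by omega) fun r h8 h9 =>
          hiv.2.2.2.2 r h8 (by omega)
        rw [h7] at h6
        exact h6)
    have key : mean (fun y => w y * max (a i y) (fib (W i) (fin nw T g h i (e' - 1)) y))
        + mean (fun y => w y * om i s y * g s y)
        ≤ mean (fun y => w y * max (a i y) (fib (W i) (g s) y))
          + mean (fun y => w y * om i s y * fin nw T g h i (e' - 1) y)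
          + mean (fun y => w y * om i s y * (a i y - fib (W i) (fin nw T g h i (e' - 1)) y)) := by
      have hD : ∀ φ : E → ℝ≥0∞, (∀ x, φ x ≤ 1) → ∀ y, fib (W i) φ y ≤ 1 := fun φ hφ y =>
        fib_le_one hφ y
      have hrule : ∀ y, om i s y = 1 ∨ fib (W i) (fin nw T g h i (e' - 1)) y ≤ a i y := by
        have h6 := H.rule i hi (e' - 1) (by have := hiv.2.2.1; omega) (by
          rw [h5]; exact hiv.2.2.2.1)
        have h7 : om i (e' - 1) = om i s := H.om_eq (by omega) fun r h8 h9 =>
          hiv.2.2.2.2 r h8 (by omega)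
        rw [h7] at h6
        exact h6
      have hwo : Inv (W i) (fun y => w y * om i s y) := hw.mul (H.omi i s)
      have hwom : Measurable fun y => w y * om i s y := hwm.mul (H.omm i s)
      rw [← mean_mul_fib hwo hwom (H.gm s), ← mean_mul_fib hwo hwom (H.fin_meas i (e' - 1))]
      have hF := measurable_fib (W := W i) (H.fin_meas i (e' - 1))
      have hG := measurable_fib (W := W i) (H.gm s)
      have hF1 := hD _ (H.fin_le i (e' - 1))
      have hG1 := hD _ (H.g1 s)
      have hwo1 : ∀ y, w y * om i s y ≤ 1 := fun y => mul_le_one'' (hw1 y) (H.om1 i s y)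
      have e1 := mean_add (f := fun y => w y * max (a i y) (fib (W i) (fin nw T g h i (e' - 1)) y))
        (g := fun y => w y * om i s y * fib (W i) (g s) y) (hwm.mul ((H.am i).max hF))
        (fun y => mul_le_one'' (hw1 y) (max_le (H.a1 i y) (hF1 y)))
        (fun y => mul_le_one'' (hwo1 y) (hG1 y))
      have hpt : ∀ y, w y * max (a i y) (fib (W i) (fin nw T g h i (e' - 1)) y)
          + w y * om i s y * fib (W i) (g s) y
          ≤ w y * max (a i y) (fib (W i) (g s) y)
            + w y * om i s y * fib (W i) (fin nw T g h i (e' - 1)) y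
            + w y * om i s y * (a i y - fib (W i) (fin nw T g h i (e' - 1)) y) := by
        intro y
        have := star_label (H.om1 i s y) (hrule y) (de := fib (W i) (g s) y)
        calc _ = w y * (max (a i y) (fib (W i) (fin nw T g h i (e' - 1)) y)
              + om i s y * fib (W i) (g s) y) := by ring
          _ ≤ w y * (max (a i y) (fib (W i) (g s) y)
              + om i s y * fib (W i) (fin nw T g h i (e' - 1)) y
              + om i s y * (a i y - fib (W i) (fin nw T g h i (e' - 1)) y)) :=
            mul_le_mul' le_rfl this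
          _ = _ := by ring
      have hi1 : ∫⁻ y, (w y * max (a i y) (fib (W i) (fin nw T g h i (e' - 1)) y)
          + w y * om i s y * fib (W i) (g s) y) ∂stdGaussian E
          ≤ ∫⁻ y, (w y * max (a i y) (fib (W i) (g s) y)
            + w y * om i s y * fib (W i) (fin nw T g h i (e' - 1)) y
            + w y * om i s y * (a i y - fib (W i) (fin nw T g h i (e' - 1)) y)) ∂stdGaussian E :=
        lintegral_mono hpt
      have hm1 : Measurable fun y => w y * max (a i y) (fib (W i) (g s) y) :=
        hwm.mul ((H.am i).max hG)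
      have hm2 : Measurable fun y => w y * om i s y * fib (W i) (fin nw T g h i (e' - 1)) y :=
        hwom.mul hF
      have f1 := lintegral_ne_top_of_le_one (f := fun y => w y * max (a i y) (fib (W i) (g s) y))
        (fun y => mul_le_one'' (hw1 y) (max_le (H.a1 i y) (hG1 y)))
      have f2 := lintegral_ne_top_of_le_one
        (f := fun y => w y * om i s y * fib (W i) (fin nw T g h i (e' - 1)) y)
        (fun y => mul_le_one'' (hwo1 y) (hF1 y))
      have f3 := lintegral_ne_top_of_le_one
        (f := fun y => w y * om i s y * (a i y - fib (W i) (fin nw T g h i (e' - 1)) y))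
        (fun y => mul_le_one'' (hwo1 y) (tsub_le_self.trans (H.a1 i y)))
      have e2 : ∫⁻ y, (w y * max (a i y) (fib (W i) (g s) y)
            + w y * om i s y * fib (W i) (fin nw T g h i (e' - 1)) y
            + w y * om i s y * (a i y - fib (W i) (fin nw T g h i (e' - 1)) y)) ∂stdGaussian E
          = ∫⁻ y, w y * max (a i y) (fib (W i) (g s) y) ∂stdGaussian E
            + ∫⁻ y, w y * om i s y * fib (W i) (fin nw T g h i (e' - 1)) y ∂stdGaussian E
            + ∫⁻ y, w y * om i s y * (a i y - fib (W i) (fin nw T g h i (e' - 1)) y)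
              ∂stdGaussian E := by
        rw [lintegral_add_left (f := fun y => w y * max (a i y) (fib (W i) (g s) y)
            + w y * om i s y * fib (W i) (fin nw T g h i (e' - 1)) y) (hm1.add hm2),
          lintegral_add_left hm1]
      rw [← e1]
      unfold mean
      rw [← ENNReal.toReal_add f1 f2, ← ENNReal.toReal_add (ENNReal.add_ne_top.2 ⟨f1, f2⟩) f3, ← e2]
      refine ENNReal.toReal_mono ?_ hi1
      rw [e2]
      exact ENNReal.add_ne_top.2 ⟨ENNReal.add_ne_top.2 ⟨f1, f2⟩, f3⟩
    -- the price at the end of the block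
    have hcls : ∑ t ∈ Ico s e', cls W nw nb T g h om a i t w
        = mean (fun y => w y * om i s y * (a i y - fib (W i) (fin nw T g h i (e' - 1)) y)) := by
      rw [Finset.sum_eq_single_of_mem (e' - 1) (Finset.mem_Ico.2 ⟨by omega, by omega⟩)]
      · unfold cls
        rw [if_pos (by rw [h5]; exact hiv.2.2.2.1), H.om_eq (by omega) fun r h8 h9 =>
          hiv.2.2.2.2 r h8 (by omega)]
      · intro t ht hte
        rw [Finset.mem_Ico] at ht
        unfold cls
        rw [if_neg]
        rintro (h2 | h2)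
        · exact hiv.2.2.2.2 (t + 1) (by omega) (by omega) h2
        · have := hiv.2.2.1; omega
    have hsplit : ∑ t ∈ Ico s e, (cls W nw nb T g h om a i t w + rot nw T g h om i t w
          + cost W nw nb T g h om a k (i + 1) t (fun y => w y * om i t y))
        = (∑ t ∈ Ico s e', cls W nw nb T g h om a i t w
            + ∑ t ∈ Ico s e', (rot nw T g h om i t w
              + cost W nw nb T g h om a k (i + 1) t (fun y => w y * om i t y)))
          + ∑ t ∈ Ico e' e, (cls W nw nb T g h om a i t w + rot nw T g h om i t w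
          + cost W nw nb T g h om a k (i + 1) t (fun y => w y * om i t y)) := by
      rw [← Finset.sum_Ico_consecutive _ hse'.le he'e, ← Finset.sum_add_distrib]
      congr 1
      exact Finset.sum_congr rfl fun t _ => by ring
    rw [hsplit, hcls]
    rcases he'e.eq_or_lt with hee | hlt
    · -- last block of the life
      have hfin : fin nw T g h i (e' - 1) = h (e' - 1) := by
        unfold fin
        rw [if_pos]
        rw [h5, hee]
        exact heb
      rw [hee, Finset.Ico_self, Finset.sum_empty, add_zero, ← hee]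
      rw [hfin] at key hblk ⊢
      linarith
    · have he'nb : e' ∈ nb i := by
        rcases hiv.2.2.2.1 with h2 | h2
        · exact h2
        · omega
      have hfin : fin nw T g h i (e' - 1) = g e' := by
        unfold fin
        rw [if_neg, h5]
        rw [h5]
        rintro (h6 | h6)
        · exact hbr e' (by omega) hlt h6
        · omega
      have h2 := ih e' (by omega) (by omega) hlt he'nb
      rw [hfin] at key hblk ⊢
      linarith

/-- **one life of level `i`** -/
theorem life : ∀ k i, i + k = n + 1 → ∀ s e, Iv (nw i) T s e → ∀ w : E → ℝ≥0∞, Inv (W i) w →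
    Measurable w → (∀ y, w y ≤ 1) →
    mean (fun y => w y * h (e - 1) y) - mean (fun y => w y * g s y)
      ≤ ∑ t ∈ Ico s e, cost W nw nb T g h om a k i t w := by
  intro k
  induction k with
  | zero =>
    intro i hi s e hiv w hw hwm hw1
    have hin : i = n + 1 := by omega
    subst hin
    obtain ⟨h1, h2, h3, h4, h5⟩ := hiv
    have he : e = s + 1 := by
      by_contra hcon
      exact h5 (s + 1) (by omega) (by omega) (H.nb_nw n (H.leaf (s + 1) (by omega)))
    subst he
    rw [Nat.Ico_succ_singleton, Finset.sum_singleton, Nat.add_sub_cancel]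
    exact le_rfl
  | succ k ih =>
    intro i hi s e hiv w hw hwm hw1
    have hin : i ≤ n := by omega
    have h1 := H.life_aux hin (ih (i + 1) (by omega)) hiv hw hwm hw1 (e - s) s le_rfl le_rfl
      hiv.2.1 (H.nw_nb i hiv.1)
    -- close
    have hD := fun φ (hφ : ∀ x, φ x ≤ 1) y => fib_le_one (W := W i) (f := φ) hφ y
    have h2 : mean (fun y => w y * h (e - 1) y)
        ≤ mean (fun y => w y * max (a i y) (fib (W i) (h (e - 1)) y)) := by
      rw [← mean_mul_fib hw hwm (H.hm (e - 1))]
      exact mean_mono (fun y => mul_le_mul' le_rfl (le_max_right _ _))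
        (fun y => mul_le_one'' (hw1 y) (max_le (H.a1 i y) (hD _ (H.h1 _) y)))
    -- open
    have h3 : mean (fun y => w y * max (a i y) (fib (W i) (g s) y))
        ≤ mean (fun y => w y * g s y) + opn W nw g a i s w := by
      unfold opn
      rw [if_pos hiv.1, ← mean_mul_fib hw hwm (H.gm s), ← mean_add (f := fun y => w y * fib (W i) (g s) y)
        (hwm.mul (measurable_fib (H.gm s))) (fun y => mul_le_one'' (hw1 y) (hD _ (H.g1 s) y))
        (fun y => mul_le_one'' (hw1 y) (tsub_le_self.trans (H.a1 i y)))]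
      unfold mean
      refine ENNReal.toReal_mono ?_ (lintegral_mono fun y => ?_)
      · have hmm : Measurable fun y => w y * fib (W i) (g s) y :=
          hwm.mul (measurable_fib (H.gm s))
        have hadd := lintegral_add_left (μ := stdGaussian E) hmm
          (fun y => w y * (a i y - fib (W i) (g s) y))
        refine ne_of_eq_of_ne hadd ?_
        exact ENNReal.add_ne_top.2 ⟨lintegral_ne_top_of_le_one
          (fun y => mul_le_one'' (hw1 y) (hD _ (H.g1 s) y)), lintegral_ne_top_of_le_one
          (fun y => mul_le_one'' (hw1 y) (tsub_le_self.trans (H.a1 i y)))⟩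
      · rw [← mul_add]
        refine mul_le_mul' le_rfl (max_le ?_ (le_add_right le_rfl))
        rw [add_comm]
        exact le_tsub_add
    have h4 : ∑ t ∈ Ico s e, opn W nw g a i t w = opn W nw g a i s w := by
      refine Finset.sum_eq_single_of_mem s (Finset.mem_Ico.2 ⟨le_rfl, hiv.2.1⟩) ?_
      intro t ht hts
      rw [Finset.mem_Ico] at ht
      unfold opn
      rw [if_neg (hiv.2.2.2.2 t (by omega) ht.2)]
    have h5 : ∑ t ∈ Ico s e, cost W nw nb T g h om a (k + 1) i t w
        = ∑ t ∈ Ico s e, opn W nw g a i t w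
          + ∑ t ∈ Ico s e, (cls W nw nb T g h om a i t w + rot nw T g h om i t w
          + cost W nw nb T g h om a k (i + 1) t (fun y => w y * om i t y)) := by
      rw [← Finset.sum_add_distrib]
      refine Finset.sum_congr rfl fun t _ => ?_
      rw [cost]
      ring
    rw [h5, h4]
    linarith

/-- **total ledger, nested form** -/
theorem total_nested (hT : 0 < T) (hn0 : nw 0 = {0}) :
    mean (h (T - 1)) - mean (g 0)
      ≤ ∑ t ∈ range T, cost W nw nb T g h om a (n + 1) 0 t (fun _ => 1) := by
  have hiv : Iv (nw 0) T 0 T := by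
    refine ⟨by rw [hn0]; rfl, hT, le_rfl, Or.inr rfl, fun r h1 _ h3 => ?_⟩
    rw [hn0] at h3
    rw [Set.mem_singleton_iff] at h3
    omega
  have h1 := H.life (n + 1) 0 (by omega) 0 T hiv (fun _ => 1) (inv_const _ 1) measurable_const
    (fun _ => le_rfl)
  simp only [one_mul] at h1
  rw [Finset.range_eq_Ico]
  exact h1

end Bk

/-- the product of the rules of the levels `< i` -/
noncomputable def Omp (om : ℕ → ℕ → E → ℝ≥0∞) (i t : ℕ) : E → ℝ≥0∞ :=
  fun x => ∏ k ∈ range i, om k t x

lemma Omp_zero (om : ℕ → ℕ → E → ℝ≥0∞) (t : ℕ) : Omp om 0 t = fun _ => 1 := by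
  funext x; simp [Omp]

lemma Omp_succ (om : ℕ → ℕ → E → ℝ≥0∞) (i t : ℕ) :
    Omp om (i + 1) t = fun x => Omp om i t x * om i t x := by
  funext x
  simp only [Omp]
  rw [Finset.prod_range_succ]

namespace Bk

variable {W : ℕ → Submodule ℝ E} {nw nb : ℕ → Set ℕ} {n T : ℕ} {g h : ℕ → E → ℝ≥0∞}
  {om : ℕ → ℕ → E → ℝ≥0∞} {a : ℕ → E → ℝ≥0∞}

lemma cost_eq (t : ℕ) : ∀ k i, cost W nw nb T g h om a k i t (Omp om i t)
    = ∑ j ∈ Ico i (i + k), (opn W nw g a j t (Omp om j t) + cls W nw nb T g h om a j t (Omp om j t)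
        + rot nw T g h om j t (Omp om j t))
      + (mean (fun y => Omp om (i + k) t y * h t y) - mean (fun y => Omp om (i + k) t y * g t y))
  | 0, i => by simp [cost]
  | k + 1, i => by
    rw [cost, ← Omp_succ, cost_eq t k (i + 1), show i + 1 + k = i + (k + 1) by ring]
    rw [← Finset.sum_Ico_consecutive (f := fun j => (opn W nw g a j t (Omp om j t)
      + cls W nw nb T g h om a j t (Omp om j t) + rot nw T g h om j t (Omp om j t)))
      (Nat.le_succ i) (by omega : i + 1 ≤ i + (k + 1)), Nat.Ico_succ_singleton,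
      Finset.sum_singleton]
    ring

open Classical in
/-- price of a change of frame at the stopped labels of level `i` -/
noncomputable def rotS (W : ℕ → Submodule ℝ E) (nw : ℕ → Set ℕ) (T : ℕ) (g h : ℕ → E → ℝ≥0∞)
    (om : ℕ → ℕ → E → ℝ≥0∞) (i t : ℕ) : ℝ :=
  if t + 1 ∉ nw i ∧ t + 1 < T then
    mean (fun y => Omp om i t y * (1 - om i t y)
      * (fib (W i) (h t) y - fib (W i) (g (t + 1)) y)) else 0

lemma rotS_nonneg (W : ℕ → Submodule ℝ E) (nw : ℕ → Set ℕ) (T : ℕ) (g h : ℕ → E → ℝ≥0∞)
    (om : ℕ → ℕ → E → ℝ≥0∞) (i t : ℕ) : 0 ≤ rotS W nw T g h om i t := by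
  unfold rotS
  split_ifs
  exacts [mean_nonneg _, le_rfl]

variable (H : Bk W nw nb n T g h om a)
include H

lemma omp_meas (i t : ℕ) : Measurable (Omp om i t) := by
  induction i with
  | zero => rw [Omp_zero]; exact measurable_const
  | succ i ih => rw [Omp_succ]; exact ih.mul (H.omm i t)

lemma omp_le (i t : ℕ) (x : E) : Omp om i t x ≤ 1 := by
  induction i with
  | zero => rw [Omp_zero]
  | succ i ih => rw [Omp_succ]; exact mul_le_one'' ih (H.om1 i t x)

lemma omp_inv (i t : ℕ) : Inv (W i) (Omp om i t) := by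
  induction i with
  | zero => rw [Omp_zero]; exact inv_const _ 1
  | succ i ih => rw [Omp_succ]; exact ((ih.mul (H.omi i t)).mono (H.mono (Nat.le_succ i)))

/-- decomposition according to the first level with `om < 1` -/
lemma mean_split (t : ℕ) {φ : E → ℝ≥0∞} (hφ : Measurable φ) (hφ1 : ∀ x, φ x ≤ 1) (m : ℕ) :
    mean (fun y => Omp om m t y * φ y)
      + ∑ i ∈ range m, mean (fun y => Omp om i t y * (1 - om i t y) * fib (W i) φ y) = mean φ := by
  induction m with
  | zero => simp [Omp_zero]
  | succ m ih =>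
    rw [Finset.sum_range_succ, ← ih]
    have h1 : mean (fun y => Omp om m t y * φ y)
        = mean (fun y => Omp om (m + 1) t y * φ y)
          + mean (fun y => Omp om m t y * (1 - om m t y) * fib (W m) φ y) := by
      have hw : Inv (W m) (fun y => Omp om m t y * (1 - om m t y)) :=
        (H.omp_inv m t).mul (fun x w hw => by simp only [H.omi m t x w hw])
      have hwm : Measurable fun y => Omp om m t y * (1 - om m t y) :=
        (H.omp_meas m t).mul (measurable_const.sub (H.omm m t))
      rw [mean_mul_fib hw hwm hφ, ← mean_add]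
      · congr 1
        funext y
        rw [Omp_succ]
        calc Omp om m t y * φ y = Omp om m t y * ((om m t y + (1 - om m t y)) * φ y) := by
              rw [add_tsub_cancel_of_le (H.om1 m t y), one_mul]
          _ = _ := by ring
      · exact (H.omp_meas (m + 1) t).mul hφ
      · exact fun y => mul_le_one'' (H.omp_le _ _ y) (hφ1 y)
      · exact fun y => mul_le_one'' (mul_le_one'' (H.omp_le _ _ y) tsub_le_self) (hφ1 y)
    rw [h1]
    ring

/-- the value cost of a change of frame -/
lemma rot_le {i t : ℕ} (hmean : t + 1 < T → mean (h t) = mean (g (t + 1))) :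
    rot nw T g h om i t (Omp om i t) ≤ ∑ j ∈ range (i + 1), rotS W nw T g h om j t := by
  unfold rot
  split_ifs with hc
  swap
  · exact Finset.sum_nonneg fun j _ => rotS_nonneg W nw T g h om j t
  obtain ⟨hc1, hc2, hc3⟩ := hc
  have hmono : ∀ j, j ≤ i → t + 1 ∉ nw j := by
    intro j hj hcon
    have hm : Monotone nw := monotone_nat_of_le_succ fun k => (H.nw_nb k).trans (H.nb_nw k)
    exact hc2 (hm hj hcon)
  have h1 := H.mean_split t (H.gm (t + 1)) (H.g1 (t + 1)) (i + 1)
  have h2 := H.mean_split t (H.hm t) (H.h1 t) (i + 1)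
  rw [← hmean hc3] at h1
  rw [Omp_succ] at h1 h2
  have h3 : ∀ j ∈ range (i + 1),
      mean (fun y => Omp om j t y * (1 - om j t y) * fib (W j) (h t) y)
        - mean (fun y => Omp om j t y * (1 - om j t y) * fib (W j) (g (t + 1)) y)
        ≤ rotS W nw T g h om j t := by
    intro j hj
    rw [Finset.mem_range] at hj
    unfold rotS
    rw [if_pos ⟨hmono j (by omega), hc3⟩, sub_le_iff_le_add]
    refine mean_le_add ?_ ?_ ?_ (fun y => ?_)
    · exact ((H.omp_meas j t).mul (measurable_const.sub (H.omm j t))).mul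
        ((measurable_fib (H.hm t)).sub (measurable_fib (H.gm (t + 1))))
    · exact fun y => mul_le_one'' (mul_le_one'' (H.omp_le _ _ y) tsub_le_self)
        (tsub_le_self.trans (fib_le_one (H.h1 t) y))
    · exact fun y => mul_le_one'' (mul_le_one'' (H.omp_le _ _ y) tsub_le_self)
        (fib_le_one (H.g1 (t + 1)) y)
    · rw [← mul_add]
      exact mul_le_mul' le_rfl le_tsub_add
  calc _ = ∑ j ∈ range (i + 1),
        (mean (fun y => Omp om j t y * (1 - om j t y) * fib (W j) (h t) y)
        - mean (fun y => Omp om j t y * (1 - om j t y) * fib (W j) (g (t + 1)) y)) := by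
        rw [Finset.sum_sub_distrib]; linarith
    _ ≤ _ := Finset.sum_le_sum h3

lemma sum_rot_le {t : ℕ} (hmean : t + 1 < T → mean (h t) = mean (g (t + 1))) :
    ∑ i ∈ range (n + 1), rot nw T g h om i t (Omp om i t)
      ≤ ∑ i ∈ range (n + 1), rotS W nw T g h om i t := by
  have hm : Monotone nw := monotone_nat_of_le_succ fun k => (H.nw_nb k).trans (H.nb_nw k)
  by_cases hc : ∃ r ∈ range (n + 1), t + 1 ∈ nw (r + 1) ∧ t + 1 ∉ nw r ∧ t + 1 < T
  · obtain ⟨r, hr, hr1, hr2, hr3⟩ := hc
    rw [Finset.sum_eq_single_of_mem r hr]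
    · refine (H.rot_le hmean).trans ?_
      refine Finset.sum_le_sum_of_subset_of_nonneg (fun j hj => ?_)
        fun j _ _ => rotS_nonneg W nw T g h om j t
      rw [Finset.mem_range] at hr hj ⊢
      omega
    · intro j hj hjr
      unfold rot
      rw [if_neg]
      rintro ⟨h1, h2, -⟩
      rcases lt_or_gt_of_ne hjr with h3 | h3
      · exact hr2 (hm (by omega : j + 1 ≤ r) h1)
      · exact h2 (hm (by omega : r + 1 ≤ j) hr1)
  · push Not at hc
    have : ∑ i ∈ range (n + 1), rot nw T g h om i t (Omp om i t) = 0 := by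
      refine Finset.sum_eq_zero fun i hi => ?_
      unfold rot
      rw [if_neg]
      rintro ⟨h1, h2, h3⟩
      have := hc i hi h1 h2
      omega
    rw [this]
    exact Finset.sum_nonneg fun j _ => rotS_nonneg W nw T g h om j t

/-- **TOTAL LEDGER.** -/
theorem total (hT : 0 < T) (hn0 : nw 0 = {0})
    (hmean : ∀ t, t + 1 < T → mean (h t) = mean (g (t + 1))) :
    mean (h (T - 1)) + ∑ t ∈ range T, mean (fun y => Omp om (n + 1) t y * g t y)
      ≤ mean (g 0) + ∑ t ∈ range T, mean (fun y => Omp om (n + 1) t y * h t y)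
        + ∑ t ∈ range T, ∑ i ∈ range (n + 1), (opn W nw g a i t (Omp om i t)
          + cls W nw nb T g h om a i t (Omp om i t) + rotS W nw T g h om i t) := by
  have h1 := H.total_nested hT hn0
  have h2 : ∀ t ∈ range T, cost W nw nb T g h om a (n + 1) 0 t (fun _ => 1)
      ≤ (mean (fun y => Omp om (n + 1) t y * h t y) - mean (fun y => Omp om (n + 1) t y * g t y))
        + ∑ i ∈ range (n + 1), (opn W nw g a i t (Omp om i t)
          + cls W nw nb T g h om a i t (Omp om i t) + rotS W nw T g h om i t) := by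
    intro t _
    have h3 := cost_eq (W := W) (nw := nw) (nb := nb) (T := T) (g := g) (h := h) (om := om)
      (a := a) t (n + 1) 0
    rw [Omp_zero, zero_add, ← Finset.range_eq_Ico] at h3
    rw [h3, Finset.sum_add_distrib, Finset.sum_add_distrib, Finset.sum_add_distrib,
      Finset.sum_add_distrib]
    have h4 := H.sum_rot_le (hmean t)
    linarith
  have h5 := Finset.sum_le_sum h2
  rw [Finset.sum_add_distrib, Finset.sum_sub_distrib] at h5
  linarith

end Bk

end Vale.Agent.P262.H395
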